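import Vale.Agent.P004C.Mu.St0
import Vale.Agent.P004S.Gal2
import Vale.Agent.P004S.Cnz

/-!
# P004 C, block MU: the row `FIN` (helper80)
-/

set_option linter.all false

noncomputable section

namespace Vale.Agent.P004C.Mu

open NumberField Matrix
open Vale.Agent.P022 (Qb GQ)
open Vale.Agent.P027M.S (Inert)
open Vale.Agent.P022E.GW (Ov Ch)
open Vale.Agent.P004S

/-- the residual cocycles which are unramified outside a finite set -/
theorem fin_un {r : Rp} {S : Finset ℕ} (hr : Rep r S) (U : Finset ℕ) :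
    {z : GQ → W | Zb r z ∧ Un (· ∉ U) z}.Finite := by
  obtain ⟨C, hC⟩ := cnt _ (hr.Kn_open 1)
  let Q : Set GQ := {g | ∃ l P, Ov l P ∧ l ∉ U ∧ Inert P g}
  have e : {ξ : GQ → ZMod 2 | Ch (hr.Kn 1 ⊓ ⊤) ξ ∧ (∀ g ∉ hr.Kn 1 ⊓ ⊤, ξ g = 0) ∧
      ∀ g ∈ Q, ξ g = 0}.Finite := by
    rw [inf_top_eq]
    exact (hC U).1.subset fun ξ k => ⟨k.1, k.2.1, fun l P a b g c => k.2.2 g ⟨l, P, a, b, c⟩⟩
  refine (cnz W (fun g => (rb r g).toLin') (hr.Kn 1) ⊤ Q _ (idx_ne (hr.Kn_open 1))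
    (fun g k x => by rw [hr.tr_one_iff.1 k, toLin'_apply, one_mulVec]) e le_rfl).1.subset
    fun F k => ⟨k.1.1.comp_continuous continuous_subtype_val, fun g _ j _ => k.1.2 g j,
      fun g a => absurd trivial a, ?_⟩
  rintro g ⟨l, P, a, b, c⟩
  exact k.2 l P a b g c

theorem fin : FIN := fun D h u s d N Q ε =>
  ((fin_un h.rep (D.S ∪ (D.d₁ * D.d₂).primeFactors ∪ N ∪ Q)).subset fun z a =>
    ⟨a.zb, fun l P o m => a.un l P o (by
      simp only [Finset.mem_union, not_or, Nat.mem_primeFactors] at m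
      exact ⟨m.1.1.1, fun k => m.1.1.2 ⟨o.1, k, h.cg.sq.ne_zero⟩, m.1.2, m.2⟩)⟩).to_subtype

end Vale.Agent.P004C.Mu
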