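import Vale.Agent.P004C.Mu.Chv

/-!
# P004 C, block MU: the glue
-/

set_option linter.all false

noncomputable section

namespace Vale.Agent.P004C.Mu

open Matrix
open Vale.Agent.P022 (GQ)
open Vale.Agent.P004S
open Vale.Agent.P004F.En (Gq)

/-- elements with odd trace are good -/
theorem gq_odd {r : Rp} {S : Finset ℕ} (h : Rep r S) {g : GQ} (t : (rb r g).trace = 1) (m : ℕ) :
    Gq r m g := by
  have a : ‖(mt r g).trace‖ ≤ 1 := by rw [trace_fin_two]; exact norm_add_le' (h.int _ _ _) (h.int _ _ _)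
  have b : rd (mt r g).trace = 1 := by
    rw [trace_fin_two, rd_add (h.int _ _ _) (h.int _ _ _), ← t, trace_fin_two]; rfl
  have c := h.norm_ep g
  have d : rd (ep r g) = 1 := if_neg (by rw [c]; simp)
  have e : ∀ x : ℚ_[2], rd x = 1 → (1 / 2 : ℝ) ^ 0 ≤ ‖x‖ := fun x k => not_lt.1 fun n => by
    rw [rd, if_pos (by simpa using n)] at k
    exact zero_ne_one k
  have o : ‖(1 : ℚ_[2])‖ ≤ 1 := by simp
  refine Gq.mono ⟨e _ ?_, e _ ?_⟩ (Nat.zero_le m)
  · rw [rd_add (norm_sub_le' o a) c.le, rd_sub o a, rd_one, b, d]; rfl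
  · rw [rd_add (norm_add_le' o a) c.le, rd_add o a, rd_one, b, d]; rfl

/-- **the export of the block** -/
theorem mu_of (hK : KIL) (hT : TWV) (hL : LEV) : MU := fun D ok hb K _ _ j kd => by
  obtain ⟨k, hk⟩ := hK D ok
  obtain ⟨m, hm⟩ := chv D ok hb
  obtain ⟨F, hF⟩ := hT D ok K j kd
  refine ⟨k + 2, m, fun n => ?_⟩
  obtain ⟨Q, ε, q1, q2, q3⟩ := hk _ (fun q a => a.1.toGt) (hm n F)
  obtain ⟨c, e, tw⟩ := hF n Q ε fun q a => (q2 q a).1
  exact ⟨Q, ε, c, e, tw, tw.crd.trans (by omega), fun q hq d => (tw.oth q hq d).elim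
    (fun a => (q2 q a).2) fun a => gq_odd ok.rep a m, hL D ok K j kd n Q ε c e tw q3⟩

end Vale.Agent.P004C.Mu
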