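import Vale.Agent.P004C.Mu.Gw1

/-!
# P004 C, block MU, row GWL: assembly, given the indices at two
-/

set_option linter.all false

noncomputable section

namespace Vale.Agent.P004C.Mu.Gl

open NumberField
open scoped NumberTheorySymbols
open Vale.Agent.P022 (Qb GQ)
open Vale.Agent.P027M.S (Inert)
open Vale.Agent.P022D.W (dec)
open Vale.Agent.P022E.GW (Ov)
open Vale.Agent.P004S (Rp Rep W Zb)

/-- the indices at the place above two -/
def TWO : Prop := ∀ (r : Rp) (S : Finset ℕ) (P : Ideal (𝓞 Qb)), Rep r S → Ov 2 P →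
  Ix (Zb r) (Ot r P) (h0 r (dec P)) ∧
    Ix (Zb r) (fun z => Ot r P z ∧ Cb r {g | Inert P g} z) (h0 r (dec P) * 4)

variable {D : Dt} {l : ℕ}

theorem nS (h : D.Ok) (hl : l.Prime) (m : l ∣ D.d₁ * D.d₂) : l ∉ D.S := fun a => by
  by_cases e : l = 2
  · subst e
    have := h.cg.m1
    have := h.cg.m2
    rcases (Nat.Prime.dvd_mul hl).1 m with b | b <;> omega
  have : NeZero l := ⟨hl.ne_zero⟩
  have b := jacobiSym.eq_zero_iff_not_coprime (a := -(D.d₁ * D.d₂ : ℤ)) (b := l)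
  rw [(h.cg.jc l a e).2, Int.gcd, Int.natAbs_neg, ← Nat.cast_mul, Int.natAbs_natCast,
    Int.natAbs_natCast, Nat.gcd_comm, Nat.gcd_eq_left m] at b
  exact one_ne_zero (b.2 hl.ne_one)

theorem key (h : D.Ok) {u s : Prop} {d d' a b : ℕ} (dd : d * d' = D.d₁ * D.d₂) {N Q : Finset ℕ}
    (ε : ℕ → ZMod 2) (hN : ∀ x ∈ N, D.Gt x) (hQ : ∀ x ∈ Q, D.Gt x) (dj : Disjoint N Q)
    (ha : Ix (Zb D.r) (fun z => Ot D.r (D.pl.P 2) z ∧ (u → Cb D.r {g | Inert (D.pl.P 2) g} z))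
      (h0 D.r (dec (D.pl.P 2)) * a)) (hb : Ix (Zb D.r) (fun z => s → Cb D.r {D.k} z) b) :
    4 * hz D.r D.k * (∏ l ∈ d'.primeFactors, hz D.r (D.pl.σ l)) * 4 ^ N.card ≤
      a * b * (∏ l ∈ d.primeFactors, hz D.r (D.pl.σ l)) * Nat.card (D.Sl u s d N Q ε) := by
  have hr := h.rep
  have sq := h.cg.sq
  have hG : ∀ x ∈ N ∪ Q, D.Gt x := fun x m => (Finset.mem_union.1 m).elim (hN x) (hQ x)
  have pf : ∀ {l e : ℕ}, e ∣ D.d₁ * D.d₂ → l ∈ e.primeFactors → l.Prime ∧ l ∣ D.d₁ * D.d₂ :=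
    fun a m => ⟨Nat.prime_of_mem_primeFactors m, (Nat.dvd_of_mem_primeFactors m).trans a⟩
  have d1 : d ∣ D.d₁ * D.d₂ := Dvd.intro _ dd
  have d2 : d' ∣ D.d₁ * D.d₂ := Dvd.intro_left _ dd
  obtain ⟨T, tt, pT, fin, cd⟩ := glob hr h.irr D.pl h.cj
    (T₀ := D.S ∪ ((D.d₁ * D.d₂).primeFactors ∪ (N ∪ Q))) fun l m => by
      simp only [Finset.mem_union (s := D.S), Finset.mem_union (t := N ∪ Q)] at m
      exact m.elim (h.pr l) fun m => m.elim Nat.prime_of_mem_primeFactors fun m => (hG l m).pr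
  simp only [Finset.union_subset_iff] at tt
  obtain ⟨t1, t2, t3, t4⟩ := tt
  have t5 : ∀ {l : ℕ}, l.Prime → l ∣ D.d₁ * D.d₂ → l ∈ T := fun a b =>
    t2 (Nat.mem_primeFactors.2 ⟨a, b, sq.ne_zero⟩)
  let R := insert 2 (d'.primeFactors ∪ (N ∪ Q))
  have hR : ∀ l, l ∉ R ↔ l ≠ 2 ∧ l ∉ d'.primeFactors ∧ l ∉ N ∪ Q := fun l => by
    simp only [R, Finset.mem_insert, Finset.mem_union (t := N ∪ Q), not_or]
  have RT : R ⊆ T := Finset.insert_subset (t1 hr.two) (Finset.union_subset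
    (fun l m => t5 (pf d2 m).1 (pf d2 m).2) (Finset.union_subset t3 t4))
  have eh : ∀ l, l.Prime → l ∉ D.S → h0 D.r (dec (D.pl.P l)) = hz D.r (D.pl.σ l) := fun l p m =>
    h0_eq hr (D.pl.ov l p) m (D.pl.fb l p)
  obtain ⟨B, b1, b2, b3⟩ := (((Ix.prod (T \ R) fun l m => ix_ur hr
    (D.pl.ov l (pT l (Finset.mem_sdiff.1 m).1)) ((hR l).1 (Finset.mem_sdiff.1 m).2).1).trans
    (Ix.prod d.primeFactors fun l m => (ix_str hr (D.pl.ov l (pf d1 m).1)
      (nS h (pf d1 m).1 (pf d1 m).2) (D.pl.fb l (pf d1 m).1)).mono (fun z a => ⟨a.1, a.2 l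
        (Finset.mem_sdiff.2 ⟨t5 (pf d1 m).1 (pf d1 m).2, (hR l).2
          ⟨hr.ne_two (nS h (pf d1 m).1 (pf d1 m).2), fun j => (pf d1 m).1.not_isUnit (sq l
            (dd ▸ mul_dvd_mul (Nat.dvd_of_mem_primeFactors m) (Nat.dvd_of_mem_primeFactors j))),
          fun j => (hG l j).nd (pf d1 m).2⟩⟩)⟩) fun _ _ a => a)).and (ha.and (hb.and
    (Ix.prod Q fun q m => ix_tw (hQ q m).one (D.pl.τ q) (ε q))))) (Zt D.r T) fin fun z m => m.1
  have s1 : B ≤ D.Sl u s d N Q ε := fun z m => by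
    obtain ⟨⟨c1, c2⟩, c3, c4, c5⟩ := b2 z m
    exact ⟨(b1 m).1, fun l P o ⟨a1, a2, a3, a4⟩ g i => if j : l ∈ T then un_of hr (D.pl.ov l o.1)
      a1 (b1 m).1 (c1 l (Finset.mem_sdiff.2 ⟨j, (hR l).2 ⟨hr.ne_two a1, fun k => a2 (pf d2 k).2,
        by simp [a3, a4]⟩⟩)) o i else (b1 m).2 l P o j g i,
      fun p a e => c1 p (Finset.mem_sdiff.2 ⟨t1 a, (hR p).2 ⟨e,
        fun k => nS h (pf d2 k).1 (pf d2 k).2 a, fun k => (hG p k).nS a⟩⟩), c3.1, c3.2, c4,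
      fun l p a => c2 l (Nat.mem_primeFactors.2 ⟨p, a, ne_zero_of_dvd_ne_zero sq.ne_zero d1⟩), c5⟩
  have s2 : D.Sl u s d N Q ε ≤ Zt D.r T := fun z m => ⟨m.zb, fun l P o j => m.un l P o
    ⟨fun a => j (t1 a), fun a => j (t5 o.1 a), fun a => j (t3 a), fun a => j (t4 a)⟩⟩
  have := Finite.of_injective _ (AddSubgroup.inclusion_injective s2)
  have e := (cd.trans b3).trans (Nat.mul_le_mul_left _ (AddSubgroup.card_le_of_le s1))
  rw [← Finset.prod_sdiff RT, Finset.prod_insert (by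
      simp only [Finset.mem_union (t := N ∪ Q), not_or]
      exact ⟨fun j => nS h (pf d2 j).1 (pf d2 j).2 hr.two, fun j => (hG 2 j).nS hr.two⟩),
    Finset.prod_union (Finset.disjoint_left.2 fun l a j => (hG l j).nd (pf d2 a).2),
    Finset.prod_union dj,
    Finset.prod_congr rfl fun l a => eh l (pf d2 a).1 (nS h (pf d2 a).1 (pf d2 a).2),
    Finset.prod_congr rfl fun l a => (eh l (hN l a).pr (hN l a).nS).trans (hz_one (hN l a).one),
    Finset.prod_congr rfl fun l a => eh l (hQ l a).pr (hQ l a).nS, Finset.prod_const] at e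
  refine Nat.le_of_mul_le_mul_left (c := (∏ l ∈ T \ R, h0 D.r (dec (D.pl.P l))) *
    (h0 D.r (dec (D.pl.P 2)) * ∏ l ∈ Q, hz D.r (D.pl.σ l))) (le_of_eq_of_le (by ring)
      (e.trans_eq (by ring))) (mul_pos (Finset.prod_pos fun _ _ => h0_pos _ _)
        (mul_pos (h0_pos _ _) (Finset.prod_pos fun _ _ => hz_pos _ _)))

theorem gwl_of (H : TWO) : GWL := fun D h Q ε hQ => by
  obtain ⟨t1, t2⟩ := H D.r D.S _ h.rep (D.pl.ov 2 Nat.prime_two)
  obtain ⟨b, b1, b2⟩ := ix_inf h.rep h.cj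
  have a1 : Ix (Zb D.r) (fun z => Ot D.r (D.pl.P 2) z ∧ (False → Cb D.r {g | Inert (D.pl.P 2) g} z))
      (h0 D.r (dec (D.pl.P 2)) * 1) :=
    (mul_one (h0 D.r _)).symm ▸ t1.mono (fun _ a => a) fun _ _ a => ⟨a, False.elim⟩
  have a2 : Ix (Zb D.r) (fun z => False → Cb D.r {D.k} z) 1 := Ix.triv fun _ _ => False.elim
  have bal := h.bal
  have p1 : 0 < ∏ l ∈ D.d₁.primeFactors, hz D.r (D.pl.σ l) := Finset.prod_pos fun _ _ => hz_pos _ _
  have p2 : 0 < ∏ l ∈ D.d₂.primeFactors, hz D.r (D.pl.σ l) := Finset.prod_pos fun _ _ => hz_pos _ _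
  refine ⟨?_, fun q g n => ?_⟩
  · have e := key h (one_mul _) ε (N := ∅) (by simp) hQ (by simp) a1 a2
    have := Finset.prod_le_prod_of_subset_of_one_le' (f := fun l => hz D.r (D.pl.σ l))
      (Nat.primeFactors_mono (dvd_mul_left D.d₂ D.d₁) h.cg.sq.ne_zero) fun _ _ _ => hz_pos _ _
    simp only [Finset.card_empty, pow_zero, mul_one, Nat.primeFactors_one, Finset.prod_empty,
      one_mul] at e
    nlinarith [Nat.mul_le_mul_left (hz D.r D.k) this]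
  have hN : ∀ x ∈ ({q} : Finset ℕ), D.Gt x := fun x m => Finset.mem_singleton.1 m ▸ g
  have e1 := key h (mul_comm _ _) ε hN hQ (Finset.disjoint_singleton_left.2 n) a1
    (b2.mono (fun _ a => a) fun _ _ a (_ : True) => a)
  have e2 := key h rfl ε hN hQ (Finset.disjoint_singleton_left.2 n)
    (t2.mono (fun _ a => a) fun _ _ a => ⟨a.1, fun _ : True => a.2⟩) a2
  rw [Finset.card_singleton] at e1 e2
  generalize ∏ l ∈ D.d₁.primeFactors, hz D.r (D.pl.σ l) = x at *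
  generalize ∏ l ∈ D.d₂.primeFactors, hz D.r (D.pl.σ l) = y at *
  have pk := hz_pos D.r D.k
  generalize hz D.r D.k = c at *
  generalize Nat.card (D.Sl False True D.d₂ {q} Q ε) = m at *
  refine ⟨Nat.le_of_mul_le_mul_left (c := c * c * y) ?_ (by positivity),
    Nat.le_of_mul_le_mul_left (c := 4 * x) ?_ (by positivity)⟩
  · calc _ = 16 * c * (c * y) := by ring
      _ = 4 * (4 * c * x * 4 ^ 1) := by rw [bal]; ring
      _ ≤ _ := Nat.mul_le_mul_left _ e1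
      _ = 4 * b * (y * m) := by ring
      _ ≤ c * c * (y * m) := Nat.mul_le_mul_right _ b1
      _ = _ := by ring
  · calc _ = 16 * (4 * x) := by ring
      _ = 4 * c * y * 4 ^ 1 := by rw [← bal]; ring
      _ ≤ _ := e2
      _ = _ := by ring

end Vale.Agent.P004C.Mu.Gl
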