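import Vale.Agent.P004C.Mu.Gw2
import Vale.Agent.P004C.Mu.Gw3

/-!
# P004 C, block MU: the row GWL, closed
-/

set_option linter.all false

noncomputable section

namespace Vale.Agent.P004C.Mu

open Matrix
open Vale.Agent.P022 (GQ)
open Vale.Agent.P004S (W)

theorem G2l.ix_of {Z C : (GQ → W) → Prop} {n : ℕ} (c0 : C 0) (ca : ∀ y z, C y → C z → C (y + z))
    (h : ∀ A : AddSubgroup (GQ → W), Finite A → (∀ z ∈ A, Z z) →
      Nat.card A ≤ n * Nat.card {z : A // C z}) : Gl.Ix Z C n := fun A f hA =>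
  ⟨{ carrier := {z | z ∈ A ∧ C z}
     add_mem' := fun a b => ⟨add_mem a.1 b.1, ca _ _ a.2 b.2⟩
     zero_mem' := ⟨zero_mem _, c0⟩
     neg_mem' := fun {z} a => by
       rwa [show -z = z from funext fun g => funext fun i => ZMod.neg_eq_self_mod_two _] },
    fun _ m => m.1, fun _ m => m.2, (h A f hA).trans_eq (congrArg _
      (Nat.card_congr (Equiv.subtypeSubtypeEquivSubtypeInter (· ∈ A) C)))⟩

theorem G2l.two : Gl.TWO := fun r S P hr o =>
  ⟨G2l.ix_of (fun x _ _ _ => by
      simp only [Pi.zero_apply, mulVec_zero, P004S.wp_zero_right]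
      exact zero_mem _) (fun y z a b x x1 x2 x3 => by
      simp only [Pi.add_apply, mulVec_add, P004S.wp_add_right]
      exact add_mem (a x x1 x2 x3) (b x x1 x2 x3)) fun A _ hA => G2l.ot_idx hr o A hA,
    (G2l.ix_of (Cb.zero _ _) (fun _ _ => Cb.add) fun A _ hA =>
      (G2l.two_idx hr o A hA).trans_eq (by rw [mul_comm 4]; rfl)).mono (fun _ a => a)
      fun _ a c => ⟨G2l.ot_of_ur hr o a c, c⟩⟩

/-- **the lower bounds** -/
theorem gwl : GWL := Gl.gwl_of G2l.two

end Vale.Agent.P004C.Mu
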