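import Mathlib

/-! # P004C, block MU: one step of the killing argument (pure algebra) -/

set_option autoImplicit false
set_option linter.all false

namespace Vale.Agent.P004C.Mu.Kl

variable {H V : Type} [AddCommGroup H] [AddCommGroup V]

theorem le2 (C : AddSubgroup H) (s : H →+ V) (a : V) (h : ∀ z ∈ C, s z = 0 ∨ s z = a) :
    Nat.card C ≤ 2 * Nat.card ↥(C ⊓ s.ker) := by
  have e := (s.ker.addSubgroupOf C).card_mul_index
  have e1 : Nat.card (s.ker.addSubgroupOf C) = Nat.card ↥(C ⊓ s.ker) := by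
    rw [← AddSubgroup.inf_addSubgroupOf_left]
    exact Nat.card_congr (AddSubgroup.addSubgroupOfEquivOfLe inf_le_left).toEquiv
  have e2 : (s.ker.addSubgroupOf C).index ≤ 2 := by
    rw [← AddSubgroup.relIndex, AddSubgroup.relIndex_ker]
    have : (C.map s : Set V) ⊆ {0, a} := by
      rintro _ ⟨z, hz, rfl⟩; exact h z hz
    exact (Set.ncard_le_ncard this).trans ((Set.ncard_insert_le _ _).trans (by simp))
  rw [← e, e1, mul_comm]
  exact Nat.mul_le_mul_right _ e2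

instance fin_inf (A B : AddSubgroup H) [Finite A] : Finite ↥(A ⊓ B) :=
  Finite.of_injective _ (AddSubgroup.inclusion_injective inf_le_left)

theorem le1 {S B : AddSubgroup H} [Finite B] (h : S ≤ B) : Nat.card S ≤ Nat.card B :=
  AddSubgroup.card_le_of_le h

theorem lt1 {S B : AddSubgroup H} [Finite B] (h : S ≤ B) {x : H} (hx : x ∈ B) (hn : x ∉ S) :
    Nat.card S < Nat.card B :=
  lt_of_le_of_ne (le1 h) fun e => hn (AddSubgroup.eq_of_le_of_card_ge h e.ge ▸ hx)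

theorem ge2 {S B : AddSubgroup H} [Finite B] (h : S ≤ B) {x : H} (hx : x ∈ B) (hn : x ∉ S) :
    2 * Nat.card S ≤ Nat.card B := by
  obtain ⟨k, hk⟩ := AddSubgroup.card_dvd_of_le h
  have := lt1 h hx hn
  rw [hk, mul_comm] at *
  refine Nat.mul_le_mul_left _ ?_
  rcases k with _ | _ | k <;> simp_all

/-- the potential -/
noncomputable def pot (B B' : AddSubgroup H) : ℕ := Nat.card B + Nat.card B' + Nat.card ↥(B ⊓ B')

/-- the condition `u = η s` -/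
def ln (u s : H →+ V) (η : Bool) : AddSubgroup H := (if η then u - s else u).ker

variable {R R' : AddSubgroup H} {u s : H →+ V}

theorem mem_ln {η : Bool} {z : H} : z ∈ ln u s η ↔ u z = if η then s z else 0 := by
  cases η <;> simp [ln, sub_eq_zero]

theorem ln_s {η : Bool} {z : H} (h : z ∈ ln u s η) (h0 : s z = 0) : u z = 0 := by
  rw [mem_ln.1 h, h0, ite_self]

theorem half [Finite R] {x : H} (hx : x ∈ R) (x0 : s x = 0) (x1 : u x ≠ 0) {a : V}
    (h : ∀ z ∈ R, s z = 0 ∨ s z = a) (η : Bool) :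
    Nat.card ↥(R ⊓ ln u s η) ≤ Nat.card ↥(R ⊓ s.ker) :=
  (le2 (R ⊓ ln u s η) s a fun z hz => h z hz.1).trans
    (ge2 (x := x) (fun z hz => ⟨hz.1.1, hz.2⟩) ⟨hx, x0⟩ fun k => x1 (ln_s k.1.2 x0))

/-- two different classes -/
theorem stepA [Finite R] [Finite R'] (two : ∀ v : V, v + v = 0) {x x' : H} (hx : x ∈ R)
    (hx' : x' ∈ R') (x0 : s x = 0) (x0' : s x' = 0) (x1 : u x ≠ 0) (x1' : u x' ≠ 0)
    (ne : u x ≠ u x') (h : ∀ z ∈ R, s z = 0 ∨ s z = u x') (h' : ∀ z ∈ R', s z = 0 ∨ s z = u x) :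
    ∃ η, pot (R ⊓ ln u s η) (R' ⊓ ln u s η) < pot (R ⊓ s.ker) (R' ⊓ s.ker) := by
  have : ∃ η, Nat.card ↥(R ⊓ ln u s η) < Nat.card ↥(R ⊓ s.ker) := by
    by_cases k : ∃ η, ∀ z ∈ R ⊓ ln u s η, s z = 0
    · obtain ⟨η, k⟩ := k
      exact ⟨η, lt1 (x := x) (fun z hz => ⟨hz.1, k z hz⟩) ⟨hx, x0⟩ fun k => x1 (ln_s k.2 x0)⟩
    push Not at k
    obtain ⟨y, hy, y1⟩ := k true
    obtain ⟨y', hy', y1'⟩ := k false
    have e1 := (h y hy.1).resolve_left y1
    have e2 := (h y' hy'.1).resolve_left y1'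
    let T : AddSubgroup V :=
      { carrier := {0, u x}
        zero_mem' := Or.inl rfl
        add_mem' := by rintro a b (rfl | rfl) (rfl | rfl) <;> simp [two]
        neg_mem' := by rintro a (rfl | rfl) <;> simp [neg_eq_iff_add_eq_zero, two] }
    refine ⟨true, ((le2 (R ⊓ ln u s true) s (u x') fun z hz => h z hz.1).trans (ge2 (B := R ⊓ s.ker ⊓ T.comap u)
      (x := x) (fun z hz => ⟨⟨hz.1.1, hz.2⟩, Or.inl (ln_s hz.1.2 hz.2)⟩) ⟨⟨hx, x0⟩, Or.inr rfl⟩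
      fun k => x1 (ln_s k.1.2 x0))).trans_lt (lt1 (x := y - y') inf_le_left
        ⟨R.sub_mem hy.1 hy'.1, by simp [e1, e2]⟩ fun k => ?_)⟩
    have e3 : u (y - y') = u x' := by rw [map_sub, mem_ln.1 hy.2, mem_ln.1 hy'.2]; simp [e1]
    rcases k.2 with k | k
    exacts [x1' (e3.symm.trans k), ne (k.symm.trans e3)]
  obtain ⟨η, k⟩ := this
  refine ⟨η, add_lt_add_of_lt_of_le (add_lt_add_of_lt_of_le k (half hx' x0' x1' h' η)) (le1 ?_)⟩
  intro z hz
  have : s z = 0 := (h z hz.1.1).elim id fun a => (h' z hz.2.1).elim id fun b =>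
    absurd (b.symm.trans a) ne
  exact ⟨⟨hz.1.1, this⟩, hz.2.1, this⟩

/-- one common class -/
theorem stepB [Finite R] [Finite R'] {x : H} (hx : x ∈ R) (hx' : x ∈ R') (x0 : s x = 0)
    (x1 : u x ≠ 0) (h : ∀ z ∈ R, s z = 0 ∨ s z = u x) (h' : ∀ z ∈ R', s z = 0 ∨ s z = u x)
    (h'' : ∀ z ∈ R, z ∈ R' → s z = 0) (η : Bool) :
    pot (R ⊓ ln u s η) (R' ⊓ ln u s η) < pot (R ⊓ s.ker) (R' ⊓ s.ker) :=
  add_lt_add_of_le_of_lt (add_le_add (half hx x0 x1 h η) (half hx' x0 x1 h' η))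
    (lt1 (x := x) (fun z hz => ⟨⟨hz.1.1, h'' z hz.1.1 hz.2.1⟩, hz.2.1, h'' z hz.1.1 hz.2.1⟩)
      ⟨⟨hx, x0⟩, hx', x0⟩ fun k => x1 (ln_s k.1.2 x0))

end Vale.Agent.P004C.Mu.Kl
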