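import Vale.Agent.P004C.Mu.St0
import Vale.Agent.P004C.Mu.Kil0
import Vale.Agent.P004S.Lt

/-! # P004C, block MU: row KIL -/

set_option linter.all false

noncomputable section

namespace Vale.Agent.P004C.Mu

open Matrix
open Vale.Agent.P022 (GQ)
open Vale.Agent.P004S (W rb wp Zb Un)

namespace Kl

theorem w1 : ∀ v w : W, w ≠ 0 → wp v w = 0 → v = 0 ∨ v = w := by
  unfold wp; decide

theorem w2 : ∀ v w : W, w ≠ 0 → wp w v = 0 → v = 0 ∨ v = w := by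
  unfold wp; decide

theorem w3 : ∀ v : W, v + v = 0 := by decide

variable {D : Dt} {u s u' s' : Prop} {d d' q : ℕ} {N Q : Finset ℕ} {ε : ℕ → ZMod 2} {z : GQ → W}

/-- the coboundaries -/
def cb (D : Dt) : Finset (GQ → W) := by
  classical exact Finset.univ.image fun (v : W) g => rb D.r g *ᵥ v - v

theorem cb_card (D : Dt) : (cb D).card ≤ 4 := by
  classical exact Finset.card_image_le.trans (by simp)

theorem mem_cb : Cb D.r Set.univ z → z ∈ cb D := fun ⟨v, h⟩ => by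
  classical exact Finset.mem_image.2 ⟨v, Finset.mem_univ _, funext fun g => (h g trivial).symm⟩

theorem card_le {A : AddSubgroup (GQ → W)} {T : Finset (GQ → W)} (h : ∀ z ∈ A, z ∈ T) :
    Nat.card A ≤ T.card :=
  (Set.ncard_le_ncard (show (A : Set (GQ → W)) ⊆ T from h)).trans_eq (Set.ncard_coe_finset T)

theorem of_cb (h : z ∈ D.Sl u s d N Q ε) (k : Cb D.r Set.univ z) : z ∈ D.Sl u' s' d' N Q ε :=
  ⟨h.zb, h.un, h.ur, h.ot, fun _ => k.mono (Set.subset_univ _), fun _ => k.mono (Set.subset_univ _),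
    fun _ _ _ => k.mono (Set.subset_univ _), h.tw⟩

theorem to_top (h : z ∈ D.Sl u s d N Q ε) : z ∈ D.Sl False False 1 N Q ε :=
  ⟨h.zb, h.un, h.ur, h.ot, False.elim, False.elim,
    fun l hl m => absurd (Nat.dvd_one.1 m) hl.ne_one, h.tw⟩

theorem to_bot (h : z ∈ D.Sl False True D.d₂ N Q ε) (k : z ∈ D.Sl True False D.d₁ N Q ε) :
    z ∈ D.Sl True True (D.d₁ * D.d₂) N Q ε :=
  ⟨h.zb, h.un, h.ur, h.ot, k.two, h.inf,
    fun l hl m => ((Nat.Prime.dvd_mul hl).1 m).elim (k.str l hl) (h.str l hl), h.tw⟩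

/-- evaluation -/
def ev (g : GQ) : (GQ → W) →+ W := Pi.evalAddMonoidHom _ g

theorem eq1 (o : D.Ok) (g : D.Gt q) (hq : q ∉ Q) :
    D.Sl u s d ∅ Q ε = D.Sl u s d {q} Q ε ⊓ (ev (D.pl.τ q)).ker := by
  ext z
  refine ⟨fun h => ⟨⟨h.zb, fun l P a b => h.un l P a ⟨b.1, b.2.1, by simp, b.2.2.2⟩, h.ur, h.ot,
    h.two, h.inf, h.str, h.tw⟩, h.un q _ (D.pl.ov q g.pr) ⟨g.nS, g.nd, by simp, hq⟩ _
      (D.pl.τ_inert g.pr fun e => by simpa [e] using g.m4)⟩,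
    fun ⟨h, k⟩ => ⟨h.zb, fun l P a b x hx => ?_, h.ur, h.ot, h.two, h.inf, h.str, h.tw⟩⟩
  by_cases e : l = q
  · subst e
    exact P004S.lt.un_tau o.rep D.pl g.pr g.nS h.zb k a hx
  · exact h.un l P a ⟨b.1, b.2.1, by simpa using e, b.2.2.2⟩ x hx

theorem eq2 (hq : q ∉ Q) (η : Bool) :
    D.Sl u s d ∅ (insert q Q) (Function.update ε q (if η then 1 else 0)) =
      D.Sl u s d {q} Q ε ⊓ ln (ev (D.pl.σ q)) (ev (D.pl.τ q)) η := by
  have e : ∀ x ∈ Q, Function.update ε q (if η then 1 else 0) x = ε x := fun x hx =>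
    Function.update_of_ne (fun k : x = q => hq (k ▸ hx)) _ _
  ext z
  refine ⟨fun h => ⟨⟨h.zb, fun l P a b => h.un l P a ⟨b.1, b.2.1, by simp, by
      simpa using b.2.2⟩, h.ur, h.ot, h.two, h.inf, h.str,
      fun x hx => e x hx ▸ h.tw x (Finset.mem_insert_of_mem hx)⟩, mem_ln.2 ?_⟩,
    fun ⟨h, k⟩ => ⟨h.zb, fun l P a b => h.un l P a ⟨b.1, b.2.1, by simpa using b.2.2.2⟩, h.ur, h.ot,
      h.two, h.inf, h.str, fun x hx => ?_⟩⟩
  · have := h.tw q (Finset.mem_insert_self _ _)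
    cases η <;> simpa [ev] using this
  · rcases Finset.mem_insert.1 hx with rfl | hx
    · have := mem_ln.1 k
      cases η <;> simpa [ev] using this
    · rw [e x hx]; exact h.tw x hx

/-- the potential -/
def po (D : Dt) (Q : Finset ℕ) (ε : ℕ → ZMod 2) : ℕ :=
  pot (D.Sl False True D.d₂ ∅ Q ε) (D.Sl True False D.d₁ ∅ Q ε)

theorem sp {G : ℕ → Prop} (o : D.Ok) (h : D.Sp G) {x y : GQ → W} (hx : x ∈ D.Sl False False 1 ∅ Q ε)
    (hy : y ∈ D.Sl False False 1 ∅ Q ε) (x1 : ¬ Cb D.r Set.univ x) (y1 : ¬ Cb D.r Set.univ y)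
    (e : x = y ∨ ¬ Cb D.r Set.univ (x + y)) : ∃ q ∉ Q, G q ∧ x (D.pl.σ q) ≠ 0 ∧ y (D.pl.σ q) ≠ 0 ∧
      (¬ Cb D.r Set.univ (x + y) → x (D.pl.σ q) ≠ y (D.pl.σ q)) := by
  classical
  have k : ∀ z ∈ D.Sl False False 1 ∅ Q ε,
      Un (· ∉ D.S ∪ (D.d₁ * D.d₂).primeFactors ∪ Q) z := fun z hz l P a b => hz.un l P a (by
    simp only [Finset.mem_union, not_or, Nat.mem_primeFactors_of_ne_zero o.cg.sq.ne_zero] at b
    exact ⟨b.1.1, fun m => b.1.2 ⟨a.1, m⟩, by simp, b.2⟩)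
  by_cases c : Cb D.r Set.univ (x + y)
  · obtain ⟨q, a, b, f⟩ := h ![x, y, x, x] _ fun i => by
      fin_cases i
      exacts [⟨hx.zb, k x hx, x1⟩, ⟨hy.zb, k y hy, y1⟩, ⟨hx.zb, k x hx, x1⟩, ⟨hx.zb, k x hx, x1⟩]
    exact ⟨q, fun m => a (Finset.mem_union_right _ m), b, f 0, f 1, fun n => absurd c n⟩
  · obtain ⟨q, a, b, f⟩ := h ![x, y, x + y, x] _ fun i => by
      fin_cases i
      exacts [⟨hx.zb, k x hx, x1⟩, ⟨hy.zb, k y hy, y1⟩,
        ⟨(add_mem hx hy).zb, k _ (add_mem hx hy), c⟩, ⟨hx.zb, k x hx, x1⟩]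
    exact ⟨q, fun m => a (Finset.mem_union_right _ m), b, f 0, f 1, fun _ m => f 2 (by
      show x _ + y _ = 0
      rw [m, w3])⟩

theorem step (hF : FIN) (hG : GWL) (hR : RCP) (o : D.Ok) {G : ℕ → Prop} (g : ∀ q, G q → D.Gt q)
    (h : D.Sp G) (hQ : ∀ q ∈ Q, G q) (n : ¬ D.Kl Q ε) :
    ∃ q ε', G q ∧ po D (insert q Q) ε' < po D Q ε := by
  classical
  have hQ' := fun q m => g q (hQ q m)
  have fi := hF D o
  have r1 : ∀ q ∉ Q, G q → ∀ y ∈ D.Sl True False D.d₁ ∅ Q ε, y (D.pl.σ q) ≠ 0 →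
      ∀ z ∈ D.Sl False True D.d₂ {q} Q ε, z (D.pl.τ q) = 0 ∨ z (D.pl.τ q) = y (D.pl.σ q) :=
    fun q a b y hy y1 z hz => by
    rw [eq1 o (g q b) a] at hy
    have := hR D o _ _ _ _ _ _ Q ε q hQ' (g q b) a (Or.inr trivial) (Or.inl trivial)
      (mul_comm D.d₁ D.d₂ ▸ dvd_rfl) z hz y hy.1
    rw [show y _ = 0 from hy.2, P004S.wp_zero_right, zero_add] at this
    exact w1 _ _ y1 this
  have r2 : ∀ q ∉ Q, G q → ∀ x ∈ D.Sl False True D.d₂ ∅ Q ε, x (D.pl.σ q) ≠ 0 →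
      ∀ z ∈ D.Sl True False D.d₁ {q} Q ε, z (D.pl.τ q) = 0 ∨ z (D.pl.τ q) = x (D.pl.σ q) :=
    fun q a b y hy y1 z hz => by
    rw [eq1 o (g q b) a] at hy
    have := hR D o _ _ _ _ _ _ Q ε q hQ' (g q b) a (Or.inl trivial) (Or.inr trivial)
      dvd_rfl z hz y hy.1
    rw [show y _ = 0 from hy.2, P004S.wp_zero_right, zero_add] at this
    exact w1 _ _ y1 this
  obtain ⟨x, hx, x1, y, hy, y1⟩ : ∃ x ∈ D.Sl False True D.d₂ ∅ Q ε, ¬ Cb D.r Set.univ x ∧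
      ∃ y ∈ D.Sl True False D.d₁ ∅ Q ε, ¬ Cb D.r Set.univ y := by
    by_contra! c
    rcases not_and_or.1 n with n | n <;> push Not at n <;> obtain ⟨y, hy, y1⟩ := n <;>
      obtain ⟨q, a, b, f, -⟩ := sp o h (to_top hy) (to_top hy) y1 y1 (Or.inl rfl)
    · have e1 := le2 _ (ev (D.pl.τ q)) _ (r2 q a b y hy f)
      have e2 := card_le fun z hz => mem_cb (c y hy y1 z hz)
      rw [← eq1 o (g q b) a] at e1
      have := ((hG D o Q ε hQ').2 q (g q b) a).2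
      have := cb_card D
      omega
    · have e1 := le2 _ (ev (D.pl.τ q)) _ (r1 q a b y hy f)
      have e2 := card_le fun z hz => mem_cb (by_contra fun k => y1 (c z hz k y hy))
      rw [← eq1 o (g q b) a] at e1
      have := ((hG D o Q ε hQ').2 q (g q b) a).1
      have := cb_card D
      omega
  by_cases c : Cb D.r Set.univ (x + y)
  · have hx' : x ∈ D.Sl True False D.d₁ ∅ Q ε := by
      simpa using sub_mem (of_cb (add_mem (to_top hx) (to_top hy)) c) hy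
    obtain ⟨m, hm, m1⟩ : ∃ m ∈ D.Sl False False 1 ∅ Q ε, m ∉ cb D ∪ (cb D).image (· - x) := by
      by_contra! k
      have := (card_le k).trans ((Finset.card_union_le _ _).trans
        (add_le_add (cb_card D) (Finset.card_image_le.trans (cb_card D))))
      have := (hG D o Q ε hQ').1
      omega
    have m2 : ¬ Cb D.r Set.univ (x + m) := fun k => m1 (Finset.mem_union_right _
      (Finset.mem_image.2 ⟨_, mem_cb k, add_sub_cancel_left _ _⟩))
    obtain ⟨q, a, b, f1, f2, f3⟩ := sp o h (to_top hx) hm x1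
      (fun k => m1 (Finset.mem_union_left _ (mem_cb k))) (Or.inr m2)
    refine ⟨q, Function.update ε q (if true then 1 else 0), b, ?_⟩
    have k1 := r1 q a b x hx' f1
    have k2 := r2 q a b x hx f1
    rw [po, po, eq2 a, eq2 a, eq1 o (g q b) a, eq1 (d := D.d₁) o (g q b) a]
    rw [eq1 o (g q b) a] at hx hx' hm
    refine stepB (u := ev (D.pl.σ q)) hx.1 hx'.1 hx.2 f1 k1 k2 (fun z z1 z2 => ?_) _
    have := hR D o _ _ _ _ _ _ Q ε q hQ' (g q b) a (Or.inl trivial) (Or.inl trivial)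
      (dvd_mul_right _ 1) z (to_bot z1 z2) m hm.1
    rw [show m _ = 0 from hm.2, P004S.wp_zero_right, zero_add] at this
    exact (w1 _ _ f2 this).elim id fun e => (k1 z z1).elim id fun e' =>
      absurd (e'.symm.trans e) (f3 m2)
  · obtain ⟨q, a, b, f1, f2, f3⟩ := sp o h (to_top hx) (to_top hy) x1 y1 (Or.inr c)
    have k1 := r1 q a b y hy f2
    have k2 := r2 q a b x hx f1
    rw [eq1 o (g q b) a] at hx hy
    obtain ⟨η, k⟩ := stepA (u := ev (D.pl.σ q)) w3 hx.1 hy.1 hx.2 hy.2 f1 f2 (f3 c) k1 k2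
    refine ⟨q, Function.update ε q (if η then 1 else 0), b, ?_⟩
    rwa [po, po, eq2 a, eq2 a, eq1 o (g q b) a, eq1 (d := D.d₁) o (g q b) a]

end Kl

open Kl in
theorem kil (hF : FIN) (hG : GWL) (hR : RCP) : KIL := by
  intro D o
  refine ⟨po D ∅ 0, fun G g h => ?_⟩
  suffices H : ∀ n Q ε, (∀ q ∈ Q, G q) → po D Q ε ≤ n →
      ∃ Q' ε', Q'.card ≤ Q.card + n ∧ (∀ q ∈ Q', G q) ∧ D.Kl Q' ε' by
    simpa using H _ ∅ 0 (by simp) le_rfl
  intro n
  induction n with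
  | zero =>
    intro Q ε hQ k
    refine ⟨Q, ε, le_rfl, hQ, by_contra fun c => ?_⟩
    obtain ⟨q, ε', -, b⟩ := step hF hG hR o g h hQ c
    omega
  | succ n ih =>
    intro Q ε hQ k
    by_cases c : D.Kl Q ε
    · exact ⟨Q, ε, by omega, hQ, c⟩
    obtain ⟨q, ε', a, b⟩ := step hF hG hR o g h hQ c
    obtain ⟨Q', ε'', k1, k2⟩ := ih (insert q Q) ε' (by simpa using ⟨a, hQ⟩) (by omega)
    have := Finset.card_insert_le q Q
    exact ⟨Q', ε'', by omega, k2⟩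

end Vale.Agent.P004C.Mu
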