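import Vale.Agent.P004S.Bas3
import Vale.Agent.P004T.St
import Vale.Agent.P004F.Pr.Defs

/-!
# P004 C, block MU: towers without free part for an irreducible residual representation (words, residual rows)
-/

set_option linter.all false

noncomputable section

namespace Vale.Agent.P004C.Mu

open NumberField Matrix
open scoped NumberTheorySymbols
open Vale.Agent.P022 (Qb GQ GK IsConj)
open Vale.Agent.P027M.S (Inert)
open Vale.Agent.P022D.W (dec)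
open Vale.Agent.P022E.GW (Ov Fb Gn)
open Vale.Agent.P022K.G2 (B2 tr In)
open Vale.Agent.P004S (Rp Rep W Pl rb wp nu Zb Un IrB)
open Vale.Agent.P004F.Pr (ac)

/-- `z` is a coboundary on `A` -/
def Cb (r : Rp) (A : Set GQ) (z : GQ → W) : Prop := ∃ v : W, ∀ g ∈ A, z g = rb r g *ᵥ v - v

/-- the number of vectors fixed by `g` -/
def hz (r : Rp) (g : GQ) : ℕ := Nat.card {v : W // rb r g *ᵥ v = v}

/-- `z` is orthogonal to the unramified classes at `P` -/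
def Ot (r : Rp) (P : Ideal (𝓞 Qb)) (z : GQ → W) : Prop := ∀ y : GQ → W,
  IsLocallyConstant (fun g : dec P => y g) →
  (∀ g ∈ dec P, ∀ h ∈ dec P, y (g * h) = y g + rb r g *ᵥ y h) → (∀ g, Inert P g → y g = 0) →
  (fun g h => wp (y g) (rb r g *ᵥ z h)) ∈ B2 ∅ (dec P) (tr GQ (ZMod 2))

theorem Cb.add {r : Rp} {A : Set GQ} {z y : GQ → W} (h : Cb r A z) (k : Cb r A y) :
    Cb r A (z + y) := by
  obtain ⟨v, hv⟩ := h
  obtain ⟨w, hw⟩ := k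
  exact ⟨v + w, fun g m => by rw [Pi.add_apply, hv g m, hw g m, mulVec_add]; abel⟩

theorem Cb.zero (r : Rp) (A : Set GQ) : Cb r A 0 := ⟨0, fun _ _ => by simp⟩

theorem Cb.mono {r : Rp} {A A' : Set GQ} {z : GQ → W} (h : Cb r A z) (k : A' ⊆ A) : Cb r A' z :=
  h.imp fun _ e g m => e g (k m)

/-- the congruences -/
structure Cg (S : Finset ℕ) (d₁ d₂ : ℕ) : Prop where
  sq : Squarefree (d₁ * d₂)
  m1 : d₁ % 8 = 5
  m2 : d₂ % 8 = 3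
  jc : ∀ p ∈ S, p ≠ 2 → J(d₁ | p) = -1 ∧ J(-(d₁ * d₂) | p) = 1

/-- the data: representation, bad primes, places, complex conjugation, the field -/
structure Dt where
  r : Rp
  S : Finset ℕ
  pl : Pl
  k : GQ
  d₁ : ℕ
  d₂ : ℕ

namespace Dt

variable (D : Dt)

/-- the standing hypotheses -/
structure Ok : Prop where
  rep : Rep D.r D.S
  irr : IrB D.r
  pr : ∀ p ∈ D.S, p.Prime
  cj : IsConj D.k
  cg : Cg D.S D.d₁ D.d₂
  bal : hz D.r D.k * ∏ l ∈ D.d₂.primeFactors, hz D.r (D.pl.σ l) =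
    4 * ∏ l ∈ D.d₁.primeFactors, hz D.r (D.pl.σ l)

/-- the Selmer conditions: `u` = unramified at two, `s` = trivial at infinity, trivial at the primes
of `d`, nothing at the other primes of `d₁ d₂` and at `N`, a ramified line at the primes of `Q` -/
structure Sc (u s : Prop) (d : ℕ) (N Q : Finset ℕ) (ε : ℕ → ZMod 2) (z : GQ → W) : Prop where
  zb : Zb D.r z
  un : Un (fun l => l ∉ D.S ∧ ¬ l ∣ D.d₁ * D.d₂ ∧ l ∉ N ∧ l ∉ Q) z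
  ur : ∀ p ∈ D.S, p ≠ 2 → Cb D.r {g | Inert (D.pl.P p) g} z
  ot : Ot D.r (D.pl.P 2) z
  two : u → Cb D.r {g | Inert (D.pl.P 2) g} z
  inf : s → Cb D.r {D.k} z
  str : ∀ l : ℕ, l.Prime → l ∣ d → Cb D.r (dec (D.pl.P l)) z
  tw : ∀ q ∈ Q, z (D.pl.σ q) = ε q • z (D.pl.τ q)

/-- the Selmer groups (of cocycles) -/
def Sl (u s : Prop) (d : ℕ) (N Q : Finset ℕ) (ε : ℕ → ZMod 2) : AddSubgroup (GQ → W) where
  carrier := {z | D.Sc u s d N Q ε z}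
  add_mem' {z y} a b := ⟨⟨a.zb.1.add b.zb.1, fun g h => by
      simp only [Pi.add_apply, a.zb.2 g h, b.zb.2 g h, mulVec_add]; abel⟩,
    fun l P o m g i => by rw [Pi.add_apply, a.un l P o m g i, b.un l P o m g i, add_zero],
    fun p m n => (a.ur p m n).add (b.ur p m n),
    fun x x1 x2 x3 => by
      have := add_mem (a.ot x x1 x2 x3) (b.ot x x1 x2 x3)
      simp only [Pi.add_apply, mulVec_add, P004S.wp_add_right]
      exact this,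
    fun m => (a.two m).add (b.two m), fun m => (a.inf m).add (b.inf m),
    fun l m n => (a.str l m n).add (b.str l m n),
    fun q m => by rw [Pi.add_apply, Pi.add_apply, a.tw q m, b.tw q m, smul_add]⟩
  zero_mem' := ⟨⟨IsLocallyConstant.const 0, fun _ _ => by simp⟩, fun _ _ _ _ _ _ => rfl,
    fun _ _ _ => Cb.zero _ _, fun x _ _ _ => by
      simp only [Pi.zero_apply, mulVec_zero, P004S.wp_zero_right]
      exact zero_mem _,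
    fun _ => Cb.zero _ _, fun _ => Cb.zero _ _, fun _ _ _ => Cb.zero _ _, fun _ _ => by simp⟩
  neg_mem' {z} a := by
    rwa [show -z = z from funext fun g => funext fun i => ZMod.neg_eq_self_mod_two _]

/-- totally split primes -/
structure Gt (q : ℕ) : Prop where
  pr : q.Prime
  nS : q ∉ D.S
  nd : ¬ q ∣ D.d₁ * D.d₂
  m4 : q % 4 = 1
  one : rb D.r (D.pl.σ q) = 1

/-- totally split primes of level `n` -/
structure Gs (n : ℕ) (F : Finset ℕ) (q : ℕ) : Prop extends D.Gt q where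
  nF : q ∉ F
  cy : q % 2 ^ (n + 3) = 1
  sp : nu (-((D.d₁ * D.d₂ : ℕ) : ℤ)) (D.pl.σ q) = 0

/-- enough primes with the property `G` -/
def Sp (G : ℕ → Prop) : Prop := ∀ (z : Fin 4 → GQ → W) (F : Finset ℕ),
  (∀ i, Zb D.r (z i) ∧ Un (· ∉ F) (z i) ∧ ¬ Cb D.r Set.univ (z i)) →
  ∃ q ∉ F, G q ∧ ∀ i, z i (D.pl.σ q) ≠ 0

/-- the two Selmer groups are trivial -/
def Kl (Q : Finset ℕ) (ε : ℕ → ZMod 2) : Prop :=
  (∀ z ∈ D.Sl False True D.d₂ ∅ Q ε, Cb D.r Set.univ z) ∧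
    ∀ z ∈ D.Sl True False D.d₁ ∅ Q ε, Cb D.r Set.univ z

end Dt

/-- `𝔽₂[T] / T ^ J` -/
abbrev Rb (J : ℕ) : Type :=
  PowerSeries (ZMod 2) ⧸ Ideal.span {(PowerSeries.X : PowerSeries (ZMod 2)) ^ J}

/-- the class of `T` -/
def tb (J : ℕ) : Rb J := Ideal.Quotient.mk _ PowerSeries.X

/-- the action on `V ⊗ 𝔽₂[T] / T ^ J` -/
def ab (r : Rp) (J : ℕ) (χ : GQ → ℕ) (g : GQ) : Matrix (Fin 2) (Fin 2) (Rb J) :=
  (Ideal.Quotient.mk _ (1 + PowerSeries.X) : Rb J) ^ χ g •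
    (rb r g).map ((Ideal.Quotient.mk _).comp PowerSeries.C : ZMod 2 →+* Rb J)

/-- `T ^ 5` kills the cocycles which vanish at one place above two -/
def Kx (r : Rp) (Γ : Subgroup GQ) (T : Finset ℕ) (χ : GQ → ℕ) (J : ℕ) : Prop :=
  ∀ P, Ov 2 P → ∀ x : GQ → Fin 2 → Rb J,
    (∀ g ∈ Γ, ∀ h ∈ Γ, x (g * h) = x g + ac (ab r J χ g) (x h)) →
    (∃ U : Subgroup GQ, IsOpen (U : Set GQ) ∧ ∀ w ∈ U, x w = 0) → (∀ g ∈ Γ, g ∈ In T → x g = 0) →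
    (∀ g ∈ dec P, x g = 0) → ∀ g ∈ Γ, tb J ^ 5 • x g = 0

/-! ### rows -/

/-- finiteness -/
def FIN : Prop := ∀ D : Dt, D.Ok → ∀ u s d N Q ε, Finite (D.Sl u s d N Q ε)

/-- **the lower bounds** -/
def GWL : Prop := ∀ D : Dt, D.Ok → ∀ Q ε, (∀ x ∈ Q, D.Gt x) →
  16 ≤ Nat.card (D.Sl False False 1 ∅ Q ε) ∧ ∀ q, D.Gt q → q ∉ Q →
    16 ≤ Nat.card (D.Sl False True D.d₂ {q} Q ε) ∧ 16 ≤ Nat.card (D.Sl True False D.d₁ {q} Q ε)

/-- **reciprocity** -/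
def RCP : Prop := ∀ D : Dt, D.Ok → ∀ (u s u' s' : Prop) (d d' : ℕ) Q ε q, (∀ x ∈ Q, D.Gt x) →
  D.Gt q → q ∉ Q → u ∨ u' → s ∨ s' → D.d₁ * D.d₂ ∣ d * d' →
  ∀ z ∈ D.Sl u s d {q} Q ε, ∀ y ∈ D.Sl u' s' d' {q} Q ε,
    wp (z (D.pl.σ q)) (y (D.pl.τ q)) + wp (z (D.pl.τ q)) (y (D.pl.σ q)) = 0

/-- **killing** -/
def KIL : Prop := ∀ D : Dt, D.Ok → ∃ k : ℕ, ∀ G : ℕ → Prop, (∀ q, G q → D.Gt q) → D.Sp G →
  ∃ Q ε, Q.card ≤ k ∧ (∀ q ∈ Q, G q) ∧ D.Kl Q ε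

/-- the sign character -/
def SGN : Prop := ∀ (r : Rp) (S : Finset ℕ), Rep r S → ∃ Δ : ℤ, Squarefree Δ ∧
  (∀ l : ℕ, l.Prime → (l : ℤ) ∣ Δ → l ∈ S) ∧
  ∀ g, nu Δ g = 0 ↔ rb r g = 1 ∨ (rb r g).trace = 1

open Classical in
/-- partitions with weights -/
def PW : Prop := ∀ (S : Finset ℕ) (B : ℕ) (w : ℕ → ℕ) (Δ : ℤ), (∀ p ∈ S, p.Prime) → 2 ∈ S →
  (∀ l, w l ≤ 2) → Squarefree Δ → (∀ l : ℕ, l.Prime → (l : ℤ) ∣ Δ → l ∈ S) →
  (∀ l : ℕ, l.Prime → l ∉ S → (Odd (w l) ↔ J(Δ | l) = -1)) →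
  (∀ x : ℕ, (∀ p ∈ S, ¬ p ∣ x) → ∀ F : Finset ℕ, ∃ l ∉ F, l.Prime ∧ l % 8 = x % 8 ∧
    (∀ p ∈ S, p ≠ 2 → J(l | p) = J(x | p)) ∧ w l ≤ 1) →
  (∀ F : Finset ℕ, ∃ l ∉ F, l.Prime ∧ l % 8 = 1 ∧ (∀ p ∈ S, p ≠ 2 → J(l | p) = 1) ∧ w l = 2) →
  P004T.PosD {δ | B < δ ∧ ∃ d₁ d₂ : ℕ, δ = d₁ * d₂ ∧ Cg S d₁ d₂ ∧
    ∑ l ∈ d₂.primeFactors, w l = ∑ l ∈ d₁.primeFactors, w l + if Δ < 0 then 1 else 0}

/-- the fields of the wanted shape have positive density -/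
def PART : Prop := ∀ (r : Rp) (S : Finset ℕ) (pl : Pl) (k : GQ) (B : ℕ), Rep r S → IrB r →
  (∀ p ∈ S, p.Prime) → IsConj k →
  P004T.PosD {δ | B < δ ∧ ∃ d₁ d₂ : ℕ, δ = d₁ * d₂ ∧ Dt.Ok ⟨r, S, pl, k, d₁, d₂⟩}

end Vale.Agent.P004C.Mu
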