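import Vale.Agent.P004R.St
import Vale.Agent.P004C.Mu.St0
import Vale.Agent.P004F.En.Big

/-!
# P004 C, block MU: towers without free part for an irreducible residual representation (rows)
-/

set_option linter.all false

noncomputable section

namespace Vale.Agent.P004C.Mu

open NumberField Matrix
open scoped NumberTheorySymbols
open Vale.Agent.P022 (Qb GQ GK IsConj)
open Vale.Agent.P027M.S (Inert)
open Vale.Agent.P022D.W (dec)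
open Vale.Agent.P022E.GW (Ov Fb Gn)
open Vale.Agent.P022K.G2 (B2 tr In)
open Vale.Agent.P004S (Rp Rep W Pl rb wp nu Zb Un IrB)
open Vale.Agent.P004R (Ly Kd)
open Vale.Agent.P004F.En (Big Gq)
open Vale.Agent.P004F.Pr (ac)

namespace Dt

variable (D : Dt)

variable {K : Type} [Field K] [NumberField K] (j : K →+* Qb)

/-- one level of the tower -/
structure Tw (n : ℕ) (Q : Finset ℕ) (ε : ℕ → ZMod 2) (c : ℕ) (e : GQ → ZMod (2 * 2 ^ (n + 1))) :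
    Prop where
  ly : Ly j c (2 ^ (n + 1)) e
  par : ∀ g ∈ GK j, ((e g).val : ZMod 2) = nu (D.d₁ * c : ℕ) g
  sub : ∀ q ∈ Q, D.Gt q ∧ q ∣ c ∧ nu (D.d₁ * c : ℕ) (D.pl.σ q) = ε q
  oth : ∀ q : ℕ, q.Prime → q ∣ c → q ∈ Q ∨ (rb D.r (D.pl.σ q)).trace = 1
  crd : c.primeFactors.card ≤ Q.card + 2
  cy : ∀ q : ℕ, q.Prime → q ∣ c → q % 2 ^ (n + 3) = 1 ∧ q ∉ D.S ∧ ¬ q ∣ D.d₁ * D.d₂
  fr : ∀ p ∈ D.S, p ≠ 2 → J(c | p) = 1

end Dt

/-- the supply of primes -/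
def CHV : Prop := ∀ D : Dt, D.Ok → (∃ h, Big D.r h) → ∃ m : ℕ, ∀ n F,
  D.Sp fun q => D.Gs n F q ∧ Gq D.r m (D.pl.σ q)

/-- **the tower** -/
def TWV : Prop := ∀ D : Dt, D.Ok → ∀ (K : Type) [Field K] [NumberField K] (j : K →+* Qb),
  Kd j (D.d₁ * D.d₂) → ∃ F : Finset ℕ, ∀ n Q ε, (∀ q ∈ Q, D.Gs n F q) → ∃ c e, D.Tw j n Q ε c e

/-- **from the residual groups to all levels** -/
def LEV : Prop := ∀ D : Dt, D.Ok → ∀ (K : Type) [Field K] [NumberField K] (j : K →+* Qb),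
  Kd j (D.d₁ * D.d₂) → ∀ n Q ε c e, D.Tw j n Q ε c e → D.Kl Q ε → ∀ J ≤ 2 * 2 ^ (n + 1),
  Kx D.r (GK j) (D.S ∪ c.primeFactors) (fun g => (e g).val) J

/-- **the export** -/
def MU : Prop := ∀ D : Dt, D.Ok → (∃ h, Big D.r h) →
  ∀ (K : Type) [Field K] [NumberField K] (j : K →+* Qb), Kd j (D.d₁ * D.d₂) →
  ∃ k m : ℕ, ∀ n, ∃ Q ε c e, D.Tw j n Q ε c e ∧ c.primeFactors.card ≤ k ∧
    (∀ q : ℕ, q.Prime → q ∣ c → Gq D.r m (D.pl.σ q)) ∧ ∀ J ≤ 2 * 2 ^ (n + 1),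
      Kx D.r (GK j) (D.S ∪ c.primeFactors) (fun g => (e g).val) J

end Vale.Agent.P004C.Mu
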