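import Vale.Agent.P004C.Mu.Lv1
import Vale.Agent.P004C.Mu.St

/-!
# P004 C, block MU, row LEV: from the residual groups to all levels
-/

set_option linter.all false

noncomputable section

namespace Vale.Agent.P004C.Mu

open NumberField Matrix PowerSeries
open Vale.Agent.P022 (Qb GQ GK IsConj)
open Vale.Agent.P027M.S (Inert)
open Vale.Agent.P022D.W (dec)
open Vale.Agent.P022E.GW (Ov Fb Gn)
open Vale.Agent.P004S Vale.Agent.P004S.Wg
open Vale.Agent.P004R.Mu

namespace Lv

variable {D : Dt} {Q : Finset ℕ} {ε : ℕ → F} {c J N : ℕ} {f : GQ → ZMod 4} {P : Ideal (𝓞 Qb)}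

/-- Shapiro -/
theorem Bs.sh (b : Bs D Q ε c f) (K : D.Kl Q ε) (o : Ov 2 P) {Z : GQ → Matrix (Fin 4) (Fin 2) F}
    (co : ∀ g ∈ Ga D, ∀ h ∈ Ga D, Z (g * h) = Z g + Lm (f g) * Z h * (rb D.r g)ᵀ)
    {U : Subgroup GQ} (hU : IsOpen (U : Set GQ)) (op : ∀ u ∈ Ga D, u ∈ U → Z u = 0)
    (un : ∀ l P, Ov l P → l ∉ D.S → ¬ l ∣ c → ∀ g ∈ Ga D, Inert P g → Z g = 0)
    (h : Cb D.r {g | Inert P g} fun g => Z g 0) : Cb D.r (Ga D) fun g => Z g 0 := by
  have r := b.rep
  have k2 := kk b.ok.cj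
  let X : GQ → Nn := fun g => fromRows (Z (pr D g)) (Z (D.k * pr D g * D.k⁻¹) * (rb D.r D.k)ᵀ)
  have e : ∀ g ∈ Ga D, al0 ᵥ* X g = Z g 0 := fun g m => by
    ext i
    simp [X, al0, pj_of m, vecMul, dotProduct, Fin.sum_univ_four]
  have z : ∀ g ∈ Ga D, Z g = 0 → Z (D.k * g * D.k⁻¹) = 0 → X g = 0 := fun g m p q => by
    simp only [X, pr, pj_of m, p, q, Matrix.zero_mul, fromRows_zero]
  obtain ⟨V, hV, v⟩ := cjo hU D.k
  obtain ⟨τ, σ, -, s, -⟩ := ex_st o
  have le := (b.frob o r.two s).1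
  obtain ⟨w, hw⟩ := h
  refine (b.core K (X := X) ⟨fun g h => ?_, ⟨V ⊓ Ga D, hV.inter (kn_open _), fun u m =>
    z u m.2 (op u m.2 (v u m.1).1) (op _ (cjG m.2) (v u m.1).2)⟩, fun l P o p q g m i =>
    z g m (un l P o p q g m i) (un l _ (ov_sm o D.k) p q _ (cjG m) (in_sm i D.k))⟩ o
    ⟨w, fun g m => (e g (le (inert_dec m))).trans (hw g m)⟩).imp fun y hy g m =>
      (e g m).symm.trans (hy g m)
  have p := b.pj_mem g
  have q := b.pj_mem h
  have ad : ∀ (A A' : Matrix (Fin 4) (Fin 2) F) (B B' : Matrix (Fin 4) (Fin 2) F),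
      fromRows A B + fromRows A' B' = fromRows (A + A') (B + B') := fun _ _ _ _ => by
    ext (i | i) j <;> rfl
  have t : ∀ x y, (rb D.r x)ᵀ * (rb D.r y)ᵀ = (rb D.r (y * x))ᵀ := fun x y => by
    rw [r.rb_mul, transpose_mul]
  by_cases m : g ∈ Ga D
  · simp only [X, act, Am, Aa, sg, mem_kn.1 m, if_pos, pj_in m, cjm, co _ p _ q,
      co _ (cjG p) _ (cjG q), b.neg _ p, fromBlocks_mul_fromRows, fromRows_mul, ad, Matrix.zero_mul,
      add_zero, zero_add, Matrix.add_mul, Matrix.mul_assoc, t]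
    rw [pr, pj_of m, show D.k * (D.k * g * D.k⁻¹) = g * D.k by
      rw [← mul_assoc, ← mul_assoc, k2, one_mul, inv_eq_of_mul_eq_one_right k2]]
  · obtain ⟨e1, e2⟩ := b.pj_out m h
    simp only [X, act, Am, Aa, sg, if_neg (show ¬ nu _ g = 0 from m), e1, cjm, cj2 b.ok.cj,
      co _ p _ (cjG q), co _ (cjG p) _ q, b.neg _ p, fromBlocks_mul_fromRows, fromRows_mul, ad,
      Matrix.zero_mul, add_zero, zero_add, Matrix.add_mul, Matrix.mul_assoc, t]
    rw [e2, show D.k * (D.k * (g * D.k) * D.k⁻¹) = g by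
      rw [← mul_assoc, ← mul_assoc, k2, one_mul, mul_inv_cancel_right]]

abbrev PS : Type := PowerSeries F

abbrev mq (J : ℕ) : PS →+* Rb J := Ideal.Quotient.mk _

theorem two0 : (2 : PS) = 0 := by
  rw [← map_ofNat (C (R := F)), show (OfNat.ofNat 2 : F) = 0 from rfl, map_zero]

theorem tr4 (a : ℕ) (p : PS) :
    (fun i : Fin 4 => coeff i ((1 + X) ^ a * p)) = Lm a *ᵥ fun i : Fin 4 => coeff i p := by
  induction a with
  | zero => rw [pow_zero, one_mul, Nat.cast_zero, show Lm 0 = 1 by decide +kernel, one_mulVec]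
  | succ a ih =>
    rw [pow_succ', mul_assoc, Nat.cast_succ, add_comm _ (1 : ZMod 4), Lm_add, ← mulVec_mulVec, ← ih,
      show Lm 1 = !![1, 0, 0, 0; 1, 1, 0, 0; 0, 1, 1, 0; 0, 0, 1, 1] by decide +kernel]
    generalize (1 + X) ^ a * p = q
    have e0 : coeff 1 (X * q) = coeff 0 q := coeff_succ_X_mul 0 q
    have e1 : coeff 2 (X * q) = coeff 1 q := coeff_succ_X_mul 1 q
    have e2 : coeff 3 (X * q) = coeff 2 q := coeff_succ_X_mul 2 q
    ext i
    fin_cases i <;> simp [add_mul, mulVec, dotProduct, Fin.sum_univ_four, add_comm, e0, e1, e2]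

theorem cf {m i : ℕ} {p q : PS} (h : mq J (X ^ m * p) = mq J q) (hi : i + m < J) :
    coeff i p = coeff (i + m) q := by
  have := X_pow_dvd_iff.1 (Ideal.mem_span_singleton.1 (Ideal.Quotient.eq.1 h)) _ hi
  rwa [map_sub, coeff_X_pow_mul, sub_eq_zero] at this

theorem pw2 (k : ℕ) : (1 + X : PS) ^ 2 ^ k = 1 + X ^ 2 ^ k := by
  induction k with
  | zero => simp
  | succ k ih => rw [pow_succ, pow_mul, pow_mul, ih]; linear_combination X ^ 2 ^ k * two0

theorem pw4 (b : ℕ) : ∃ s : PS, (1 + X) ^ (4 * b + 2) = 1 + X ^ 2 * (1 + X * s) := by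
  induction b with
  | zero => exact ⟨0, by linear_combination X * two0⟩
  | succ b ih =>
    obtain ⟨s, e⟩ := ih
    refine ⟨s + X + X ^ 3 * (1 + X * s), ?_⟩
    rw [show 4 * (b + 1) + 2 = 4 * b + 2 + 2 ^ 2 by ring, pow_add, e, pw2]
    ring

theorem ab_mv (r : Rp) (χ : GQ → ℕ) (g : GQ) (p : Fin 2 → PS) (i : Fin 2) :
    (ab r J χ g *ᵥ fun j => mq J (p j)) i =
      mq J ((1 + X) ^ χ g * ∑ j, C (rb r g i j) * p j) := by
  simp [ab, smul_mulVec, mulVec, dotProduct, mul_add, mul_assoc]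

theorem sm {R : Type} [CommRing R] (a b : R) (A B : Matrix (Fin 2) (Fin 2) R) :
    (a * b) • (A * B) = a • A * b • B := by rw [Matrix.smul_mul, Matrix.mul_smul, smul_smul]

theorem Bs.kill {χ : GQ → ℕ} (b : Bs D Q ε c fun g => χ g) (K : D.Kl Q ε)
    (hN : mq J (1 + X) ^ N = 1) (ad : ∀ g ∈ Ga D, ∀ h ∈ Ga D, χ (g * h) = (χ g + χ h) % N)
    {V : Subgroup GQ} (hV : IsOpen (V : Set GQ)) (v0 : ∀ u ∈ V, χ u = 0)
    (i0 : ∀ l P, Ov l P → ¬ l ∣ c → ∀ g ∈ Ga D, Inert P g → χ g = 0) :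
    Kx D.r (Ga D) (D.S ∪ c.primeFactors) χ J := by
  rintro P o x co ⟨U, hU, op⟩ un hP
  have r := b.rep
  set A := ab D.r J χ with hA
  have am : ∀ g ∈ Ga D, ∀ h ∈ Ga D, A (g * h) = A g * A h := fun g m h n => by
    rw [hA, ab, ab, ab, ad g m h n, ← pow_eq_pow_mod _ hN, pow_add, r.rb_mul, Matrix.map_mul]
    exact sm _ _ _ _
  have a1 : ∀ g, rb D.r g = 1 → ∀ μ, A g *ᵥ μ = mq J (1 + X) ^ χ g • μ := fun g e μ => by
    rw [hA, ab, e, Matrix.map_one _ (map_zero _) (map_one _), smul_mulVec, one_mulVec]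
  obtain ⟨τ, σ, -, s, s'⟩ := ex_st o
  obtain ⟨le, f6, n2, -⟩ := b.frob o r.two s
  have key : ∀ m, m ≤ J - 3 → ∃ μ : Fin 2 → PS, ∀ g ∈ Ga D, ∃ w : Fin 2 → PS,
      x g - (A g *ᵥ (fun i => mq J (μ i)) - fun i => mq J (μ i)) =
        fun i => mq J (X ^ m * w i) := fun m => by
    induction m with
    | zero => exact fun _ => ⟨0, fun g _ => ⟨fun i => (x g i).out, funext fun i => by
        simp [show (fun _ : Fin 2 => (0 : Rb J)) = 0 from rfl]⟩⟩
    | succ m ih =>
      intro hm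
      obtain ⟨μ, hμ⟩ := ih (by omega)
      choose! w hw using hμ
      have z : ∀ g ∈ Ga D, x g = 0 → χ g = 0 → rb D.r g = 1 →
          (of fun (i : Fin 4) j => coeff i (w g j)) = 0 := fun g a p q t => by
        ext i j
        have := congrFun (hw g a) j
        rw [p, a1 g t, q, pow_zero, one_smul, sub_self, sub_self] at this
        exact (cf (q := 0) this.symm (by omega)).trans (map_zero _)
      refine (b.sh K o (Z := fun g => of fun i j => coeff i (w g j)) (fun g a h a' => ?_)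
        (U := U ⊓ V ⊓ r.Kn 1) ((hU.inter hV).inter (r.Kn_open 1)) (fun u a t =>
          z u a (op u t.1.1) (v0 u t.1.2) (r.tr_one_iff.1 t.2)) (fun l P o p q g a i =>
          z g a (un g a ⟨l, by simp [p, q], P, o, i⟩) (i0 l P o q g a i) (rb_in r o p i))
        ⟨fun j => coeff m (μ j), fun g i => ?_⟩).elim fun v hv => ?_
      rotate_right
      · refine ⟨fun i => μ i + X ^ m * C (v i), fun g a => ?_⟩
        have : ∀ i, X ∣ w g i - ((1 + X) ^ χ g * ∑ j, C (rb D.r g i j) * C (v j) - C (v i)) :=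
          fun i => X_dvd_iff.2 (by
            have : coeff 0 (w g i) = ∑ j, rb D.r g i j * v j - v i := congrFun (hv g a) i
            rw [← coeff_zero_eq_constantCoeff_apply, map_sub, this]
            simp)
        choose w' e using this
        refine ⟨w', funext fun i => ?_⟩
        have := congrFun (hw g a) i
        simp only [Pi.sub_apply, hA, ab_mv] at this ⊢
        rw [sub_eq_iff_eq_add] at this
        rw [this, pow_succ, mul_assoc, ← e]
        simp only [← map_sub, ← map_add, Fin.sum_univ_two]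
        congr 1
        ring
      · ext i j
        have e : mq J (X ^ m * w (g * h) j) = mq J (X ^ m * (w g j + (1 + X) ^ χ g *
            ∑ t, C (rb D.r g j t) * w h t)) := by
          have e1 := congrFun (hw _ (mul_mem a a')) j
          have e2 := congrFun (hw g a) j
          have e3 := congrFun (congrArg (A g *ᵥ ·) (hw h a')) j
          simp only [hA, ab_mv D.r χ g fun i => X ^ m * w h i] at e3
          rw [co g a h a', am g a h a'] at e1
          rw [← e1, mul_add, map_add, ← e2, show X ^ m * ((1 + X) ^ χ g * ∑ t, C (rb D.r g j t) *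
            w h t) = (1 + X) ^ χ g * ∑ t, C (rb D.r g j t) * (X ^ m * w h t) by
              simp only [Fin.sum_univ_two]; ring, ← e3, mulVec_sub, mulVec_sub, mulVec_mulVec]
          show x g j + (A g *ᵥ x h) j - _ = _
          simp only [Pi.sub_apply, hA]
          ring
        have := cf e (i := i) (by omega)
        rw [coeff_X_pow_mul, map_add, congrFun (tr4 _ _) i] at this
        simp only [of_apply, Matrix.add_apply, this, mulVec, dotProduct, mul_apply, transpose_apply,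
          Fin.sum_univ_two, Fin.sum_univ_four, map_add, coeff_C_mul]
        ring
      · funext j
        have a := le (inert_dec i)
        have := congrFun (hw g a) j
        rw [hP g (inert_dec i), Pi.sub_apply, Pi.sub_apply, hA, ab_mv, i0 2 P o n2 g a i, pow_zero,
          one_mul, ← map_sub, Pi.zero_apply, zero_sub, ← map_neg] at this
        have := cf this.symm (i := 0) (by omega)
        refine this.trans ?_
        show _ = ∑ t, rb D.r g j t * coeff m (μ t) - coeff m (μ j)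
        simp only [map_neg, map_sub, map_sum, coeff_C_mul, zero_add, CharTwo.neg_eq]
  obtain ⟨μ, hμ⟩ := key _ le_rfl
  have t0 : ∀ p, tb J ^ 3 * mq J (X ^ (J - 3) * p) = 0 := fun p => by
    rw [tb, ← map_pow, ← map_mul, Ideal.Quotient.eq_zero_iff_mem, Ideal.mem_span_singleton,
      ← mul_assoc, ← pow_add]
    exact (pow_dvd_pow _ (by omega)).mul_right _
  have t1 : (tb J ^ 5 • fun i => mq J (μ i)) = 0 := funext fun i => by
    obtain ⟨w, e⟩ := hμ _ (le (pow_mem s' 6))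
    obtain ⟨p, hp⟩ := pw4 (χ (σ ^ 6) / 4)
    have := (ZMod.natCast_eq_natCast_iff' _ 2 4).1 f6
    rw [show 4 * (χ (σ ^ 6) / 4) + 2 = χ (σ ^ 6) by omega] at hp
    have e := congrFun e i
    rw [hP _ (pow_mem s' 6), a1 _ (rb_six r σ), ← map_pow, hp] at e
    have u : IsUnit (1 + X * p) := isUnit_iff_constantCoeff.2 (by simp)
    refine (u.map (mq J)).mul_right_eq_zero.1 ?_
    have := t0 (w i)
    rw [← e] at this
    simp only [tb, Pi.sub_apply, Pi.smul_apply, Pi.zero_apply, smul_eq_mul, map_add, map_mul,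
      map_pow, map_one] at this ⊢
    linear_combination -this
  intro g hg
  obtain ⟨w, e⟩ := hμ g hg
  rw [sub_eq_iff_eq_add] at e
  rw [e, smul_add, smul_sub, ← mulVec_smul, t1, mulVec_zero, sub_self, add_zero]
  funext i
  show _ * _ = (0 : Rb J)
  linear_combination tb J ^ 2 * t0 (w i)

end Lv

open Lv P004K in
/-- **row LEV** -/
theorem lev (r1 : RC1) (r2 : RC2) : LEV := by
  intro D ok K _ _ j kd n Q ε c e tw kl J hJ
  have ly := tw.ly
  have hG : GK j = Ga D := Subgroup.ext kd.gk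
  have c0 := Nat.pos_of_ne_zero ly.sq.ne_zero
  have h4 : 4 ∣ 2 * 2 ^ (n + 1) := ⟨2 ^ n, by ring⟩
  have ef : ∀ g, ((e g).val : ZMod 4) = ZMod.castHom h4 (ZMod 4) (e g) := fun g => by simp
  obtain ⟨-, a1, -, -, a2, -⟩ := r1 K j ly.iq c c0
  obtain ⟨-, -, -, a3, -, -, a4⟩ := r2 K j ly.iq c c0
  have nk : D.k ∉ GK j := fun a => by
    have := (kd.gk _).1 a
    rw [nu_neg_conj (neg_neg_of_pos (Int.natCast_pos.2 (Nat.pos_of_ne_zero kd.sq.ne_zero)))
      ok.cj] at this
    exact one_ne_zero this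
  have v0 : ∀ u ∈ Hc j c, (e u).val = 0 := fun u m => by rw [ly.ker u m, ZMod.val_zero]
  have i0 : ∀ l P, Ov l P → ¬ l ∣ c → ∀ g ∈ Ga D, Inert P g → (e g).val = 0 :=
    fun l P o d g m i => by
      have q0 : P ≠ ⊥ := fun q => o.1.ne_zero (by simpa [q] using o.2.2)
      have q1 : (c : 𝓞 Qb) ∉ P := fun q =>
        d (Int.natCast_dvd_natCast.1 (ov_dvd o (by simpa using q)))
      have := (a3 _ 1 g (a4 P o.2.1 q0 q1 1 (one_mem _) 0 (by simp))).1
        (a4 P o.2.1 q0 q1 g (hG ▸ m) 0 fun x => by simpa using i x)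
      exact v0 g (by simpa using this)
  rw [hG]
  refine Bs.kill (N := 2 * 2 ^ (n + 1)) ⟨ok, fun g m h n => ?_, fun g m => ?_,
    ⟨_, a1, fun u m => by rw [v0 u m, Nat.cast_zero]⟩,
    fun l P o d g m i => by rw [i0 l P o d g m i, Nat.cast_zero],
    fun g m => (bn_nat _).1.trans (tw.par g (hG ▸ m)), fun q P o d => hG ▸ (ly.ram q P o d).2.1,
    ly.sq, tw.sub, tw.oth, fun q hq d => ⟨?_, (tw.cy q hq d).2⟩, tw.fr⟩ kl ?_
    (fun g m h n => by rw [ly.add g (hG ▸ m) h (hG ▸ n), ZMod.val_add]) a1 v0 i0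
  · rw [ef, ef, ef, ly.add g (hG ▸ m) h (hG ▸ n), map_add]
  · have := ly.ker _ (a2 D.k nk g (hG ▸ m))
    rw [ly.add _ (hG ▸ cjG m) g (hG ▸ m)] at this
    rw [ef, ef, eq_neg_of_add_eq_zero_left this, map_neg]
  · rw [← Nat.mod_mod_of_dvd q (show 8 ∣ 2 ^ (n + 3) from ⟨2 ^ n, by ring⟩), (tw.cy q hq d).1]
  · rw [← map_pow, ← pow_succ', pw2, map_add, map_one, add_eq_left,
      Ideal.Quotient.eq_zero_iff_mem, Ideal.mem_span_singleton]
    exact pow_dvd_pow _ (by rwa [pow_succ'])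

end Vale.Agent.P004C.Mu
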