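import Vale.Agent.P004C.Mu.St0
import Vale.Agent.P004S.Rec
import Vale.Agent.P004S.Lt

/-!
# P004 C, block MU: the row `RCP` (helper80)
-/

set_option linter.all false

noncomputable section

namespace Vale.Agent.P004C.Mu

open NumberField Matrix
open Vale.Agent.P022 (Qb GQ IsConj)
open Vale.Agent.P022K
open Vale.Agent.P027M.S (Inert)
open Vale.Agent.P022D.W (dec inP_le_dec)
open Vale.Agent.P022E.GW (Ov Fb Gn)
open Vale.Agent.P022K.G2 (B2 Z2 tr)
open Vale.Agent.P004S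
open Vale.Agent.P004S.Rc

namespace Rq

variable {r : Rp} {S : Finset ℕ} {l : ℕ} {P : Ideal (𝓞 Qb)} {D : Subgroup GQ} {z y : GQ → W}

/-- the residual representation -/
def rW (h : Rep r S) : GQ →* W →ₗ[ZMod 2] W where
  toFun g := (rb r g).mulVecLin
  map_one' := by rw [rb_one, mulVecLin_one]; rfl
  map_mul' g k := by rw [h.rb_mul, mulVecLin_mul]; rfl

/-- the alternating form -/
def wl : W →ₗ[ZMod 2] W →ₗ[ZMod 2] ZMod 2 :=
  LinearMap.mk₂ _ wp wp_add_left wp_smul_left wp_add_right wp_smul_right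

/-- the cup product -/
def cw (r : Rp) (z y : GQ → W) (g h : GQ) : ZMod 2 := wp (z g) (rb r g *ᵥ y h)

/-- coboundaries -/
abbrev Bz (D : Subgroup GQ) : Submodule (ZMod 2) (GQ → GQ → ZMod 2) := B2 ∅ D (tr GQ (ZMod 2))

theorem wp_sym : ∀ u v : W, wp u v = wp v u := by decide

theorem rW_lc (h : Rep r S) : IsLocallyConstant (rW h) := h.rb_lc.comp mulVecLin

theorem co (h : Rep r S) (a : Zb r z) (D : Subgroup GQ) : Co (rW h) D z :=
  ⟨a.1, fun g _ j _ => a.2 g j⟩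

theorem cw_eq (h : Rep r S) (z y : GQ → W) : cw r z y = cu (rW h) wl z y :=
  funext fun g => funext fun j => by
    simp only [cw, cu, wl, LinearMap.mk₂_apply, rW, MonoidHom.coe_mk, OneHom.coe_mk,
      mulVecLin_apply]

theorem wl_rW (h : Rep r S) (g : GQ) (u v : W) : wl (rW h g u) (rW h g v) = wl u v :=
  h.wp_rb g u v

theorem cw_z2 (h : Rep r S) (hD : IsClosed (D : Set GQ)) (a : Zb r z) (b : Zb r y) :
    cw r z y ∈ Z2 ∅ D (tr GQ (ZMod 2)) :=
  cw_eq h z y ▸ cu_z2 hD (rW_lc h) (wl_rW h) (co h a _) (co h b _)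

theorem zb_cob (h : Rep r S) (v : W) : Zb r fun g => rb r g *ᵥ v - v :=
  ⟨h.rb_lc.comp fun A => A *ᵥ v - v, fun g j => by
    beta_reduce
    rw [h.rb_mul, mulVec_sub, mulVec_mulVec]; abel⟩

theorem zb_sub (a : Zb r z) (b : Zb r y) : Zb r fun g => z g - y g :=
  ⟨a.1.sub b.1, fun g j => by beta_reduce; rw [a.2, b.2, mulVec_sub]; abel⟩

theorem cb_l (h : Rep r S) (hD : IsClosed (D : Set GQ)) (b : Zb r y) (c : Cb r D z) :
    cw r z y ∈ Bz D := by
  obtain ⟨v, hv⟩ := c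
  refine ⟨fun g => wp v (y g), G2.c1_of_lc hD
    ((b.1.comp_continuous continuous_subtype_val).comp (wp v)), fun g hg j _ => ?_⟩
  rw [G2.d1_apply, G2.tr_apply, cw, hv g hg, b.2, wp_add_right, ← h.wp_rb g v (y j)]
  simp only [wp, Pi.sub_apply]
  ring

theorem skew (h : Rep r S) (hD : IsClosed (D : Set GQ)) (a : Zb r z) (b : Zb r y)
    (c : cw r y z ∈ Bz D) : cw r z y ∈ Bz D := by
  have e : cw r z y + cw r y z ∈ Bz D := by
    refine ⟨fun g => -wp (z g) (y g), G2.c1_of_lc hD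
      (((a.1.prodMk b.1).comp_continuous continuous_subtype_val).comp fun x => -wp x.1 x.2),
      fun g _ j _ => ?_⟩
    simp only [G2.d1_apply, G2.tr_apply, cw, Pi.add_apply, a.2, b.2, wp_add_left, wp_add_right,
      h.wp_rb, wp_sym (y g)]
    ring
  simpa using sub_mem e c

theorem cb_r (h : Rep r S) (hD : IsClosed (D : Set GQ)) (a : Zb r z) (b : Zb r y)
    (c : Cb r D y) : cw r z y ∈ Bz D := skew h hD a b (cb_l h hD a c)

/-- change of the left factor by a coboundary -/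
theorem of_sub (h : Rep r S) (hD : IsClosed (D : Set GQ)) (b : Zb r y) (v : W)
    (c : cw r (fun g => z g - (rb r g *ᵥ v - v)) y ∈ Bz D) : cw r z y ∈ Bz D := by
  refine G2.B2.congr (add_mem c (cb_l h hD b (z := fun g => rb r g *ᵥ v - v) ⟨v, fun _ _ => rfl⟩))
    (fun g _ j _ => ?_) fun _ _ => rfl
  simp only [Pi.add_apply, cw]
  rw [← wp_add_left, sub_add_cancel]

theorem ur0 (h : Rep r S) (o : Ov l P) (a : Zb r z) (b : Zb r y) (ua : ∀ g, Inert P g → z g = 0)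
    (ub : ∀ g, Inert P g → y g = 0) : cw r z y ∈ Bz (dec P) := by
  have := G2.unr 2 (ZMod 2) ⊤ l P (cw r z y) isOpen_univ o
    (by
      rw [top_inf_eq]
      exact cw_z2 h (G2.dec_closed P) a b)
    fun g hg j hj i _ m => by
      have e := b.2 i j
      have m' : Inert P (j⁻¹ * i * j⁻¹⁻¹) := P022D.W.conj_inP (inv_mem hj.2) m
      rw [show i * j = j * (j⁻¹ * i * j⁻¹⁻¹) by group, b.2, ub _ m', ub i m, mulVec_zero,
        add_zero, zero_add] at e
      simp only [cw, a.2, b.2, ua i m, ub i m, mulVec_zero, add_zero, h.rb_mul, ← mulVec_mulVec,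
        ← e, and_self]
  rwa [top_inf_eq] at this

/-- two unramified classes are orthogonal -/
theorem ur2 (h : Rep r S) (o : Ov l P) (a : Zb r z) (b : Zb r y)
    (ua : Cb r {g | Inert P g} z) (ub : Cb r {g | Inert P g} y) : cw r z y ∈ Bz (dec P) := by
  obtain ⟨v, hv⟩ := ua
  obtain ⟨w, hw⟩ := ub
  have cl := G2.dec_closed P
  have a' := zb_sub a (zb_cob h v)
  exact of_sub h cl b v (skew h cl a' b (of_sub h cl a' w (ur0 h o (zb_sub b (zb_cob h w)) a'
    (fun g m => sub_eq_zero.2 (hw g m)) fun g m => sub_eq_zero.2 (hv g m))))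

theorem ot2 (h : Rep r S) (a : Zb r z) (b : Zb r y) (ua : Cb r {g | Inert P g} z)
    (ob : Ot r P y) : cw r z y ∈ Bz (dec P) := by
  obtain ⟨v, hv⟩ := ua
  have a' := zb_sub a (zb_cob h v)
  exact of_sub h (G2.dec_closed P) b v (ob _ (a'.1.comp_continuous continuous_subtype_val)
    (fun g _ j _ => a'.2 g j) fun g m => sub_eq_zero.2 (hv g m))

/-- the symbol `(n, n)` is trivial where `-1` is a square -/
theorem nu_nu {n : ℤ} (n0 : n ≠ 0) (h : D ≤ kn (-1)) : G2.cup (nu n) (nu n) ∈ Bz D := by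
  classical
  obtain ⟨i, hi⟩ := ex_sqrt (-1)
  obtain ⟨t, ht⟩ := IsAlgClosed.exists_pow_nat_eq (n : Qb) (n := 4) (by norm_num)
  have t0 : t ≠ 0 := fun e => by
    rw [e] at ht
    exact n0 (by exact_mod_cast (by simpa using ht.symm : (n : Qb) = 0))
  have i2 : i ^ 2 = -1 := by exact_mod_cast hi
  have pr : IsPrimitiveRoot i 4 := by
    refine IsPrimitiveRoot.mk_of_lt i (by norm_num) (by rw [show 4 = 2 * 2 from rfl, pow_mul, i2]; simp)
      fun m m0 m4 e => ?_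
    have : (2 : Qb) = 0 := by
      interval_cases m
      · linear_combination (-i - 1) * e + i2
      · linear_combination i2 - e
      · linear_combination (i - 1) * e - (i ^ 2 - i - 1) * i2
    exact two_ne_zero this
  have ex : ∀ g : GQ, ∃ a : ZMod 4, g t = i ^ a.val * t := fun g => by
    obtain ⟨a, ha, e⟩ := pr.eq_pow_of_pow_eq_one (ξ := g t / t) (by
      rw [div_pow, ← map_pow, ht, map_intCast, div_self (Int.cast_ne_zero.2 n0)])
    exact ⟨a, by rw [ZMod.val_cast_of_lt ha, e, div_mul_cancel₀ _ t0]⟩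
  choose k hk using ex
  have inj : ∀ g (a : ZMod 4), g t = i ^ a.val * t → k g = a := fun g a e =>
    ZMod.val_injective 4 (pr.pow_inj (ZMod.val_lt _) (ZMod.val_lt _)
      (mul_right_cancel₀ t0 ((hk g).symm.trans e)))
  have kn' : ∀ g, nu n g = ((k g).val : ZMod 2) := fun g => by
    refine P022E.GW.Kc.z2_ext ((nu_eq_zero (w := t ^ 2) (by rw [← pow_mul]; exact ht)).trans ?_)
    rw [map_pow, hk, mul_pow, mul_eq_right₀ (pow_ne_zero 2 t0), ← pow_mul, pr.pow_eq_one_iff_dvd,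
      ZMod.natCast_eq_zero_iff]
    omega
  obtain ⟨U, hU, e⟩ := G2.ex_lv_fix t
  refine ⟨fun g => (((k g).val / 2 : ℕ) : ZMod 2), ⟨U, hU, fun g _ w _ m => ?_⟩,
    fun g hg j _ => ?_⟩
  · beta_reduce
    rw [inj (g * w) (k g) (by rw [AlgEquiv.mul_apply, e w m, hk])]
  · rw [G2.d1_apply, G2.tr_apply, G2.cup, kn', kn', inj (g * j) (k g + k j) (by
      rw [AlgEquiv.mul_apply, hk j, map_mul, map_pow, (nu_eq_zero hi).1 (h hg), hk g,
        ZMod.val_add, ← pow_eq_pow_mod _ pr.pow_eq_one, pow_add]; ring)]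
    generalize k g = a
    generalize k j = b
    revert a b
    decide

theorem dec_i (o : Ov l P) (m : l % 4 = 1) : dec P ≤ kn (-1) := by
  have h2 : l ≠ 2 := by omega
  have nd : ¬ (l : ℤ) ∣ -1 := fun e =>
    o.1.ne_one (Nat.dvd_one.1 (Int.natCast_dvd_natCast.1 (dvd_neg.1 e)))
  obtain ⟨φ, hφ⟩ := P022D.W.exists_phi o.1 o.2.1 o.2.2
  haveI := Fact.mk o.1
  refine lt.dec_le o hφ (kn_open _) (nu_of_sg ?_) fun i hi => nu_inert o h2 nd hi
  rw [sg_frob o h2 nd hφ, legendreSym.at_neg_one h2, ZMod.χ₄_nat_one_mod_four m]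
  simp

/-- the local term at a tame prime -/
theorem loc (h : Rep r S) (o : Ov l P) (hS : l ∉ S) (m : l % 4 = 1) {τ : GQ} (gn : Gn l P τ)
    (a : Zb r z) (b : Zb r y) : ∃ u : GQ → ZMod 2, G2.Ch (dec P) u ∧ (∀ g, Inert P g → u g = 0) ∧
      (∀ g, u g = wp (z g) (y τ) + wp (z τ) (y g)) ∧ cw r z y - G2.cup u (nu l) ∈ Bz (dec P) := by
  have h2 : l ≠ 2 := by omega
  have cl := G2.dec_closed P
  have ur : ∀ g, Inert P g → rW h g = 1 := fun g hg => by
    change (rb r g).mulVecLin = 1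
    rw [h.tr_one_iff.1 (h.Kn_uns 1 l P o hS g hg), mulVecLin_one]; rfl
  obtain ⟨s1, s2, s3⟩ := split o h2 gn ur (co h a _)
  obtain ⟨t1, t2, t3⟩ := split o h2 gn ur (co h b _)
  have kc := (G2.ch_iff cl).1 (nu_ch l _)
  have f : ∀ g ∈ dec P, ∀ x, wl (z τ) (rW h g x) = wl (z τ) x := fun g hg x => by
    rw [← wl_rW h g _ x, s1 g hg]
  have c1 := ch_of cl s2 (wl.flip (y τ)) fun g hg x => by
    rw [LinearMap.flip_apply, LinearMap.flip_apply, ← wl_rW h g x, t1 g hg]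
  have c2 := ch_of cl t2 _ f
  refine ⟨_, c1.add c2, fun g hg => ?_, fun g => ?_, G2.B2.congr (add_mem (add_mem
    (cu_unr o (rW_lc h) (wl_rW h) ur s2 t2 s3 t3) (G2.cup_skew c2 kc)) (Submodule.smul_mem _
      (wl (z τ) (y τ)) (nu_nu (n := l) (Int.natCast_ne_zero.2 o.1.ne_zero) (dec_i o m))))
    (fun g hg j _ => ?_) fun _ _ => rfl⟩
  · rw [Pi.add_apply, s3 g hg, t3 g hg, map_zero, map_zero, add_zero]
  · simp only [Pi.add_apply, map_sub, map_smul, LinearMap.flip_apply, smul_eq_mul]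
    change wp _ _ - _ * wp _ _ + (wp _ _ - _ * wp _ _) = _
    generalize nu l g * wp (z τ) (y τ) = c
    rw [CharTwo.sub_eq_add, CharTwo.sub_eq_add, add_add_add_comm, CharTwo.add_self_eq_zero, add_zero]
  · simp only [cw_eq h, Pi.sub_apply, Pi.add_apply, Pi.smul_apply, G2.cup, cu, map_sub, map_smul,
      LinearMap.sub_apply, LinearMap.smul_apply, LinearMap.flip_apply, smul_eq_mul]
    rw [f g hg, t1 g hg]
    generalize wl (z g) (rW h g (y j)) = x1, wl (z g) (y τ) = x2, wl (z τ) (y τ) = x3,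
      wl (z τ) (y g) = x4, wl (z τ) (y j) = x5, nu l g = x6, nu l j = x7
    have e2 : (2 : ZMod 2) = 0 := rfl
    linear_combination (x7 * x6 * x3 - x4 * x7) * e2

/-- **reciprocity**, general form -/
theorem rcp0 (h : Rep r S) (pl : Pl) (T : Finset ℕ) (hT : ∀ x ∈ T, x.Prime ∧ x ∉ S ∧ x % 4 = 1)
    (a : Zb r z) (b : Zb r y) {k : GQ} (hk : IsConj k) (h0 : Cb r {k} z ∨ Cb r {k} y)
    (hl : ∀ l : ℕ, l.Prime → l ∉ T → cw r z y ∈ Bz (dec (pl.P l))) :
    ∑ x ∈ T, (wp (z (pl.σ x)) (y (pl.τ x)) + wp (z (pl.τ x)) (y (pl.σ x))) = 0 := by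
  classical
  obtain ⟨φ, hφ⟩ := hk
  obtain ⟨c, cP, cw'⟩ := cn_of pl.P pl.ov (.mk φ)
  have hz := cw_z2 (D := ⊤) h isClosed_univ a b
  have n2 : ∀ i : T, i.1 ≠ 2 := fun i => by have := (hT i i.2).2.2; omega
  have ov : ∀ i : T, Ov i (pl.P i) := fun i => pl.ov i (hT i i.2).1
  choose u u1 u2 u3 u4 using fun i : T => loc h (ov i) (hT i i.2).2.1 (hT i i.2).2.2
    (pl.gn i (ov i).1 (n2 i)) a b
  have key := G2.one P022E.GW.oneC (G2.uch 2) (G2.tam 2) (ZMod 2) ⊤ (cw r z y) T (fun i => i)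
    (fun i => pl.P i) (fun i => pl.σ i) u (fun i => nu i) (fun _ => 1) isOpen_univ
    (by rwa [G2.ch_om_two])
    (fun i => ⟨ov i, n2 i, pl.fb i (ov i).1, le_inf le_top (G2.le_gz_two _)⟩)
    (fun i j g _ e => Subtype.ext (GW.Pl.ov_uniq (GW.ov_smul (ov i) g) (e ▸ ov j)))
    (fun i => ⟨u1 i, (G2.ch_iff (G2.dec_closed _)).1 (nu_ch i _), fun g hg => ⟨u2 i g hg, by
      rw [ZMod.castHom_self, RingHom.id_apply, ka_nu (ov i).1, mul_one]⟩, u4 i⟩) fun x hx n => ?_
  · rw [← key, ← Finset.sum_coe_sort T]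
    exact Finset.sum_congr rfl fun i _ => by rw [u3, mul_one]
  · obtain ⟨v, hv, m⟩ := Aq.ab_pl hx
    rw [G2.ch_om_two]
    refine Aq.loc_all c hz hv ?_ m
    rcases hv with rfl | hv
    · have e : ∀ x : GQ → W, Zb r x → Cb r {k} x → Cb r (c.D 0) x := fun x zx ⟨v, e⟩ =>
        ⟨v, fun g hg => by
          rw [Aq.D_zero, cw', G2.st_conj hφ] at hg
          rcases hg with rfl | rfl
          exacts [by rw [zx.one, rb_one, one_mulVec, sub_self], e _ rfl]⟩
      have cl := Aq.D_closed c (.inl rfl)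
      exact h0.elim (fun k => cb_l h cl b (e z a k)) fun k => cb_r h cl a b (e y b k)
    rw [Aq.D_prime c hv, cP]
    refine hl v hv fun k => ?_
    obtain ⟨g, e⟩ := G2.Plc.ab_trans (G2.mem_ab_fp.2 ⟨v, rfl, pl.ov v hv⟩) m
    exact n ⟨v, k⟩ g trivial e

end Rq

open Rq in
theorem rcp : RCP := by
  classical
  intro D h u s u' s' d d' Q ε q hQ hq nq hu hs hd z a y b
  have gt : ∀ x ∈ insert q Q, D.Gt x := fun x m => (Finset.mem_insert.1 m).elim (· ▸ hq) (hQ x)
  have key := rcp0 h.rep D.pl (insert q Q) (fun x m => ⟨(gt x m).pr, (gt x m).nS, (gt x m).m4⟩)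
    a.zb b.zb h.cj (hs.imp a.inf b.inf) fun l hl m => ?_
  · rwa [Finset.sum_insert nq, Finset.sum_eq_zero fun x m => by
      rw [a.tw x m, b.tw x m, wp_smul_left, wp_smul_right, CharTwo.add_self_eq_zero],
      add_zero] at key
  have o := D.pl.ov l hl
  have cl := G2.dec_closed (D.pl.P l)
  by_cases m2 : l = 2
  · subst m2
    exact hu.elim (fun k => ot2 h.rep a.zb b.zb (a.two k) b.ot) fun k =>
      skew h.rep cl a.zb b.zb (ot2 h.rep b.zb a.zb (b.two k) a.ot)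
  by_cases mS : l ∈ D.S
  · exact ur2 h.rep o a.zb b.zb (a.ur l mS m2) (b.ur l mS m2)
  by_cases md : l ∣ D.d₁ * D.d₂
  · exact (hl.dvd_mul.1 (md.trans hd)).elim (fun k => cb_l h.rep cl b.zb (a.str l hl k)) fun k =>
      cb_r h.rep cl a.zb b.zb (b.str l hl k)
  rw [Finset.mem_insert, not_or] at m
  have n := And.intro mS (And.intro md (And.intro (Finset.notMem_singleton.2 m.1) m.2))
  exact ur0 h.rep o a.zb b.zb (a.un l _ o n) (b.un l _ o n)

end Vale.Agent.P004C.Mu
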