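import Vale.Agent.P004C.Mu.St0
import Vale.Agent.P004R.Mu0
import Vale.Agent.P004S.Wt

/-!
# P004 C, block MU, row SGN: the sign character of the residual representation
-/

set_option linter.all false

noncomputable section

namespace Vale.Agent.P004C.Mu

open NumberField Matrix
open Vale.Agent.P022 (GQ)
open Vale.Agent.P027M.S.Loc (jQ mem_GK)
open Vale.Agent.P004S
open Vale.Agent.P004S.Wg (M2 det_rb)

namespace Sg

/-- the sign of a matrix -/
def sm (A : M2) : ZMod 2 := if A = 1 ∨ A.trace = 1 then 0 else 1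

theorem sm_mul : ∀ A B : M2, A.det = 1 → B.det = 1 → sm (A * B) = sm A + sm B := by
  simp only [det_fin_two, sm, trace_fin_two]
  decide +kernel

theorem sm_zero {A : M2} : sm A = 0 ↔ A = 1 ∨ A.trace = 1 := by
  unfold sm
  split_ifs with h <;> simp [h]

/-- a quadratic character -/
theorem ex_nu {x : GQ → ZMod 2} (ad : ∀ g h, x (g * h) = x g + x h) {U : Subgroup GQ}
    (hU : IsOpen (U : Set GQ)) (h0 : ∀ u ∈ U, x u = 0) : ∃ d : ℤ, Squarefree d ∧ x = nu d := by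
  obtain ⟨y, y0, hy⟩ := P022E.GW.Kc.kq_surjL jQ x (fun g _ h _ => ad g h)
    ⟨U, hU, fun u a _ => h0 u a⟩
  have m0 : y.num * y.den ≠ 0 := mul_ne_zero (Rat.num_ne_zero.2 y0) (by exact_mod_cast y.den_nz)
  have h1 : ∀ g, x g = nu (y.num * y.den) g := fun g => by
    rw [hy g (mem_GK g), P004R.Mu.nu_kq, ← P022E.GW.Kc.kq_sqL jQ y (z := y.den)
      (by exact_mod_cast y.den_nz) (mem_GK g), sq, ← mul_assoc, Rat.mul_den_eq_num]
    simp
  generalize y.num * y.den = c at m0 h1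
  obtain ⟨a, b, e, ha⟩ := Nat.sq_mul_squarefree c.natAbs
  obtain ⟨d, hd, e2⟩ : ∃ d : ℤ, d.natAbs = a ∧ c = d * b ^ 2 := by
    rcases Int.natAbs_eq c with k | k
    · exact ⟨a, rfl, by rw [k, ← e]; push_cast; ring⟩
    · exact ⟨-a, by simp, by rw [k, ← e]; push_cast; ring⟩
  refine ⟨d, Int.squarefree_natAbs.1 (hd ▸ ha), funext fun g => ?_⟩
  rw [e2] at m0
  rw [h1, e2, nu_mul_sq (left_ne_zero_of_mul m0) (pow_ne_zero_iff two_ne_zero |>.1
    (right_ne_zero_of_mul m0))]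

end Sg

open Sg in
/-- **row SGN** -/
theorem sgn : SGN := fun r S h => by
  obtain ⟨d, hd, e⟩ := ex_nu (x := fun g => sm (rb r g))
    (fun g k => by rw [h.rb_mul, sm_mul _ _ (det_rb h g) (det_rb h k)]) (h.Kn_open 1)
    fun u a => sm_zero.2 (.inl (h.tr_one_iff.1 a))
  refine ⟨d, hd, fun l hl a => by_contra fun b => ?_, fun g => by rw [← e]; exact sm_zero⟩
  obtain ⟨P, o⟩ := P004R.Mu.ex_pl hl
  obtain ⟨τ, -, c, -⟩ := P004R.Mu.ex_st o
  have := nu_tau o (h.ne_two b) hd a c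
  rw [← e] at this
  exact zero_ne_one ((sm_zero.2 (.inl (h.tr_one_iff.1 (h.Kn_uns 1 l P o b τ c.1)))).symm.trans this)

end Vale.Agent.P004C.Mu
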