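import Vale.Agent.P004C.Mu.Adp0
import Vale.Agent.P004C.Mu.St
import Vale.Agent.P004C.Al.St2
import Vale.Agent.P004F.Pt.Pe

/-!
# P004 C, block MU: the algebraic side of the anchor
-/

set_option linter.all false

noncomputable section

namespace Vale.Agent.P004C.Mu

open NumberField Matrix PowerSeries
open scoped NumberTheorySymbols
open Vale.Agent.P022 (Qb GQ GK)
open Vale.Agent.P022D.W (dec)
open Vale.Agent.P022K.G2 (In)
open Vale.Agent.P004F (Crv Fld Cc)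
open Vale.Agent.P004K (RC1 RC2)
open Vale.Agent.P004R (Ly)
open Ap

theorem rb_eq (e : Crv) (g : GQ) : P004S.rb e.rp g = (e.r g).map PadicInt.toZMod :=
  Matrix.ext fun _ _ => P004S.rd_coe _

theorem ac_aL (ρ : GQ → P004F.M2 (ZMod 2)) (χ : GQ → ℕ) (J : ℕ) (g : GQ) (x : Fin 2 → Rb J) :
    P004F.Pr.ac ((Ideal.Quotient.mk _ (1 + X) : Rb J) ^ χ g •
      (ρ g).map ((Ideal.Quotient.mk _).comp C : ZMod 2 →+* Rb J)) x = P004F.Pr.ac (aL ρ χ g) x := by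
  rw [← map_pow]; rfl

theorem zc_zm {K : Type} [Field K] [NumberField K] (j : K →+* Qb) (T ρ J χ P) :
    Al.Zc j T ρ J χ P = Zm (GK j) T (aL ρ χ) P (Rb J) := Set.ext fun x =>
  and_congr_left' ⟨fun h => ⟨fun g m k n => ac_aL ρ χ J g _ ▸ h.coc g m k n, h.out, h.lc, h.unr⟩,
    fun h => ⟨fun g m k n => (ac_aL ρ χ J g _).symm ▸ h.coc g m k n, h.out, h.lc, h.unr⟩⟩

theorem zc {e : Crv} (b : Fld e) (J c : ℕ) (χ : GQ → ℕ) :
    Al.Zc b.j (e.S.toFinset ∪ c.primeFactors) (fun g => (e.r g).map PadicInt.toZMod) J χ (e.P 2) =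
      b.Z0 J c χ := by
  unfold Fld.Z0 Fld.T
  congr!

theorem lw (r1 : RC1) (r2 : RC2) {K : Type} [Field K] [NumberField K] {j : K →+* Qb} {c k : ℕ}
    {e : GQ → ZMod (2 * 2 ^ k)} (h : Ly j c (2 ^ k) e) : Al.Lw j c k e := by
  have c0 := Nat.pos_of_ne_zero h.sq.ne_zero
  refine ⟨Nat.not_even_iff_odd.1 fun a => ?_, ?_, h.add,
    ⟨_, (r1 K j h.iq c c0).2.1, fun g _ m => h.ker g m⟩,
    fun l P o n g m i => h.ker g (P004F.Ra.unr_hc r2 h.iq c0 o n m i), fun l P o d => ?_⟩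
  · obtain ⟨P, o⟩ := P004R.Cb.ex_ov Nat.prime_two
    exact (h.ram 2 P o a.two_dvd).1 rfl
  · obtain ⟨q, q', a, -, -, d⟩ := h.two
    exact a.one_lt.trans_le (Nat.le_of_dvd c0 ((dvd_mul_right _ _).trans d))
  · obtain ⟨-, a, t, i, b⟩ := h.ram l P o d
    exact ⟨t, a (P004S.inert_dec i), i, b⟩

/-- from a layer to a level of a tower -/
theorem tw_of {e : Crv} (b : Fld e) {n c m k : ℕ} {χ : GQ → ZMod (2 * 2 ^ (n + 1))}
    (h : Ly b.j c (2 ^ (n + 1)) χ) (pl : P004S.Pl) (crd : c.primeFactors.card ≤ k)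
    (cy : ∀ q : ℕ, q.Prime → q ∣ c → q % 2 ^ (n + 3) = 1 ∧ q ∉ e.S ∧ ¬ q ∣ b.δ' ∧
      P004F.En.Gq e.rp m (pl.σ q)) : b.Tw (2 * m + 1 + k) n c fun g => (χ g).val := by
  have c0 := Nat.pos_of_ne_zero h.sq.ne_zero
  have : Fact (1 < 2 * 2 ^ (n + 1)) := ⟨by have := Nat.two_pow_pos (n + 1); omega⟩
  refine ⟨⟨fun g m k n => P004F.Pt.val_mod ?_, fun g m => by simp [h.ker g m]⟩, h.sq, ?_, by omega,
    fun q m => ?_, fun q m P o => ?_⟩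
  · rw [h.add g m k n, Nat.cast_add, ZMod.natCast_zmod_val, ZMod.natCast_zmod_val]
  · obtain ⟨q, q', a, -, -, d⟩ := h.two
    exact a.one_lt.trans_le (Nat.le_of_dvd c0 ((dvd_mul_right _ _).trans d))
  · obtain ⟨hq, d, -⟩ := Nat.mem_primeFactors.1 m
    obtain ⟨a1, a2, a3, a4⟩ := cy q hq d
    obtain ⟨q2, le, -⟩ := h.ram q _ (pl.ov q hq) d
    obtain ⟨ω, s, qd⟩ := P004F.Pt.ex_q b.j b.iq
    refine ⟨a2, a3, ⟨_, P004F.Pt.typ' b.kd qd b.th hq q2 ?_, ?_⟩,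
      P004F.Pt.gq_nd (pl.ov q hq) a2 (pl.fb q hq) a4 (by omega)⟩
    · rw [P004R.Cb.jac (pl.ov q hq) q2 (fun k => a3 (by exact_mod_cast dvd_neg.1 k)) (pl.fb q hq),
        (b.kd.gk _).1 (le (pl.σ_dec hq))]
      rfl
    · exact (pow_dvd_pow 2 (n.le_add_right 3)).trans (a1 ▸ Nat.dvd_sub_mod q)
  · obtain ⟨-, -, t, i, a⟩ := h.ram q P o (Nat.dvd_of_mem_primeFactors m)
    refine ⟨t, i, ?_, fun g _ => ⟨(χ g).val, ?_⟩⟩ <;> simp only [a, ZMod.val_one]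
    · exact fun k => absurd (Nat.dvd_one.1 k) (Nat.one_lt_two_pow (by omega)).ne'
    · rw [mul_one]

/-- **the algebraic side of the anchor** -/
theorem adp (hM : MU) (e : Crv) (b : Fld e) (D : Dt) (ok : D.Ok) (hr : D.r = e.rp)
    (hS : D.S = e.S.toFinset) (hd : D.d₁ * D.d₂ = b.δ') : ∃ m B : ℕ, ∀ n, ∃ Q ε c,
    ∃ χ : GQ → ZMod (2 * 2 ^ (n + 1)), D.Tw b.j n Q ε c χ ∧ b.Tw m n c (fun g => (χ g).val) ∧
      ∀ J ≤ 2 * 2 ^ (n + 1), Finite (b.Z0 J c fun g => (χ g).val) ∧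
        Nat.card (b.Z0 J c fun g => (χ g).val) ≤ 2 ^ B ∧
        Nat.card (b.Z0 J c fun g => (χ g).val) ≤ Nat.card (b.Z0 5 c fun g => (χ g).val) := by
  obtain ⟨u, -, hu, -⟩ := b.ex_big
  obtain ⟨k, m, H⟩ := hM D ok ⟨u, hr ▸ hu⟩ b.K b.j (hd ▸ b.kd)
  have h := e.rep
  obtain ⟨B, hB⟩ := bound (Γ := b.Γ) (S := e.S.toFinset)
    (ρ := fun g => (e.r g).map PadicInt.toZMod) ⟨b.Γ_open, P004F.Ra.gk_idx b.iq b.cc,
      P004F.Ra.gk_cx b.iq, h.two, hS ▸ ok.pr, by rw [← rb_eq, P004S.rb_one],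
      fun g _ k _ => by simp only [← rb_eq, h.rb_mul],
      ⟨_, h.Kn_open 1, fun w _ m => e.tr_one.1 m⟩,
      fun g _ ⟨l, n, P, o, i⟩ => e.tr_one.1 (h.Kn_uns 1 l P o n g i)⟩ k 5
  refine ⟨2 * m + 1 + k, B, fun n => ?_⟩
  obtain ⟨Q, ε, c, χ, tw, crd, gq, kx⟩ := H n
  refine ⟨Q, ε, c, χ, tw, tw_of b tw.ly D.pl crd fun q hq d => ?_, fun J hJ => ?_⟩
  · obtain ⟨a1, a2, a3⟩ := tw.cy q hq d
    exact ⟨a1, fun m => a2 (hS ▸ List.mem_toFinset.2 m), hd ▸ a3, hr ▸ gq q hq d⟩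
  simp only [← zc, zc_zm]
  obtain ⟨_, h5⟩ := hB c.primeFactors (fun g => (χ g).val) (e.P 2)
    (fun l m => Nat.prime_of_mem_primeFactors m) crd
  obtain ⟨f, le⟩ := le_of (Γ := b.Γ) (T := e.S.toFinset ∪ c.primeFactors)
    (a := aL (fun g => (e.r g).map PadicInt.toZMod) fun g => (χ g).val) (P := e.P 2) 5 J
    fun x hx => funext fun g => by
      by_cases m : g ∈ b.Γ
      · have := kx J hJ _ (e.ov 2 e.two) x (fun g m k n => by
          rw [hx.1.coc g m k n, ← ac_aL, hr, ab, rb_eq]) hx.1.lc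
          (fun g _ i => hx.1.unr g (hS ▸ i)) hx.2 g m
        rw [tb, ← map_pow] at this
        exact this
      · rw [Pi.smul_apply, hx.1.out g m, smul_zero, Pi.zero_apply]
  exact ⟨f, le.trans h5, le⟩

end Vale.Agent.P004C.Mu
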