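import Vale.Agent.P004C.Mu.St
import Vale.Agent.P004R.Twr0
import Vale.Agent.P004S.Wt

/-!
# P004 C, block MU, row CHV: the supply of primes
-/

set_option linter.all false

noncomputable section

namespace Vale.Agent.P004C.Mu

open NumberField Matrix
open Vale.Agent.P022 (GQ)
open Vale.Agent.P004S
open Vale.Agent.P004S.Wg (M2 o3 det_rb ex_o3)
open Vale.Agent.P004F.En (Big Gq ep_pow ep_conj)

namespace Cv

variable {r : Rp} {S : Finset ℕ}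

theorem d1 : ∀ ω : M2, o3 ω → o3 (ω * ω) ∧ (∀ v : W, ω *ᵥ v = v → v = 0) ∧
    ∀ v : W, ω *ᵥ ω *ᵥ v - ω *ᵥ v = v := by decide +kernel

theorem d2 : ∀ A B ω : M2, A * B = 1 → o3 ω → A * ω * B = ω ∨ A * ω * B = ω * ω := by
  decide +kernel

theorem d3 : ∀ ω : M2, o3 ω → ∀ a b : W, ∃ s : Fin 5, ∀ t ≠ s,
    ![a, b, a + b, a + ω *ᵥ b, a + ω *ᵥ ω *ᵥ b] t = 0 → a = 0 ∧ b = 0 := by decide +kernel

theorem near (h : Rep r S) (g : GQ) : ‖ep r g + 1‖ ≤ 1 / 2 := by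
  have e := h.norm_ep g
  rw [← sub_neg_eq_add, ← rd_eq_iff e.le (by simp), rd_neg, rd_one]
  exact if_neg (by rw [e]; simp)

/-- determinant one modulo `2 ^ n` -/
def En (h : Rep r S) (n : ℕ) : Subgroup GQ where
  carrier := {g | ‖ep r g - 1‖ ≤ (1 / 2) ^ n}
  mul_mem' {a b} ha hb := by
    show ‖ep r (a * b) - 1‖ ≤ _
    rw [ep_mul, show ep r a * ep r b - 1 = ep r a * (ep r b - 1) + (ep r a - 1) by ring]
    exact norm_add_le' (by rwa [norm_mul, h.norm_ep, one_mul]) ha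
  one_mem' := by
    show ‖ep r 1 - 1‖ ≤ _
    rw [ep_one, sub_self, norm_zero]; positivity
  inv_mem' {a} ha := by
    show ‖ep r a⁻¹ - 1‖ ≤ _
    rw [← ep_one r, ← inv_mul_cancel a, ep_mul, ← mul_one_sub, norm_mul, h.norm_ep, one_mul,
      norm_sub_rev]
    exact ha

theorem En_open (h : Rep r S) (n : ℕ) : IsOpen (En h n : Set GQ) := by
  have := (IsUltrametricDist.isOpen_closedBall (1 : ℚ_[2])
    (show ((1 / 2 : ℝ) ^ n) ≠ 0 by positivity)).preimage h.ep_cont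
  convert this using 1
  ext g
  rw [Set.mem_preimage, mem_closedBall_iff_norm]
  rfl

theorem ex_om (h : Rep r S) (i : IrB r) (d : ℤ) (n : ℕ) :
    ∃ ω ∈ kn d ⊓ En h n, o3 (rb r ω) := by
  have sq : ∀ g, g * g ∈ kn d := fun g => by rw [mem_kn, nu_mul, CharTwo.add_self_eq_zero]
  induction n with
  | zero =>
    obtain ⟨g, o⟩ := ex_o3 h i
    exact ⟨g * g, ⟨sq g, norm_sub_le' (by simp [h.norm_ep]) (by simp)⟩,
      h.rb_mul g g ▸ (d1 _ o).1⟩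
  | succ n ih =>
    obtain ⟨g, a, o⟩ := ih
    refine ⟨g * g, ⟨sq g, ?_⟩, h.rb_mul g g ▸ (d1 _ o).1⟩
    show ‖ep r (g * g) - 1‖ ≤ _
    rw [ep_mul, show ep r g * ep r g - 1 = (ep r g - 1) * (ep r g + 1) by ring, norm_mul, pow_succ]
    exact mul_le_mul a.2 (near h g) (norm_nonneg _) (by positivity)

/-- a cocycle which vanishes on the kernel in a normal subgroup with an element of order three -/
theorem cob (h : Rep r S) {U : Subgroup GQ} (hU : U.Normal) {ω : GQ} (hω : ω ∈ U)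
    (o : o3 (rb r ω)) {z : GQ → W} (hz : Zb r z) (h0 : ∀ g ∈ U, rb r g = 1 → z g = 0) :
    Cb r Set.univ z := by
  obtain ⟨y, hy⟩ : ∃ y : GQ → W, ∀ g, y g = z g - (rb r g *ᵥ rb r ω *ᵥ z ω - rb r ω *ᵥ z ω) :=
    ⟨_, fun _ => rfl⟩
  have y1 : ∀ g k, y (g * k) = y g + rb r g *ᵥ y k := fun g k => by
    rw [hy, hy, hy, hz.2, h.rb_mul, ← mulVec_mulVec, mulVec_sub, mulVec_sub]; abel
  have y2 : y ω = 0 := by rw [hy, (d1 _ o).2.2, sub_self]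
  have y3 : ∀ u ∈ U, ∀ w ∈ U, y w = 0 → rb r u = rb r w → y u = 0 := fun u a w b c e => by
    have e1 : rb r (w⁻¹ * u) = 1 := by rw [h.rb_mul, e, ← h.rb_mul, inv_mul_cancel, rb_one]
    rw [← mul_inv_cancel_left w u, y1, c, hy, h0 _ (mul_mem (inv_mem b) a) e1, e1]
    simp
  refine ⟨rb r ω *ᵥ z ω, fun g _ => sub_eq_zero.1 ((hy g).symm.trans ?_)⟩
  have e := y1 (g * ω * g⁻¹) g
  rw [inv_mul_cancel_right, y1, y2, mulVec_zero, add_zero] at e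
  have m := hU.conj_mem ω hω g
  rcases d2 _ _ _ (by rw [← h.rb_mul, mul_inv_cancel, rb_one] : rb r g * rb r g⁻¹ = 1) o with
    a | a <;> rw [← h.rb_mul, ← h.rb_mul] at a
  · rw [y3 _ m ω hω y2 a, a, zero_add] at e
    exact (d1 _ o).2.1 _ e.symm
  · rw [y3 _ m (ω * ω) (mul_mem hω hω) (by rw [y1, y2]; simp) (a.trans (h.rb_mul ω ω).symm), a,
      zero_add] at e
    exact (d1 _ (d1 _ o).1).2.1 _ e.symm

theorem comb (h : Rep r S) {K : Subgroup GQ} (hK : K.Normal) (k1 : ∀ g ∈ K, rb r g = 1) {ω : GQ}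
    (o : o3 (rb r ω)) {z : Fin 4 → GQ → W} (hz : ∀ i, Zb r (z i)) {a b : GQ} (ha : a ∈ K)
    (hb : b ∈ K) : ∃ c ∈ K, ∀ i, z i c = 0 → z i a = 0 ∧ z i b = 0 := by
  choose s hs using fun i => d3 _ o (z i a) (z i b)
  obtain ⟨t, ht⟩ : ∃ t, ∀ i, s i ≠ t := by
    by_contra c
    push Not at c
    simpa using Fintype.card_le_of_surjective s c
  have b1 := hK.conj_mem b hb ω
  have b2 := hK.conj_mem _ b1 ω
  have e : ∀ i x, z i (a * x) = z i a + z i x := fun i x => by rw [(hz i).2, k1 a ha, one_mulVec]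
  refine ⟨![a, b, a * b, a * (ω * b * ω⁻¹), a * (ω * (ω * b * ω⁻¹) * ω⁻¹)] t, ?_,
    fun i c => hs i t (ht i).symm ?_⟩
  · fin_cases t
    exacts [ha, hb, mul_mem ha hb, mul_mem ha b1, mul_mem ha b2]
  · rw [← (hz i).conj h ω (k1 b hb), ← (hz i).conj h ω (k1 _ b1), ← e, ← e, ← e, ← c]
    fin_cases t <;> rfl

theorem four (h : Rep r S) {K : Subgroup GQ} (hK : K.Normal) (k1 : ∀ g ∈ K, rb r g = 1) {ω : GQ}
    (o : o3 (rb r ω)) {z : Fin 4 → GQ → W} (hz : ∀ i, Zb r (z i))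
    (ne : ∀ i, ∃ g ∈ K, z i g ≠ 0) : ∃ c ∈ K, ∀ i, z i c ≠ 0 := by
  choose k m n using ne
  obtain ⟨a, ha, a1⟩ := comb h hK k1 o hz (m 0) (m 1)
  obtain ⟨b, hb, b1⟩ := comb h hK k1 o hz (m 2) (m 3)
  obtain ⟨c, hc, c1⟩ := comb h hK k1 o hz ha hb
  refine ⟨c, hc, fun i e => n i ?_⟩
  have p := a1 i (c1 i e).1
  have q := b1 i (c1 i e).2
  fin_cases i
  exacts [p.1, p.2, q.1, q.2]

end Cv

open Cv in
/-- **row CHV** -/
theorem chv : CHV := fun D ok ⟨k, b⟩ => by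
  classical
  have h := ok.rep
  obtain ⟨m, hm⟩ := b.gq h two_ne_zero
  refine ⟨m, fun n F z F' hz => ?_⟩
  obtain ⟨ω, hω, o⟩ := ex_om h ok.irr (-((D.d₁ * D.d₂ : ℕ) : ℤ)) (n + 3)
  generalize hd : -((D.d₁ * D.d₂ : ℕ) : ℤ) = d at hω
  have nU : (kn d ⊓ En h (n + 3)).Normal := ⟨fun u a g => ⟨(nu_conj d g u).trans a.1, by
    show ‖ep D.r (g * u * g⁻¹) - 1‖ ≤ _
    rw [ep_conj]; exact a.2⟩⟩
  have nK := Subgroup.normal_inf_normal _ _ (hH := nU) (hK := h.Kn_normal 1)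
  have k1 : ∀ g ∈ kn d ⊓ En h (n + 3) ⊓ h.Kn 1, rb D.r g = 1 := fun g a => h.tr_one_iff.1 a.2
  obtain ⟨g, gK, hg⟩ := four h nK k1 o (fun i => (hz i).1) fun i => by_contra fun c =>
    (hz i).2.2 (cob h nU hω o (hz i).1 fun g a e => by_contra fun n =>
      c ⟨g, ⟨a, h.tr_one_iff.2 e⟩, n⟩)
  obtain ⟨j, -, hj⟩ := hm g (gK.1.2.trans (by
    rw [pow_add]; exact mul_le_of_le_one_left (by norm_num) (pow_le_one₀ (by norm_num)
      (by norm_num)) |>.trans (by norm_num)))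
  have kk : k ^ j ∈ h.Kn 1 := pow_mem (b.tr.mono (by norm_num)) j
  rw [two_mul, pow_add] at hj
  have e1 : ep D.r (k ^ j) = 1 := by rw [ep_pow, b.ep, one_pow]
  generalize k ^ j = u at hj kk e1
  have uK : u * u ∈ kn d ⊓ En h (n + 3) ⊓ h.Kn 1 := ⟨⟨mem_kn.2 (by
    rw [nu_mul, CharTwo.add_self_eq_zero]), by
    show ‖ep D.r (u * u) - 1‖ ≤ _
    rw [ep_mul, e1, mul_one, sub_self, norm_zero]; positivity⟩, mul_mem kk kk⟩
  obtain ⟨q, ψ, hq, qT, fr, ⟨a1, a2⟩, a3⟩ := P022K.Cheb.exists_fr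
    (O := (((kn d ⊓ En h (n + 3) ⊓ h.Kn 1 : Subgroup GQ) : Set GQ) ∩
      (fun x => (g * (u * u))⁻¹ * x) ⁻¹' h.Kn (m + 1)) ∩ ⋂ i, z i ⁻¹' {0}ᶜ)
    (((((kn_open d).inter (En_open h _)).inter (h.Kn_open 1)).inter
      ((h.Kn_open _).preimage (continuous_const.mul continuous_id))).inter
        (isOpen_iInter_of_finite fun i => (hz i).1.1 _)) (g := g * (u * u))
    ⟨⟨mul_mem gK uK, by simp [one_mem]⟩, Set.mem_iInter.2 fun i => by
      show z i _ ≠ 0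
      rw [(hz i).1.2, (hz i).1.2, h.tr_one_iff.1 kk, one_mulVec,
        show z i u + z i u = 0 from funext fun _ => CharTwo.add_self_eq_zero _, mulVec_zero,
        add_zero]
      exact hg i⟩ (D.S ∪ F ∪ F' ∪ (D.d₁ * D.d₂).primeFactors)
  simp only [Finset.mem_union, not_or] at qT
  obtain ⟨⟨⟨qS, qF⟩, qF'⟩, qd⟩ := qT
  have nd : ¬ q ∣ D.d₁ * D.d₂ := fun c =>
    qd (Nat.mem_primeFactors.2 ⟨hq, c, ok.cg.sq.ne_zero⟩)
  have ov := D.pl.ov q hq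
  obtain ⟨x, s, hs, e⟩ := P004R.Wr.fb_cj ov (D.pl.fb q hq) fr
  have e2 : s * D.pl.σ q = x⁻¹ * ψ * x⁻¹⁻¹ := by rw [e]; group
  have ms := h.mt_inert ov qS hs
  have b1 := nK.conj_mem ψ a1 x⁻¹
  have b2 := (mul_inv_cancel_left _ ψ ▸ hj.mul h a2 : Gq D.r m ψ).conj x⁻¹
  have rs := h.tr_one_iff.1 (tr_of_eq ms)
  rw [← e2] at b1 b2
  have cy : q % 2 ^ (n + 3) = 1 := by
    have c : ‖ep D.r ψ - 1‖ ≤ (1 / 2) ^ (n + 3) := a1.1.2
    rw [(h.frob q hq qS ψ fr).1] at c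
    have := (Padic.norm_int_le_pow_iff_dvd (p := 2) (q - 1) (n + 3)).1 (by
      rw [_root_.zpow_neg, _root_.zpow_natCast]; simpa using c)
    rw [← Nat.mod_eq_of_lt (Nat.one_lt_two_pow (show n + 3 ≠ 0 by omega))]
    exact (Nat.modEq_iff_dvd.2 (by exact_mod_cast this)).symm
  refine ⟨q, qF', ⟨⟨⟨hq, qS, nd, ?_, ?_⟩, qF, cy, ?_⟩, ?_⟩, fun i c => ?_⟩
  · rw [← Nat.mod_mod_of_dvd q (show 4 ∣ 2 ^ (n + 3) from ⟨2 ^ (n + 1), by ring⟩), cy]
  · simpa [h.rb_mul, rs] using k1 _ b1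
  · have := mem_kn.1 b1.1.1
    rwa [nu_mul, ← hd, nu_inert ov (h.ne_two qS) (fun c => nd (by exact_mod_cast dvd_neg.1 c)) hs,
      zero_add] at this
  · rwa [Gq, ep, mt_mul, ms, one_mul] at b2
  · have := (hz i).1.conj h x (k1 _ b1)
    rw [← e, (hz i).1.2, (hz i).2.1 q _ ov qF' s hs, c] at this
    exact Set.mem_iInter.1 a3 i (by simpa using this)

end Vale.Agent.P004C.Mu
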