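import Vale.Agent.P004C.Mu.Pw
import Vale.Agent.P004C.Mu.Sgn
import Vale.Agent.P004C.Mu.Chv

/-!
# P004 C, block MU, row PART: the fields of the wanted shape have positive density
-/

set_option linter.all false

noncomputable section

namespace Vale.Agent.P004C.Mu

open NumberField Matrix
open scoped NumberTheorySymbols
open Vale.Agent.P022 (Qb GQ IsConj IsFrob)
open Vale.Agent.P022E.GW (Ov Fb)
open Vale.Agent.P004S
open Vale.Agent.P004S.Wg (M2 o3 det_rb)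
open Vale.Agent.P004R.Cb (sz jac sz_neg)
open Cv

namespace Pa

variable {r : Rp} {S : Finset ℕ}

/-- the dimension of the fixed space -/
def dm (A : M2) : ℕ := if A = 1 then 2 else if A.trace = 1 then 0 else 1

theorem e1 : ∀ A : M2, A.det = 1 → Fintype.card {v : W // A *ᵥ v = v} = 2 ^ dm A := by
  simp only [det_fin_two, dm, trace_fin_two]
  decide +kernel

theorem e2 : ∀ A : M2, dm A ≤ 2 ∧ (Odd (dm A) ↔ ¬ (A = 1 ∨ A.trace = 1)) ∧
    (A ≠ 1 → dm A ≤ 1) ∧ (A = 1 → dm A = 2) ∧ (o3 A → A ≠ 1) ∧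
    (A * A = 1 → (A = 1 ∨ A.trace = 1 → dm A = 2) ∧ (¬ (A = 1 ∨ A.trace = 1) → dm A = 1)) := by
  simp only [dm, trace_fin_two]
  decide +kernel

theorem hz_eq (h : Rep r S) (g : GQ) : hz r g = 2 ^ dm (rb r g) := by
  rw [hz, Nat.card_eq_fintype_card, e1 _ (det_rb h g)]

theorem jr {l p : ℕ} {P : Ideal (𝓞 Qb)} (o : Ov l P) (l2 : l ≠ 2) (hp : p.Prime) (p2 : p ≠ 2)
    (n : l ≠ p) {φ : GQ} (f : Fb l P φ) : J(l | p) = sz (nu (ZMod.χ₄ p * p) φ) := by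
  have op := hp.odd_of_ne_two p2
  rw [jacobiSym.quadratic_reciprocity' (o.1.odd_of_ne_two l2) op, qrSign, ← jacobiSym.mul_left]
  refine jac o l2 (fun c => n ((Nat.prime_dvd_prime_iff_eq o.1 hp).1 ?_)) f
  rcases Nat.odd_mod_four_iff.1 (Nat.odd_iff.1 op) with a | a
  · rw [ZMod.χ₄_nat_one_mod_four a, one_mul] at c
    exact_mod_cast c
  · rw [ZMod.χ₄_nat_three_mod_four a, neg_one_mul, dvd_neg] at c
    exact_mod_cast c

theorem md8 {a b : ℕ} (h : ‖(a : ℚ_[2]) - b‖ ≤ (1 / 2) ^ 3) : b % 8 = a % 8 := by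
  have := (Padic.norm_int_le_pow_iff_dvd (p := 2) (a - b) 3).1 (by
    rw [_root_.zpow_neg, _root_.zpow_natCast]; simpa using h)
  exact Nat.modEq_iff_dvd.2 (by exact_mod_cast this)

/-- primes in a given class -/
theorem sup (h : Rep r S) (hS : ∀ p ∈ S, p.Prime) (pl : Pl) (g : GQ) (F : Finset ℕ) :
    ∃ l ∉ F, l.Prime ∧ ‖ep r g - l‖ ≤ (1 / 2) ^ 3 ∧
      (∀ p ∈ S, p ≠ 2 → J(l | p) = sz (nu (ZMod.χ₄ p * p) g)) ∧
      (rb r (pl.σ l) = 1 ↔ rb r g = 1) := by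
  classical
  have oV : IsOpen ((h.Kn 3 ⊓ ⨅ p : S, kn (ZMod.χ₄ p * p) : Subgroup GQ) : Set GQ) := by
    rw [Subgroup.coe_inf, Subgroup.coe_iInf]
    exact (h.Kn_open 3).inter (isOpen_iInter_of_finite fun i => kn_open _)
  obtain ⟨l, ψ, hl, lT, fr, ⟨a1, a2⟩, a3⟩ := P022K.Cheb.exists_fr
    (((oV.inter (En_open h 3))).preimage (f := fun x => g⁻¹ * x)
      (continuous_const.mul continuous_id)) (g := g) (by simp [one_mem]) (S ∪ F)
  rw [Finset.mem_union, not_or] at lT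
  have e : ψ = g * (g⁻¹ * ψ) := (mul_inv_cancel_left _ _).symm
  refine ⟨l, lT.2, hl, ?_, fun p m n => ?_, ?_⟩
  · rw [← (h.frob l hl lT.1 ψ fr).1, e, ep_mul, ← mul_one_sub, norm_mul, h.norm_ep, one_mul,
      norm_sub_rev]
    exact a3
  · obtain ⟨Q, q1, q2, q3⟩ := fr
    rw [jr ⟨hl, q1, q2⟩ (h.ne_two lT.1) (hS p m) n (fun c => lT.1 (c ▸ m)) q3, e, nu_mul,
      mem_kn.1 (Subgroup.mem_iInf.1 a2 ⟨p, m⟩), add_zero]
  · obtain ⟨x, s, hs, k⟩ := P004R.Wr.fb_cj (pl.ov l hl) (pl.fb l hl) fr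
    have b : rb r ψ = rb r g := by
      rw [e, h.rb_mul, h.tr_one_iff.1 (Tr.mono a1 (by norm_num)), mul_one]
    have c := h.tr_one_iff.1 (tr_of_eq (h.mt_inert (pl.ov l hl) lT.1 hs))
    rw [← b, show rb r (pl.σ l) = rb r (s * pl.σ l) by rw [h.rb_mul, c, one_mul], k,
      ← h.tr_one_iff, ← h.tr_one_iff]
    exact ⟨fun t => h.tr_conj t x, fun t => by simpa [mul_assoc] using h.tr_conj t x⁻¹⟩

end Pa

open Pa in
/-- **row PART** -/
theorem part : PART := fun r S pl k B h i hS hk => by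
  obtain ⟨Δ, d1, d2, d3⟩ := sgn r S h
  refine P004R.Pt.posd_mul (pw S B (fun l => dm (rb r (pl.σ l))) Δ hS h.two (fun l => (e2 _).1) d1
    d2 (fun l hl n => ?_) (fun x hx F => ?_) fun F => ?_) one_pos ?_
  · rw [(e2 _).2.1, ← d3, jac (pl.ov l hl) (h.ne_two n) (fun c => n (d2 l hl c)) (pl.fb l hl),
      sz_neg]
    generalize nu Δ (pl.σ l) = a
    revert a; decide
  · obtain ⟨q, q1, q2, q3⟩ := Nat.forall_exists_prime_gt_and_modEq (8 * ∏ p ∈ S, p)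
      (q := 8 * ∏ p ∈ S, p) (a := x)
      (mul_ne_zero (by norm_num) (Finset.prod_ne_zero_iff.2 fun p m => (hS p m).ne_zero))
      (Nat.Coprime.mul_right ((Nat.coprime_two_right.2 (Nat.odd_iff.2 (by
        have := hx 2 h.two; omega))).pow_right 3) (Nat.Coprime.prod_right fun p m =>
          ((Nat.Prime.coprime_iff_not_dvd (hS p m)).2 (hx p m)).symm))
    have qS : q ∉ S := fun m => absurd (Nat.le_of_dvd (Nat.pos_of_ne_zero (mul_ne_zero
      (by norm_num) (Finset.prod_ne_zero_iff.2 fun p m => (hS p m).ne_zero)))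
      ((Finset.dvd_prod_of_mem (fun p => p) m).mul_left 8)) (not_le.2 q1)
    have ov := pl.ov q q2
    obtain ⟨ω, a, o⟩ := ex_om h i 1 3
    obtain ⟨u, u1, u2, u3⟩ : ∃ u ∈ En h 3, (∀ d, nu d u = 0) ∧ rb r (pl.σ q * u) ≠ 1 := by
      by_cases c : rb r (pl.σ q) = 1
      · refine ⟨ω * ω, mul_mem a.2 a.2, fun d => by rw [nu_mul, CharTwo.add_self_eq_zero], ?_⟩
        rw [h.rb_mul, c, one_mul, h.rb_mul]
        exact (e2 _).2.2.2.2.1 (Cv.d1 _ o).1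
      · exact ⟨1, one_mem _, fun d => nu_one d, by rwa [mul_one]⟩
    obtain ⟨l, l1, l2, l3, l4, l5⟩ := sup h hS pl (pl.σ q * u) F
    refine ⟨l, l1, l2, (md8 ?_).trans (q3.of_mul_right _), fun p m n => ?_,
      (e2 _).2.2.1 (_root_.mt l5.1 u3)⟩
    · rw [← (h.frob q q2 qS _ ⟨_, ov.2.1, ov.2.2, pl.fb q q2⟩).1, show ep r (pl.σ q) - l =
        ep r (pl.σ q * u) - l - ep r (pl.σ q) * (ep r u - 1) by rw [ep_mul]; ring]
      exact norm_sub_le' l3 (by rw [norm_mul, h.norm_ep, one_mul]; exact u1)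
    · rw [l4 p m n, nu_mul, u2, add_zero,
        ← jr ov (h.ne_two qS) (hS p m) n (fun c => qS (c ▸ m)) (pl.fb q q2)]
      exact jacobiSym.mod_left' (by
        exact_mod_cast (q3.of_mul_left _).of_dvd (Finset.dvd_prod_of_mem (fun p => p) m))
  · obtain ⟨l, l1, l2, l3, l4, l5⟩ := sup h hS pl 1 F
    exact ⟨l, l1, l2, md8 (a := 1) (by rwa [Nat.cast_one, ← ep_one r]),
      fun p m n => by rw [l4 p m n, nu_one]; rfl, (e2 _).2.2.2.1 (l5.2 (rb_one r))⟩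
  · rintro _ ⟨a, d₁, d₂, rfl, c, e⟩
    refine ⟨1, one_pos, le_rfl, by rwa [mul_one], d₁, d₂, mul_one _, h, i, hS, hk, c, ?_⟩
    have k2 := (e2 (rb r k)).2.2.2.2.2 (by rw [← h.rb_mul, P004R.Mu.kk hk, rb_one])
    rw [← d3] at k2
    simp only [hz_eq h, Finset.prod_pow_eq_pow_sum]
    rw [e]
    split_ifs with n
    · rw [k2.2 (by rw [nu_neg_conj n hk]; exact one_ne_zero)]; ring
    · rw [k2.1 (by rw [show Δ = Δ.natAbs by omega]; exact nu_nat_conj _ hk)]; ring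

end Vale.Agent.P004C.Mu
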