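import Vale.Agent.P004F.Ra.Lv
import Vale.Agent.P004F.Pr.All

/-!
# P004 C, block MU: counting cocycles with values in truncated power series
-/

set_option linter.all false

noncomputable section

namespace Vale.Agent.P004C.Mu.Ap

open NumberField Matrix PowerSeries
open Vale.Agent.P022 (Qb GQ)
open Vale.Agent.P022D.W (dec)
open Vale.Agent.P022K.G2 (In)
open Vale.Agent.P004F
open Vale.Agent.P004F.Pr (ac ac_add ac_smul ac_zero Gd Zs)

abbrev L : Type := PowerSeries (ZMod 2)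

variable (Γ : Subgroup GQ) (T : Finset ℕ) (a : GQ → M2 L) (P : Ideal (𝓞 Qb))

/-- the cocycles which vanish at `P` -/
def Zm (M : Type) [AddCommGroup M] [Module L M] : Submodule L (GQ → Fin 2 → M) where
  carrier := {x | Cc Γ T a x ∧ ∀ g ∈ dec P, x g = 0}
  add_mem' := by
    rintro x y ⟨⟨x1, x2, ⟨W, hW, x3⟩, x4⟩, x5⟩ ⟨⟨y1, y2, ⟨V, hV, y3⟩, y4⟩, y5⟩
    refine ⟨⟨fun g hg h hh => ?_, fun g hg => ?_, ⟨W ⊓ V, hW.inter hV, fun w m => ?_⟩,
      fun g hg => ?_⟩, fun g hg => ?_⟩ <;> simp only [Pi.add_apply]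
    · rw [x1 g hg h hh, y1 g hg h hh, ac_add]; abel
    · rw [x2 g hg, y2 g hg, add_zero]
    · rw [x3 w m.1, y3 w m.2, add_zero]
    · rw [x4 g hg, y4 g hg, add_zero]
    · rw [x5 g hg, y5 g hg, add_zero]
  zero_mem' := ⟨⟨fun _ _ _ _ => by simp [ac_zero], fun _ _ => rfl,
    ⟨⊤, isOpen_univ, fun _ _ => rfl⟩, fun _ _ => rfl⟩, fun _ _ => rfl⟩
  smul_mem' r x h := ⟨Ra.Cc.smul h.1 r, fun g m => by rw [Pi.smul_apply, h.2 g m, smul_zero]⟩

variable {Γ T a P} {M M' : Type} [AddCommGroup M] [Module L M] [AddCommGroup M'] [Module L M']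

theorem Zm.map (f : M →ₗ[L] M') {x : GQ → Fin 2 → M} (h : x ∈ Zm Γ T a P M) :
    (fun g => f ∘ x g) ∈ Zm Γ T a P M' :=
  ⟨Ra.Cc.map h.1 f, fun g m => funext fun i => by simp [h.2 g m]⟩

theorem Zm.comap {f : M →ₗ[L] M'} (hf : Function.Injective f) {x : GQ → Fin 2 → M}
    (h : (fun g => f ∘ x g) ∈ Zm Γ T a P M') : x ∈ Zm Γ T a P M := by
  have z : ∀ g, f ∘ x g = 0 → x g = 0 := fun g e => funext fun i =>
    hf ((congrFun e i).trans (map_zero f).symm)
  refine ⟨⟨fun g m k n => funext fun i => hf ?_, fun g m => z g (h.1.out g m),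
    h.1.lc.imp fun W k => ⟨k.1, fun w m => z w (k.2 w m)⟩, fun g m => z g (h.1.unr g m)⟩,
    fun g m => z g (h.2 g m)⟩
  have := congrFun (h.1.coc g m k n) i
  rw [Ra.ac_map] at this
  rw [Pi.add_apply, map_add]
  exact this

/-- multiplication by `T ^ k` -/
def up (i k : ℕ) : Rb i →ₗ[L] Rb (i + k) :=
  Submodule.mapQ _ _ (LinearMap.mulLeft L (X ^ k)) fun p h => by
    rw [Submodule.mem_comap, LinearMap.mulLeft_apply, Ideal.mem_span_singleton, pow_add, mul_comm]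
    exact mul_dvd_mul_left _ (Ideal.mem_span_singleton.1 h)

theorem up_mk (i k : ℕ) (p : L) :
    up i k (Ideal.Quotient.mk _ p) = Ideal.Quotient.mk _ (X ^ k * p) := rfl

theorem up_inj (i k : ℕ) : Function.Injective (up i k) := (injective_iff_map_eq_zero _).2 fun x h => by
  obtain ⟨p, rfl⟩ := Ideal.Quotient.mk_surjective x
  rw [up_mk, Ideal.Quotient.eq_zero_iff_mem, Ideal.mem_span_singleton, pow_add, mul_comm,
    mul_dvd_mul_iff_left (pow_ne_zero k X_ne_zero)] at h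
  exact Ideal.Quotient.eq_zero_iff_mem.2 (Ideal.mem_span_singleton.2 h)

theorem up_sur (i k : ℕ) {y : Rb (i + k)} (h : (X : L) ^ i • y = 0) : ∃ x, up i k x = y := by
  obtain ⟨p, rfl⟩ := Ideal.Quotient.mk_surjective y
  have : (Ideal.Quotient.mk _ (X ^ i * p) : Rb (i + k)) = 0 := h
  rw [Ideal.Quotient.eq_zero_iff_mem, Ideal.mem_span_singleton, pow_add,
    mul_dvd_mul_iff_left (pow_ne_zero i X_ne_zero)] at this
  obtain ⟨q, rfl⟩ := this
  exact ⟨Ideal.Quotient.mk _ q, rfl⟩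

theorem kill (i : ℕ) (y : Rb i) : (X : L) ^ i • y = 0 := by
  obtain ⟨p, rfl⟩ := Ideal.Quotient.mk_surjective y
  exact Ideal.Quotient.eq_zero_iff_mem.2 (Ideal.mem_span_singleton.2 (dvd_mul_right _ _))

/-- the elements which are killed by `T ^ i` come from the level `i` -/
theorem emb (i J : ℕ) (N : Submodule L (Zm Γ T a P (Rb J)))
    (h : ∀ x ∈ N, (X : L) ^ i • x = 0) : ∃ f : N → Zm Γ T a P (Rb i), Function.Injective f := by
  rcases le_total i J with l | l <;> obtain ⟨k, rfl⟩ := Nat.exists_eq_add_of_le l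
  · choose y hy using fun (x : N) g s => up_sur i k (y := x.1.1 g s)
      (congrFun₂ (congrArg Subtype.val (h x.1 x.2)) g s)
    have e : ∀ x : N, (fun g => up i k ∘ y x g) = x.1.1 := fun x => funext₂ (hy x)
    exact ⟨fun x => ⟨y x, Zm.comap (up_inj i k) (e x ▸ x.1.2)⟩, fun x x' c =>
      Subtype.ext (Subtype.ext (by rw [← e, ← e, show y x = y x' from congrArg Subtype.val c]))⟩
  · exact ⟨fun x => ⟨_, Zm.map (up J k) x.1.2⟩, fun x x' c => Subtype.ext (Subtype.ext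
      (funext₂ fun g s => up_inj J k (congrFun₂ (congrArg Subtype.val c) g s)))⟩

theorem le_of (i J : ℕ) [Finite (Zm Γ T a P (Rb i))]
    (h : ∀ x ∈ Zm Γ T a P (Rb J), (X : L) ^ i • x = 0) :
    Finite (Zm Γ T a P (Rb J)) ∧ Nat.card (Zm Γ T a P (Rb J)) ≤ Nat.card (Zm Γ T a P (Rb i)) := by
  obtain ⟨f, hf⟩ := emb (Γ := Γ) (T := T) (a := a) (P := P) i J ⊤
    fun x _ => Subtype.ext (h x.1 x.2)
  have k := hf.comp Submodule.topEquiv.symm.injective
  exact ⟨.of_injective _ k, Nat.card_le_card_of_injective _ k⟩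

theorem pow_le [Finite (Zm Γ T a P (Rb 1))] (i : ℕ) : Finite (Zm Γ T a P (Rb i)) ∧
    Nat.card (Zm Γ T a P (Rb i)) ≤ Nat.card (Zm Γ T a P (Rb 1)) ^ i := by
  induction i with
  | zero =>
    have : Subsingleton (Rb 0) := Ideal.Quotient.subsingleton_iff.2 (by simp)
    exact ⟨inferInstance, by simp [Finite.card_le_one_iff_subsingleton.2 inferInstance]⟩
  | succ i ih =>
    obtain ⟨_, ih⟩ := ih
    let t := LinearMap.lsmul L (Zm Γ T a P (Rb (i + 1))) X
    obtain ⟨f, hf⟩ := emb 1 (i + 1) (LinearMap.ker t) fun x h => by rw [pow_one]; exact h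
    obtain ⟨f', hf'⟩ := emb i (i + 1) (LinearMap.range t) (by
      rintro _ ⟨x, rfl⟩
      rw [LinearMap.lsmul_apply, smul_smul, ← pow_succ]
      exact Subtype.ext (funext₂ fun g s => kill _ _))
    have e := (LinearMap.ker t).card_eq_card_quotient_mul_card
    rw [Nat.card_congr t.quotKerEquivRange.toEquiv] at e
    have := Finite.of_injective _ hf
    have := Finite.of_injective _ hf'
    refine ⟨Nat.finite_of_card_ne_zero (e ▸ mul_ne_zero Nat.card_pos.ne' Nat.card_pos.ne'), ?_⟩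
    exact e.trans_le ((Nat.mul_le_mul (Nat.card_le_card_of_injective _ hf)
      ((Nat.card_le_card_of_injective _ hf').trans ih)).trans_eq (pow_succ' _ _).symm)

/-- the residue map -/
def rs : Rb 1 →+* ZMod 2 := Ideal.Quotient.lift _ constantCoeff fun p h => by
  rwa [pow_one, Ideal.mem_span_singleton, X_dvd_iff] at h

theorem rs_inj : Function.Injective rs := (injective_iff_map_eq_zero _).2 fun x h => by
  obtain ⟨p, rfl⟩ := Ideal.Quotient.mk_surjective x
  rw [Ideal.Quotient.eq_zero_iff_mem, pow_one, Ideal.mem_span_singleton, X_dvd_iff]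
  exact h

theorem rs_smul (p : L) (x : Rb 1) : rs (p • x) = constantCoeff p * rs x := by
  obtain ⟨q, rfl⟩ := Ideal.Quotient.mk_surjective x
  exact map_mul constantCoeff p q

/-- the action -/
def aL (ρ : GQ → M2 (ZMod 2)) (χ : GQ → ℕ) (g : GQ) : M2 L := (1 + X : L) ^ χ g • (ρ g).map C

/-- **the uniform bound** -/
theorem bound {S : Finset ℕ} {ρ : GQ → M2 (ZMod 2)} (G : Gd Γ S ρ) (k i : ℕ) : ∃ B : ℕ,
    ∀ (T : Finset ℕ) χ P, (∀ l ∈ T, l.Prime) → T.card ≤ k →
      Finite (Zm Γ (S ∪ T) (aL ρ χ) P (Rb i)) ∧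
        Nat.card (Zm Γ (S ∪ T) (aL ρ χ) P (Rb i)) ≤ 2 ^ B := by
  obtain ⟨C, hC⟩ := Pr.bnd _ Γ S ρ G
  refine ⟨(C + 4 * k) * i, fun T χ P pr le => ?_⟩
  obtain ⟨_, h⟩ := hC Empty Empty T Empty.elim Empty.elim pr
  have z : ∀ {x : Fin 2 → Rb 1}, x = 0 → rs ∘ x = 0 := fun e => funext fun i => by simp [e]
  let f : Zm Γ (S ∪ T) (aL ρ χ) P (Rb 1) →
      Zs (ZMod 2) Γ (S ∪ T) ρ (μ := Empty) Empty.elim Empty.elim := fun x =>
    ⟨(fun g => rs ∘ x.1 g, 0), fun g m k n => by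
      show rs ∘ x.1 (g * k) = rs ∘ x.1 g + ac (ρ g) (rs ∘ x.1 k)
      rw [x.2.1.coc g m k n]
      funext s
      simp [ac, aL, rs_smul], fun g m => z (x.2.1.out g m),
      x.2.1.lc.imp fun W k => ⟨k.1, fun w m => z (k.2 w m)⟩, fun g m => z (x.2.1.unr g m),
      fun i => i.elim⟩
  have hf : Function.Injective f := fun x y e => Subtype.ext (funext₂ fun g s =>
    rs_inj (congrFun₂ (congrArg (fun t => t.1.1) e) g s))
  have := Finite.of_injective _ hf
  refine ⟨(pow_le i).1, (pow_le i).2.trans ?_⟩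
  rw [pow_mul]
  refine Nat.pow_le_pow_left (((Nat.card_le_card_of_injective _ hf).trans h).trans
    (Nat.pow_le_pow_right two_pos ?_)) i
  simp only [Fintype.card_eq_zero, Fintype.card_fin]
  omega

end Vale.Agent.P004C.Mu.Ap
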