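import Vale.Agent.P004C.Mu.St
import Vale.Agent.P004R.Twr0
import Vale.Agent.P004R.Ext0
import Vale.Agent.P004S.Wt

/-!
# P004 C, block MU: the tower
-/

set_option autoImplicit false

open NumberField IsDedekindDomain Matrix
open scoped NumberTheorySymbols Pointwise

noncomputable section

namespace Vale.Agent.P004C.Mu

open Vale.Agent.P022 (Qb GQ GK below IsConj IsFrob)
open P004K
open Vale.Agent.P027M.S (Inert)
open Vale.Agent.P022D.W (dec)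
open Vale.Agent.P022E.GW (Ov Fb)
open Vale.Agent.P004S P004R P004R.Cb P004R.Wr

namespace Tv0

variable {K : Type} [Field K] [NumberField K] {j : K →+* Qb} {r : Rp} {S : Finset ℕ}

theorem pow_fix {g : GQ} (k : ℕ) : ∀ y : Qb, g (y ^ 2 ^ k) = y ^ 2 ^ k → (g ^ 2 ^ k) y = y := by
  induction k with
  | zero => intro y e; simpa using e
  | succ k ih =>
    intro y e
    rw [pow_succ', pow_mul] at e
    have h1 := ih _ e
    rw [map_pow] at h1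
    rw [pow_succ, pow_mul, pow_two, AlgEquiv.mul_apply]
    rcases sq_eq_sq_iff_eq_or_eq_neg.1 h1 with a | a
    · rw [a, a]
    · rw [a, map_neg, a, neg_neg]

theorem nu_sq (d : ℤ) (g : GQ) : nu d (g ^ 2) = 0 := by
  rw [pow_two, nu_mul, CharTwo.add_self_eq_zero]

theorem tr_sq : ∀ A : Matrix (Fin 2) (Fin 2) (ZMod 2), (A * A).trace = A.trace := by
  simp only [trace_fin_two]
  decide +kernel

theorem tr_o3 : ∀ A : Matrix (Fin 2) (Fin 2) (ZMod 2), Wg.o3 A → A.trace = 1 := by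
  simp only [trace_fin_two]
  decide +kernel

/-- an element of order three in the kernel of the two-power conditions -/
theorem ex_om (h : Rep r S) (i : IrB r) {δ : ℕ} (hK : P004R.Kd j δ) (A : Finset K) (n : ℕ) :
    ∃ ω ∈ Fg j A n, (∀ d, nu d ω = 0) ∧ (rb r ω).trace = 1 := by
  obtain ⟨g, hg⟩ := Wg.ex_o3 h i
  have t : ∀ k, (rb r (g ^ 2 ^ k)).trace = 1 := fun k => by
    induction k with
    | zero => simpa using tr_o3 _ hg
    | succ k ih => rw [pow_succ, pow_mul, pow_two, h.rb_mul, tr_sq, ih]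
  have m : g ^ 2 ∈ GK j := (hK.gk _).2 (nu_sq _ g)
  refine ⟨(g ^ 2) ^ 2 ^ (n + 3), ⟨⟨pow_mem m _, fun y hy => pow_fix _ y ?_⟩, ?_⟩, fun d => ?_, ?_⟩
  · rw [show y ^ 2 ^ (n + 3) = 1 from hy, map_one]
  · rw [pow_succ 2 (n + 2), pow_mul]
    refine (fxg (j '' A) (2 ^ (n + 2))).pow_mem (fun y ⟨a, _, e⟩ => pow_fix _ y ?_) 2
    rw [← e]; exact m a
  · rw [← pow_mul, mul_comm, pow_mul, nu_sq]
  · rw [← pow_mul, ← pow_succ', t]

theorem nu_del {g : GQ} {n : ℕ} (hg : Fx {1} (2 ^ (n + 3)) g) {Δ : ℤ} (h0 : Δ ≠ 0)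
    (h : ∀ l : ℕ, l.Prime → (l : ℤ) ∣ Δ → l ≠ 2 → nu l g = 0) : nu Δ g = 0 := by
  have f8 : ∀ y : Qb, y ^ 8 = 1 → g y = y := fun y e => hg y (by
    show _ = 1
    rw [show 2 ^ (n + 3) = 8 * 2 ^ n by ring, pow_mul, e, one_pow])
  obtain ⟨z, hz⟩ := IsAlgClosed.exists_pow_nat_eq (-1 : Qb) (n := 4) (by norm_num)
  have fz := f8 z (by linear_combination (z ^ 4 - 1) * hz)
  have n1 : nu (-1) g = 0 := (nu_eq_zero (w := z ^ 2) (by push_cast; linear_combination hz)).2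
    (by rw [map_pow, fz])
  have n2 : nu (2 : ℕ) g = 0 := (nu_eq_zero (w := z - z ^ 3)
    (by push_cast; linear_combination (z ^ 2 - 2) * hz)).2 (by rw [map_sub, map_pow, fz])
  have key : ∀ N : ℕ, N ≠ 0 → (N : ℤ) ∣ Δ → nu N g = 0 := fun N => by
    induction N using Nat.recOnMul with
    | zero => exact fun a => absurd rfl a
    | one => exact fun _ _ => nu_one_left g
    | prime p hp => exact fun _ d => if e : p = 2 then e ▸ n2 else h p hp d e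
    | mul a b ha hb =>
      intro z d
      have a0 := left_ne_zero_of_mul z
      have b0 := right_ne_zero_of_mul z
      rw [Nat.cast_mul] at d ⊢
      rw [nu_mul_left (by exact_mod_cast a0) (by exact_mod_cast b0),
        ha a0 ((dvd_mul_right _ _).trans d), hb b0 ((dvd_mul_left _ _).trans d), add_zero]
  have k := key Δ.natAbs (Int.natAbs_ne_zero.2 h0) (Int.natAbs_dvd.2 dvd_rfl)
  rcases Int.natAbs_eq Δ with e | e
  · rwa [e]
  · rw [e, neg_eq_neg_one_mul, nu_mul_left (by norm_num)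
      (by exact_mod_cast Int.natAbs_ne_zero.2 h0), n1, k, add_zero]

theorem tr_fb (h : Rep r S) {l : ℕ} {P Q : Ideal (𝓞 Qb)} (o : Ov l P) (o' : Ov l Q) (hl : l ∉ S)
    {φ ψ : GQ} (f : Fb l P φ) (f' : Fb l Q ψ) : (rb r ψ).trace = (rb r φ).trace := by
  obtain ⟨x, s, hs, rfl⟩ := fb_cj o f ⟨Q, o'.2.1, o'.2.2, f'⟩
  rw [h.rb_mul, h.rb_mul, trace_mul_cycle, ← h.rb_mul, inv_mul_cancel, rb_one, one_mul, h.rb_mul,
    h.tr_one_iff.1 (h.Kn_uns 1 l P o hl s hs), one_mul]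

end Tv0

open Tv0 in
theorem twv (ext : EXT) (ki : KI) (sgn : SGN) : TWV := by
  classical
  rintro ⟨r, S, pl, k₀, d₁, d₂⟩ ⟨hr, irr, hS, -, ⟨-, m1, m2, jc⟩, -⟩ K _ _ j hK
  dsimp only at *
  have m8 := hK.m8
  have δ0 : d₁ * d₂ ≠ 0 := hK.sq.ne_zero
  have d0 := left_ne_zero_of_mul δ0
  obtain ⟨A, B, hB, hA, E⟩ := ext K j _ hK (2 * (d₁ * d₂) * ∏ p ∈ S, p)
    (Nat.pos_of_ne_zero (mul_ne_zero (mul_ne_zero two_ne_zero δ0)
      (Finset.prod_ne_zero_iff.2 fun p hp => (hS p hp).ne_zero)))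
  obtain ⟨Δ, sΔ, pΔ, hΔ⟩ := sgn r S hr
  have cB : ∀ x : ℕ, x.Prime → ∀ b ∈ B, x ∣ b → x ≠ 2 ∧ ¬ x ∣ d₁ * d₂ ∧ x ∉ S := by
    intro x hx b hb d
    have c : ¬ x ∣ 2 * (d₁ * d₂) * ∏ p ∈ S, p :=
      hx.coprime_iff_not_dvd.1 ((hB b hb).2.coprime_dvd_left d)
    exact ⟨fun e => c (e ▸ (dvd_mul_right _ _).mul_right _),
      fun e => c ((e.mul_left _).mul_right _), fun e => c ((Finset.dvd_prod_of_mem _ e).mul_left _)⟩
  have cS : ∀ p ∈ S, p ≠ 2 → ¬ p ∣ d₁ * d₂ := fun p hp p2 d => by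
    have e := (jc p hp p2).2
    have : NeZero p := ⟨(hS p hp).ne_zero⟩
    rw [jacobiSym.eq_zero_iff_not_coprime.2 fun c => (hS p hp).coprime_iff_not_dvd.1
      (by simpa [Int.gcd, Int.natAbs_mul, Nat.coprime_comm] using c) d] at e
    exact zero_ne_one e
  have mB : ∀ x : ℕ, x ∈ B.biUnion Nat.primeFactors ↔ x.Prime ∧ ∃ b ∈ B, x ∣ b := fun x => by
    simp only [Finset.mem_biUnion, Nat.mem_primeFactors]
    exact ⟨fun ⟨b, h1, h2, h3, _⟩ => ⟨h2, b, h1, h3⟩,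
      fun ⟨h2, b, h1, h3⟩ => ⟨b, h1, h2, h3, (hB b h1).1.ne'⟩⟩
  obtain ⟨X, xS, xB, hX, xo⟩ : ∃ X : Finset ℕ, (∀ p ∈ S, p ≠ 2 → p ∈ X) ∧
      (∀ x : ℕ, x.Prime → ∀ b ∈ B, x ∣ b → x ∈ X) ∧ (∀ x ∈ X, x.Prime ∧ x ≠ 2) ∧
      ∀ x ∈ X, ¬ x ∣ d₁ * d₂ ∧ (x ∈ S ∨ x ∈ B.biUnion Nat.primeFactors) := by
    refine ⟨S.erase 2 ∪ B.biUnion Nat.primeFactors, fun x hx e => by simp [e, hx],
      fun x hx b hb d => Finset.mem_union_right _ ((mB x).2 ⟨hx, b, hb, d⟩), fun x hx => ?_,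
      fun x hx => ?_⟩ <;> rcases Finset.mem_union.1 hx with a | a
    · exact ⟨hS x (Finset.mem_of_mem_erase a), Finset.ne_of_mem_erase a⟩
    · obtain ⟨a, b, hb, d⟩ := (mB x).1 a
      exact ⟨a, (cB x a b hb d).1⟩
    · exact ⟨cS x (Finset.mem_of_mem_erase a) (Finset.ne_of_mem_erase a),
        Or.inl (Finset.mem_of_mem_erase a)⟩
    · obtain ⟨a', b, hb, d⟩ := (mB x).1 a
      exact ⟨(cB x a' b hb d).2.1, Or.inr a⟩
  refine ⟨B.biUnion Nat.primeFactors, fun n Q ε hQ => ?_⟩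
  obtain ⟨g₀, g1, g2, g3, g4⟩ := ki K j d₁ d₂ hK (by omega) A (fun a ha => ⟨(hA a ha).1,
    fun v hv => (hA a ha).2 v fun b hb c => by
      obtain ⟨u, w, e⟩ : IsCoprime (b : 𝓞 K) (2 : ℕ) := Nat.Coprime.cast
        (((hB b hb).2.coprime_mul_right_right).coprime_mul_right_right)
      exact (Ideal.ne_top_iff_one _).1 v.isPrime.ne_top
        (e ▸ add_mem (Ideal.mul_mem_left _ _ c) (Ideal.mul_mem_left _ _ (by exact_mod_cast hv)))⟩)
    X hX n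
  have iF := fun l P => @inert_fg l P K _ _ j _ hK A B (fun a ha => (hA a ha).2) n
  obtain ⟨ω, w1, w2, w3⟩ := ex_om hr irr hK A n
  -- good triples
  let Gd : ℕ → Ideal (𝓞 Qb) → GQ → Prop := fun q P φ => Ov q P ∧ Fb q P φ ∧ q ∉ S ∧
    ¬ q ∣ d₁ * d₂ ∧ (∀ b ∈ B, ¬ q ∣ b) ∧ φ ∈ GK j ⊓ fxg {1} (2 ^ (n + 3)) ∧ nu Δ φ = 0
  have oT : IsOpen {φ : GQ | (rb r φ).trace = 1} := hr.rb_lc {M | M.trace = 1}
  have cheb : ∀ O : Set GQ, IsOpen O → O.Nonempty → (∀ φ ∈ O, φ ∈ GK j ⊓ fxg {1} (2 ^ (n + 3)) ∧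
      (rb r φ).trace = 1) → ∀ T : Finset ℕ, ∃ q P φ, q ∉ T ∧ φ ∈ O ∧ Gd q P φ := by
    rintro O hO ⟨g, hg⟩ h T
    obtain ⟨q, φ, hq, qT, ⟨P, P1, P2, hφ⟩, m⟩ := P022K.Cheb.exists_fr hO hg
      (T ∪ S ∪ (d₁ * d₂).primeFactors ∪ B.biUnion Nat.primeFactors)
    simp only [Finset.mem_union, not_or] at qT
    exact ⟨q, P, φ, qT.1.1.1, m, ⟨hq, P1, P2⟩, hφ, qT.1.1.2,
      fun d => qT.1.2 (Nat.mem_primeFactors.2 ⟨hq, d, δ0⟩),
      fun b hb d => qT.2 ((mB q).2 ⟨hq, b, hb, d⟩), (h φ m).1, (hΔ φ).2 (Or.inr (h φ m).2)⟩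
  have gQ : ∀ q ∈ Q, Gd q (pl.P q) (pl.σ q) := fun q hq => by
    obtain ⟨⟨a, b, c, -, d⟩, e, f, g⟩ := hQ q hq
    exact ⟨pl.ov q a, pl.fb q a, b, c, fun x hx y => e ((mB q).2 ⟨a, x, hx, y⟩),
      ⟨(hK.gk _).2 g, Xt.fx_one (pl.ov q a) (pl.fb q a) f⟩, (hΔ _).2 (Or.inl d)⟩
  obtain ⟨q₁, P₁, φ₁, n1, ⟨-, t1⟩, G1⟩ := cheb _ ((fg_open hK A n).inter oT) ⟨ω, w1, w3⟩
    (fun φ h => ⟨h.1.1, h.2⟩) Q
  obtain ⟨k, qe, inj, hqe⟩ : ∃ (k : ℕ) (qe : Fin k → ℕ), Function.Injective qe ∧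
      Finset.univ.image qe = Q := ⟨_, Q.orderEmbOfFin rfl, (Q.orderEmbOfFin rfl).injective,
    Finset.image_orderEmbOfFin_univ _ _⟩
  have mq : ∀ i, qe i ∈ Q := fun i => hqe ▸ Finset.mem_image_of_mem _ (Finset.mem_univ i)
  obtain ⟨Φ, hΦ⟩ : ∃ Φ, Φ = φ₁ * (List.ofFn fun i => pl.σ (qe i)).prod := ⟨_, rfl⟩
  have Φm : Φ ∈ (GK j ⊓ fxg {1} (2 ^ (n + 3))) ⊓ kn Δ :=
    hΦ ▸ mul_mem ⟨G1.2.2.2.2.2.1, G1.2.2.2.2.2.2⟩ (Subgroup.list_prod_mem _ fun x hx => by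
      obtain ⟨i, rfl⟩ := List.mem_ofFn.1 hx
      exact (gQ _ (mq i)).2.2.2.2.2)
  have dj : ∀ x ∈ X, x ∉ Q := fun x hx h =>
    (xo x hx).2.elim (hQ x h).nS (hQ x h).nF
  let ε' : ℕ → ZMod 2 := fun q => ε q + nu (d₁ * (q₁ * ∏ i, qe i) : ℕ) (pl.σ q)
  have ne2 : ∀ {q P φ}, Gd q P φ → q ≠ 2 := fun h e => h.2.2.1 (e ▸ hr.two)
  obtain ⟨τ, u1, u2⟩ := ex_nu (X ∪ Q) (fun x hx => (Finset.mem_union.1 hx).elim (hX x)
    fun h => ⟨(hQ x h).pr, ne2 (gQ x h)⟩) (Fg j A n)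
    (fun x => if x ∈ Q then ε' x + nu x g₀ + nu x Φ else if x ∈ S then 1 else 0)
    fun x hx e P o t ht => by
      by_cases h : x ∈ Q
      · exact iF x P o (ne2 (gQ x h)) (gQ x h).2.2.2.1 (gQ x h).2.2.2.2.1 ht
      · have s : x ∈ S := by simpa [h] using e
        have x2 := (hX x ((Finset.mem_union.1 hx).resolve_right h)).2
        exact iF x P o x2 (cS x s x2) (fun b hb d => (cB x o.1 b hb d).2.2 s) ht
  have y1 : g₀ * τ ∈ Fg j A n := mul_mem ⟨⟨g1, g2⟩, g3⟩ u1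
  have y2 : ∀ x ∈ X, sh x (g₀ * τ) = J(d₁ | x) * if x ∈ S then -1 else 1 := fun x hx => by
    have d1 : ¬ x ∣ d₁ := fun e => (xo x hx).1 (e.mul_right _)
    have e := g4 x hx
    rw [gs, if_neg d1] at e
    rw [map_mul]
    refine congrArg₂ _ ?_ ?_
    · rcases mul_self_eq_one_iff.1 (jac_sq (hX x hx).1 d1) with a | a
      · rw [a]; exact sh_kn (e.2 a)
      · rw [a]
        exact sz_neg.2 ((z2 _).resolve_left fun k => by rw [e.1 k] at a; omega)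
    · show sz _ = _
      rw [u2 x (Finset.mem_union_left _ hx), if_neg (dj x hx)]
      split_ifs <;> rfl
  have y3 : nu Δ (g₀ * τ * Φ⁻¹) = 0 := by
    rw [nu_mul, nu_inv, mem_kn.1 Φm.2, add_zero]
    refine nu_del y1.1.2 sΔ.ne_zero fun l hl d l2 => sz_inj (?_ : sh l _ = 1)
    rw [y2 l (xS l (pΔ l hl d) l2), if_pos (pΔ l hl d), (jc l (pΔ l hl d) l2).1]
    rfl
  obtain ⟨q₀, P₀, φ₀, n0, ⟨⟨z1, t0⟩, z2'⟩, G0⟩ := cheb
    ((fun φ => φ * Φ) ⁻¹' Fg j A n ∩ {φ | (rb r φ).trace = 1} ∩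
      ⋂ x ∈ X ∪ Q, {φ | nu x φ = nu x (g₀ * τ * Φ⁻¹)})
    ((((fg_open hK A n).preimage (continuous_id.mul continuous_const)).inter oT).inter
      (isOpen_biInter_finset fun x _ => nu_lc x {nu x (g₀ * τ * Φ⁻¹)})) (by
      rcases (hΔ _).1 y3 with a | a
      · refine ⟨ω * (g₀ * τ * Φ⁻¹), ⟨?_, ?_⟩, ?_⟩
        · simpa [mul_assoc] using mul_mem w1 y1
        · show trace _ = 1
          rw [hr.rb_mul, a, mul_one, w3]
        · simp [nu_mul, w2]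
      · exact ⟨g₀ * τ * Φ⁻¹, ⟨by simpa using y1, a⟩, by simp⟩)
    (fun φ h => ⟨by simpa using Subgroup.mul_mem (GK j ⊓ fxg {1} (2 ^ (n + 3))) h.1.1.1 (Subgroup.inv_mem _ Φm.1),
      h.1.2⟩) (insert q₁ Q)
  simp only [Set.mem_iInter, Set.mem_ofPred_eq] at z2'
  rw [Finset.mem_insert, not_or] at n0
  let q : Fin (k + 2) → ℕ := Fin.cons q₀ (Fin.cons q₁ qe)
  let P : Fin (k + 2) → Ideal (𝓞 Qb) := Fin.cons P₀ (Fin.cons P₁ fun i => pl.P (qe i))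
  let φ : Fin (k + 2) → GQ := Fin.cons φ₀ (Fin.cons φ₁ fun i => pl.σ (qe i))
  have hq : Function.Injective q := Fin.cons_injective_iff.2 ⟨by
    rintro ⟨i, e⟩
    induction i using Fin.cases with
    | zero => exact n0.1 e.symm
    | succ i => exact n0.2 (e ▸ mq i),
    Fin.cons_injective_iff.2 ⟨fun ⟨i, e⟩ => n1 (e ▸ mq i), inj⟩⟩
  have H : ∀ i, Gd (q i) (P i) (φ i) := Fin.cases G0 (Fin.cases G1 fun i => gQ _ (mq i))
  have pφ : (List.ofFn φ).prod = φ₀ * Φ := by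
    simp only [φ, hΦ, List.ofFn_succ, List.prod_cons, Fin.cons_zero, Fin.cons_succ]
  have pq : ∏ i, q i = q₀ * (q₁ * ∏ i, qe i) := by
    simp only [q, Fin.prod_univ_succ, Fin.cons_zero, Fin.cons_succ]
  have pr := fun i => (H i).1.1
  have b2 : ∀ i, q i % 2 ^ (n + 3) = 1 := fun i =>
    fx_mod (H i).1 (ne2 (H i)) (H i).2.1 (H i).2.2.2.2.2.1.2
  have b4 : ∀ i, q i % 4 = 1 := fun i => by
    rw [← Nat.mod_mod_of_dvd _ (show 4 ∣ 2 ^ (n + 3) from ⟨2 ^ (n + 1), by ring⟩), b2]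
  have b3 : ∀ i R, Ov (q i) R → dec R ≤ GK j := fun i R o =>
    dec_gk hK (H i).1 (ne2 (H i)) (H i).2.2.2.1 (H i).2.1 (H i).2.2.2.2.2.1.1 o
  have c0 : ∏ i, q i ≠ 0 := Finset.prod_ne_zero_iff.2 fun i _ => (pr _).ne_zero
  have b5 : ∀ x ∈ X, J(x | ∏ i, q i) = J(d₁ | x) * if x ∈ S then -1 else 1 := fun x hx => by
    have : sh x (φ₀ * Φ) = sh x (g₀ * τ) := congrArg sz (by
      rw [nu_mul, z2' x (Finset.mem_union_left _ hx), ← nu_mul, inv_mul_cancel_right])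
    rw [jac_right _ _ fun i => (pr i).ne_zero, ← y2 x hx, ← this, ← pφ, sh_list]
    refine Finset.prod_congr rfl fun i _ => jac (H i).1 (ne2 (H i)) (fun d => ?_) (H i).2.1
    have e := (Nat.prime_dvd_prime_iff_eq (pr i) (hX x hx).1).1 (by exact_mod_cast d)
    rcases (xo x hx).2 with a | a
    · exact (H i).2.2.1 (e ▸ a)
    · obtain ⟨-, b, hb, d⟩ := (mB x).1 a
      exact (H i).2.2.2.2.1 b hb (e ▸ d)
  obtain ⟨e, c1, c2, c3, c4⟩ := E n (k + 2) q P φ hq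
    (fun i => ⟨(H i).1, b3 i _ (H i).1, (H i).2.1, b2 i, (H i).2.2.2.2.1⟩) (pφ ▸ z1.2)
  have dv : ∀ x : ℕ, x.Prime → x ∣ ∏ i, q i → ∃ i, x = q i := fun x hx d => by
    obtain ⟨i, -, d⟩ := (Nat.prime_iff.1 hx).exists_mem_finset_dvd d
    exact ⟨i, (Nat.prime_dvd_prime_iff_eq hx (pr i)).1 d⟩
  refine ⟨∏ i, q i, e, ⟨hK.iq, hK.upm, ⟨n, rfl⟩, ?_, ⟨q₀, q₁, G0.1.1, G1.1.1, n0.1,
    ⟨_, by rw [pq, mul_assoc]⟩⟩, c1, c2, fun x R o d => ?_⟩, ?_, fun x hx => ⟨(hQ x hx).toGt, ?_⟩,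
    fun x hx d => ?_, ?_, fun x hx d => ?_, fun p hp p2 => ?_⟩
  · exact Finset.squarefree_prod_of_pairwise_isCoprime (fun i _ i' _ e =>
      Nat.coprime_iff_isRelPrime.1 ((Nat.coprime_primes (pr i) (pr i')).2 fun c => e (hq c)))
      fun i _ => (pr i).prime.squarefree
  · obtain ⟨i, rfl⟩ := dv x o.1 d
    exact ⟨ne2 (H i), b3 i R o, c3 i R o⟩
  · refine c4 d₁ (dvd_mul_right _ _) (by omega) fun b hb => jac_nat _ b (hB b hb).1.ne'
      fun x hx d => ?_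
    obtain ⟨x2, xd, xs⟩ := cB x hx b hb d
    rw [jacobiSym.mul_right' _ d0 c0, b5 x (xB x hx b hb d), if_neg xs, mul_one,
      ← jacobiSym.quadratic_reciprocity_one_mod_four (by omega) (hx.odd_of_ne_two x2),
      jac_sq hx fun c => xd (c.mul_right _)]
  · have gx := gQ x hx
    have ne : x ≠ q₀ := fun e => n0.2 (e ▸ hx)
    have s : nu q₀ (pl.σ x) = nu x φ₀ := sz_inj (by
      rw [← jac gx.1 (ne2 gx) (fun d => ne ((Nat.prime_dvd_prime_iff_eq gx.1.1 G0.1.1).1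
        (by exact_mod_cast d))) gx.2.1, ← jac G0.1 (ne2 G0) (fun d => ne
        ((Nat.prime_dvd_prime_iff_eq G0.1.1 gx.1.1).1 (by exact_mod_cast d)).symm) G0.2.1]
      exact jacobiSym.quadratic_reciprocity_one_mod_four (b4 0) (gx.1.1.odd_of_ne_two (ne2 gx)))
    refine ⟨?_, ?_⟩
    · obtain ⟨i, -, rfl⟩ := Finset.mem_image.1 (hqe ▸ hx :)
      exact Finset.dvd_prod_of_mem q (Finset.mem_univ i.succ.succ)
    · show nu (d₁ * ∏ i, q i : ℕ) (pl.σ x) = ε x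
      rw [pq, mul_left_comm, Nat.cast_mul, nu_mul_left (by exact_mod_cast G0.1.1.ne_zero)
        (by exact_mod_cast mul_ne_zero d0 (right_ne_zero_of_mul (pq ▸ c0))), s,
        z2' x (Finset.mem_union_right _ hx), nu_mul, nu_mul, nu_inv,
        u2 x (Finset.mem_union_right _ hx), if_pos hx]
      simp only [ε']
      generalize nu (d₁ * (q₁ * ∏ i, qe i) : ℕ) (pl.σ x) = a
      generalize nu x g₀ = b
      generalize nu x Φ = c
      generalize ε x = d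
      revert a b c d
      decide
  · obtain ⟨i, rfl⟩ := dv x hx d
    induction i using Fin.cases with
    | zero => exact Or.inr ((tr_fb hr G0.1 (pl.ov _ hx) G0.2.2.1 G0.2.1 (pl.fb _ hx)).trans t0)
    | succ i =>
      induction i using Fin.cases with
      | zero => exact Or.inr ((tr_fb hr G1.1 (pl.ov _ hx) G1.2.2.1 G1.2.1 (pl.fb _ hx)).trans t1)
      | succ i => exact Or.inl (mq i)
  · refine (Finset.card_le_card (t := Finset.univ.image q) fun x hx => ?_).trans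
      (Finset.card_image_le.trans ?_)
    · obtain ⟨i, rfl⟩ := dv x (Nat.prime_of_mem_primeFactors hx) (Nat.dvd_of_mem_primeFactors hx)
      exact Finset.mem_image_of_mem _ (Finset.mem_univ i)
    · rw [← hqe, Finset.card_image_of_injective _ inj]
      simp
  · obtain ⟨i, rfl⟩ := dv x hx d
    exact ⟨b2 i, (H i).2.2.1, (H i).2.2.2.1⟩
  · have po := (hS p hp).odd_of_ne_two p2
    have e := b5 p (xS p hp p2)
    rw [if_pos hp, (jc p hp p2).1, jac_right _ _ fun i => (pr i).ne_zero] at e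
    rw [jac_left]
    exact (Finset.prod_congr rfl fun i _ =>
      jacobiSym.quadratic_reciprocity_one_mod_four (b4 i) po).trans e

end Vale.Agent.P004C.Mu
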