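import Vale.Agent.P004C.Mu.Glue
import Vale.Agent.P004C.Mu.Lev
import Vale.Agent.P004C.Mu.Kil
import Vale.Agent.P004C.Mu.Fin
import Vale.Agent.P004C.Mu.Gwl
import Vale.Agent.P004C.Mu.Rcp
import Vale.Agent.P004C.Mu.Twv
import Vale.Agent.P004C.Mu.Part
import Vale.Agent.P004R.Ext
import Vale.Agent.P004R.Ki
import Vale.Agent.P004K.Rc.All

/-!
# P004 C, block MU: the export without hypotheses
-/

namespace Vale.Agent.P004C.Mu

/-- **block MU** -/
theorem mu : MU := mu_of (kil fin gwl rcp)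
  (twv (P004R.ext' P004K.x_rc1 P004K.x_rc2 P004K.x_rc3) P004R.ki sgn) (lev P004K.x_rc1 P004K.x_rc2)

end Vale.Agent.P004C.Mu
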