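import Vale.Agent.P004C.Mu.St0
import Vale.Agent.P004F.Pr.Cnt
import Vale.Agent.P004S.Lt
import Vale.Agent.P004S.Cnz
import Vale.Agent.P004T.Gw0

/-!
# P004 C, block MU, row GWL: indices of the local conditions away from two, the global count
-/

set_option linter.all false

noncomputable section

namespace Vale.Agent.P004C.Mu.Gl

open NumberField Matrix
open Vale.Agent.P022 (Qb GQ IsConj)
open Vale.Agent.P022K
open Vale.Agent.P027M.S (Inert)
open Vale.Agent.P022D.W (dec phi_mem)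
open Vale.Agent.P022.H443 (inP)
open Vale.Agent.P022E.GW (Ov Fb)
open Vale.Agent.P004S (Rp Rep W Pl rb Zb Un IrB rb_one lt)
open Vale.Agent.P004F.Pr (F2 Ad add_cyc z01)
open scoped Pointwise

variable {r : Rp} {S : Finset ℕ} {z : GQ → W} {l : ℕ} {P : Ideal (𝓞 Qb)} {σ : GQ}

/-! ### indices -/

/-- among the functions with `Z`, the condition `C` has index at most `n` -/
def Ix (Z C : (GQ → W) → Prop) (n : ℕ) : Prop := ∀ A : AddSubgroup (GQ → W), Finite A →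
  (∀ z ∈ A, Z z) → ∃ B ≤ A, (∀ z ∈ B, C z) ∧ Nat.card A ≤ n * Nat.card B

section
variable {Z Z' C C' : (GQ → W) → Prop} {n n' : ℕ}

theorem Ix.of (f : (GQ → W) →+ W) (s : W → Prop) (h1 : ∀ z, Z z → s (f z))
    (h2 : ∀ z, Z z → f z = 0 → C z) : Ix Z C (Nat.card {v // s v}) := fun A _ hA => by
  refine ⟨(f.comp A.subtype).ker.map A.subtype, AddSubgroup.map_subtype_le _, ?_, ?_⟩
  · rintro _ ⟨x, hx, rfl⟩
    exact h2 _ (hA _ x.2) hx
  · rw [AddSubgroup.card_map_of_injective A.subtype_injective, mul_comm]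
    exact P004T.Gw.card_le _ (Set.toFinite {v | s v}) fun x => h1 _ (hA _ x.2)

theorem Ix.triv (h : ∀ z, Z z → C z) : Ix Z C 1 := fun A _ hA =>
  ⟨A, le_rfl, fun z m => h z (hA z m), (one_mul _).ge⟩

theorem Ix.mono (h : Ix Z C n) (hZ : ∀ z, Z' z → Z z) (hC : ∀ z, Z' z → C z → C' z) :
    Ix Z' C' n := fun A f hA => by
  obtain ⟨B, a, b, c⟩ := h A f fun z m => hZ z (hA z m)
  exact ⟨B, a, fun z m => hC z (hA z (a m)) (b z m), c⟩

theorem Ix.trans (h : Ix Z C n) (h' : Ix (fun z => Z z ∧ C z) C' n') :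
    Ix Z (fun z => C z ∧ C' z) (n * n') := fun A f hA => by
  obtain ⟨B, a, b, c⟩ := h A f hA
  obtain ⟨B', a', b', c'⟩ := h' B (Finite.of_injective _ (AddSubgroup.inclusion_injective a))
    fun z m => ⟨hA z (a m), b z m⟩
  exact ⟨B', a'.trans a, fun z m => ⟨b z (a' m), b' z m⟩,
    c.trans (by rw [mul_assoc]; exact Nat.mul_le_mul_left _ c')⟩

theorem Ix.and (h : Ix Z C n) (h' : Ix Z C' n') : Ix Z (fun z => C z ∧ C' z) (n * n') :=
  h.trans (h'.mono (fun _ a => a.1) fun _ _ a => a)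

theorem Ix.prod (T : Finset ℕ) {C : ℕ → (GQ → W) → Prop} {n : ℕ → ℕ}
    (h : ∀ l ∈ T, Ix Z (C l) (n l)) : Ix Z (fun z => ∀ l ∈ T, C l z) (∏ l ∈ T, n l) := by
  induction T using Finset.induction_on with
  | empty => exact Ix.triv (by simp)
  | insert a T ha ih =>
    rw [Finset.prod_insert ha]
    exact ((h a (T.mem_insert_self a)).and (ih fun l m => h l (Finset.mem_insert_of_mem m))).mono
      (fun _ a => a) fun z _ a => Finset.forall_mem_insert _ _ _ |>.2 a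

end

/-! ### local lemmas -/

/-- the number of vectors fixed by `A` -/
def h0 (r : Rp) (A : Subgroup GQ) : ℕ := Nat.card {v : W // ∀ g ∈ A, rb r g *ᵥ v = v}

theorem h0_pos (r : Rp) (A : Subgroup GQ) : 0 < h0 r A :=
  haveI : Nonempty {v : W // ∀ g ∈ A, rb r g *ᵥ v = v} := ⟨⟨0, fun _ _ => mulVec_zero _⟩⟩
  Nat.card_pos

theorem hz_pos (r : Rp) (g : GQ) : 0 < hz r g :=
  haveI : Nonempty {v : W // rb r g *ᵥ v = v} := ⟨⟨0, mulVec_zero _⟩⟩
  Nat.card_pos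

theorem hz_one (h : rb r σ = 1) : hz r σ = 4 := by simp [hz, h]

/-- the elements on which `z` is the coboundary of `v` -/
def cs (hr : Rep r S) (hz : Zb r z) (v : W) : Subgroup GQ where
  carrier := {g | z g = rb r g *ᵥ v - v}
  mul_mem' {g h} a b := by
    simp only [Set.mem_setOf_eq] at a b ⊢
    rw [hz.2, a, b, hr.rb_mul, mulVec_sub, mulVec_mulVec]
    abel
  one_mem' := show z 1 = _ by rw [hz.one, rb_one, one_mulVec, sub_self]
  inv_mem' {g} a := by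
    have := hz.2 g⁻¹ g
    simp only [Set.mem_setOf_eq] at a ⊢
    rw [inv_mul_cancel, hz.one, a, mulVec_sub, mulVec_mulVec, ← hr.rb_mul, inv_mul_cancel, rb_one,
      one_mulVec] at this
    linear_combination (norm := abel1) -this

theorem cs_open (hr : Rep r S) (hz : Zb r z) (v : W) : IsOpen (cs hr hz v : Set GQ) :=
  (hz.1.prodMk hr.rb_lc) {p | p.1 = p.2 *ᵥ v - v}

theorem cs_zero (hr : Rep r S) (hz : Zb r z) {g : GQ} : g ∈ cs hr hz 0 ↔ z g = 0 := by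
  change z g = _ ↔ _
  rw [mulVec_zero, sub_zero]

theorem rb_in (hr : Rep r S) (o : Ov l P) (hl : l ∉ S) {g : GQ} (i : Inert P g) : rb r g = 1 :=
  hr.tr_one_iff.1 (hr.Kn_uns 1 l P o hl g i)

theorem h0_eq (hr : Rep r S) (o : Ov l P) (hl : l ∉ S) (hσ : Fb l P σ) :
    h0 r (dec P) = hz r σ :=
  Nat.card_congr (Equiv.subtypeEquivRight fun v => ⟨fun h => h σ (phi_mem o.1 o.2.1 hσ),
    fun h g hg => by
      have z0 : Zb r 0 := ⟨IsLocallyConstant.const 0, fun _ _ => by simp⟩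
      exact sub_eq_zero.1 (Eq.symm (lt.dec_le o hσ (cs_open hr z0 v) (sub_eq_zero.2 h).symm
        (fun i hi => show 0 = _ by rw [rb_in hr o hl hi, one_mulVec, sub_self]) hg))⟩)

/-- the action as a family of linear maps -/
abbrev ro (r : Rp) (g : GQ) : Module.End F2 W := (rb r g).mulVecLin

theorem rp (hr : Rep r S) {I : Set GQ} (A : Subgroup GQ) (h : G2.Le I ⊤ (hr.Kn 1)) :
    G2.Rp I A (ro r) :=
  ⟨by rw [ro, rb_one]; exact mulVecLin_one, fun g _ j _ => by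
    rw [ro, hr.rb_mul]; exact mulVecLin_mul _ _, h.imp fun V hV => ⟨hV.1, fun w _ m => by
      rw [ro, hr.tr_one_iff.1 (hV.2 w trivial m)]; exact mulVecLin_one⟩⟩

/-- no cohomology for the image -/
theorem cob (hr : Rep r S) (A : Subgroup GQ) (hz : Zb r z)
    (h : ∀ g ∈ A ⊓ hr.Kn 1, z g = 0) : Cb r A z := by
  obtain ⟨V, hV, le⟩ := G2.ex_lv' (hr.Kn_open 1)
  obtain ⟨v, hv⟩ := G2.tr1 GQ F2 W ∅ A (A ⊓ hr.Kn 1) (ro r) ((A : Set GQ).indicator z)
    (rp hr A ⟨V, hV, fun w _ m => le m⟩) (P004F.Pr.prj2 (by simp) (rb_one r)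
      (fun g _ j _ => hr.rb_mul g j) fun g => and_congr_right' hr.tr_one_iff)
    ⟨fun g a j b => by
      rw [Set.indicator_of_mem a, Set.indicator_of_mem b, Set.indicator_of_mem (mul_mem a b), hz.2]
      rfl, fun g a => Set.indicator_of_notMem a _, V, hV, fun w a m =>
        (Set.indicator_of_mem a _).trans (h w ⟨a, le m⟩)⟩
    ⟨0, fun g a => (Set.indicator_of_mem a.1 _).trans ((h g a.2).trans (by simp))⟩
  exact ⟨v, fun g a => (Set.indicator_of_mem a z).symm.trans (hv g a)⟩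

theorem cycJ {J V : Subgroup GQ} (h : Ov l P) (le : J ≤ inP P) (hV : G2.Lv ∅ V) :
    ∃ τ ∈ J, ∀ g ∈ J, ∃ n : ℕ, CH.Loc.WMod l V ((τ ^ n)⁻¹ * g) := by
  have := hV.nrm
  obtain ⟨k, _, _, χ, hfin, h1, -⟩ := CH.Loc.chi_data V hV.opn h
  let χ' := (χ.comp (Subgroup.inclusion le)).toHomUnits
  have hfin' : Finite χ'.range := by
    have := hfin.to_subtype
    refine Finite.of_injective (β := Set.range χ)
      (fun x => ⟨(x.1 : k), by obtain ⟨g, hg⟩ := x.2; exact ⟨_, by rw [← hg]; rfl⟩⟩) ?_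
    intro x y h
    exact Subtype.ext (Units.ext (Subtype.ext_iff.1 h))
  have hc : IsCyclic χ'.range := isCyclic_of_injective_ringHom
    ((Units.coeHom k).comp χ'.range.subtype) (fun x y h => Subtype.ext (Units.ext h))
  obtain ⟨⟨_, τ, rfl⟩, hτ⟩ := IsCyclic.exists_monoid_generator (α := χ'.range)
  refine ⟨τ, τ.2, fun g hg => ?_⟩
  obtain ⟨n, hn⟩ := hτ ⟨χ' ⟨g, hg⟩, _, rfl⟩
  have hn' : χ' τ ^ n = χ' ⟨g, hg⟩ := congrArg Subtype.val hn
  have : χ' ((τ ^ n)⁻¹ * ⟨g, hg⟩) = 1 := by rw [map_mul, map_inv, map_pow, hn', inv_mul_cancel]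
  have := (h1 _).1 (congrArg Units.val this)
  exact ⟨n, this⟩

/-- tame inertia, any subgroup -/
theorem tameJ {J : Subgroup GQ} (h : Ov l P) (hl : l ≠ 2) (le : J ≤ inP P) :
    ∃ τ ∈ J, ∀ f : GQ → W, Ad J f → ∀ g ∈ J, f g = 0 ∨ f g = f τ := by
  have tor : ∀ a : W, l • a = 0 → a = 0 := fun a e => by
    rwa [← Nat.cast_smul_eq_nsmul F2, (ZMod.natCast_eq_one_iff_odd).2 (h.1.odd_of_ne_two hl),
      one_smul] at e
  have two : ∀ (n : ℕ) (a : W), n • a = 0 ∨ n • a = a ∧ ∀ b : W, n • b = b := fun n a => by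
    simp only [← Nat.cast_smul_eq_nsmul F2]
    by_cases e : (n : F2) = 0
    · simp [e]
    · simp [z01 _ e]
  by_cases e : ∃ χ : GQ → W, Ad J χ ∧ ∃ τ ∈ J, χ τ ≠ 0
  · obtain ⟨χ, ⟨c1, V, hV, c2⟩, τ, hτ, c3⟩ := e
    refine ⟨τ, hτ, fun f ⟨f1, U, hU, f2⟩ g hg => ?_⟩
    obtain ⟨s, hs, e⟩ := cycJ h le (hV.inf hU)
    obtain ⟨a, ha⟩ := e τ hτ
    obtain ⟨n, hn⟩ := e g hg
    rw [add_cyc tor c1 (V := V ⊓ U) (fun w a m => c2 w a m.1) hs hτ ha] at c3
    rw [add_cyc tor f1 (V := V ⊓ U) (fun w a m => f2 w a m.2) hs hg hn,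
      add_cyc tor f1 (V := V ⊓ U) (fun w a m => f2 w a m.2) hs hτ ha,
      ((two a _).resolve_left c3).2]
    exact (two n _).imp_right fun x => x.1
  · push Not at e
    exact ⟨1, one_mem _, fun f hf g hg => .inl (e f hf g hg)⟩

theorem ix_ur (hr : Rep r S) (o : Ov l P) (hl : l ≠ 2) :
    Ix (Zb r) (Cb r {g | Inert P g}) (h0 r (dec P)) := by
  obtain ⟨τ, hτ, e⟩ := tameJ (J := inP P ⊓ hr.Kn 1) o hl inf_le_left
  have ad : ∀ z, Zb r z → Ad (inP P ⊓ hr.Kn 1) z := fun z hz => ⟨fun g a j _ => by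
    rw [hz.2, hr.tr_one_iff.1 a.2, one_mulVec], (G2.ex_lv' (cs_open hr hz 0)).imp fun V hV =>
      ⟨hV.1, fun w _ m => (cs_zero hr hz).1 (hV.2 m)⟩⟩
  refine Ix.of (Pi.evalAddMonoidHom _ τ) _ (fun z hz g hg => ?_) fun z hz h =>
    cob hr (inP P) hz fun g a => (e z (ad z hz) g a).elim id fun b => b.trans h
  have a := e z (ad z hz) (g * τ * g⁻¹) ⟨by
    have := GW.Pl.inert_conj hτ.1 g
    rwa [(GW.Pl.dec_iff _ _).1 hg] at this, hr.tr_conj hτ.2 g⟩
  rw [hz.conj hr g (hr.tr_one_iff.1 hτ.2)] at a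
  refine a.elim (fun b => ?_) id
  have : z τ = 0 := by
    rw [← one_mulVec (z τ), ← rb_one r, ← inv_mul_cancel g, hr.rb_mul, ← mulVec_mulVec, b,
      mulVec_zero]
  exact b.trans this.symm

theorem cb_in (hr : Rep r S) (o : Ov l P) (hl : l ∉ S) (h : Cb r {g | Inert P g} z) {g : GQ}
    (i : Inert P g) : z g = 0 := by
  obtain ⟨v, hv⟩ := h
  rw [hv g i, rb_in hr o hl i, one_mulVec, sub_self]

theorem un_of (hr : Rep r S) (o : Ov l P) (hl : l ∉ S) (hz : Zb r z)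
    (h : Cb r {g | Inert P g} z) {P' : Ideal (𝓞 Qb)} (o' : Ov l P') {g : GQ} (i : Inert P' g) :
    z g = 0 := by
  obtain ⟨t, k, -⟩ := P004S.ex_conj o o'
  have := hz.conj hr t (rb_in hr o hl (k g i))
  rwa [cb_in hr o hl h (k g i), mulVec_zero, show t * (t⁻¹ * g * t) * t⁻¹ = g by group] at this

theorem m1 : ∀ A : Matrix (Fin 2) (Fin 2) F2, ∃ B : Matrix (Fin 2) (Fin 2) F2, ∀ x,
    A *ᵥ B *ᵥ x = B *ᵥ x ∧ (B *ᵥ x = 0 → ∃ v, x = A *ᵥ v - v) := by decide +kernel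

theorem m2 : ∀ A : Matrix (Fin 2) (Fin 2) F2, A * A = 1 → A ≠ 1 →
    2 ≤ Fintype.card {v : W // A *ᵥ v = v} ∧ ∀ x, 0 = x + A *ᵥ x → ∃ v, x = A *ᵥ v - v := by
  decide +kernel

theorem ix_str (hr : Rep r S) (o : Ov l P) (hl : l ∉ S) (hσ : Fb l P σ) :
    Ix (fun z => Zb r z ∧ Cb r {g | Inert P g} z) (Cb r (dec P)) (hz r σ) := by
  obtain ⟨B, hB⟩ := m1 (rb r σ)
  refine Ix.of (.mk' (fun z => B *ᵥ z σ) fun a b => mulVec_add _ _ _) _ (fun z _ => (hB _).1)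
    fun z hz h => ?_
  obtain ⟨v, hv⟩ := (hB _).2 h
  exact ⟨v, lt.dec_le o hσ (cs_open hr hz.1 v) hv fun i hi => show z i = _ by
    rw [cb_in hr o hl hz.2 hi, rb_in hr o hl hi, one_mulVec, sub_self]⟩

theorem ix_tw (h : rb r σ = 1) (τ : GQ) (ε : F2) :
    Ix (Zb r) (fun z => z σ = ε • z τ) (hz r σ) :=
  Ix.of (.mk' (fun z => z σ - ε • z τ) fun a b => by
    simp only [Pi.add_apply, smul_add]; abel) _ (fun z _ => by rw [h, one_mulVec])
    fun z _ e => sub_eq_zero.1 e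

theorem ix_inf (hr : Rep r S) {k : GQ} (hk : IsConj k) :
    ∃ b, 4 * b ≤ hz r k * hz r k ∧ Ix (Zb r) (Cb r {k}) b := by
  by_cases h : rb r k = 1
  · refine ⟨hz r k, by rw [hz_one h], Ix.of (Pi.evalAddMonoidHom _ k) _
      (fun z _ => by rw [h, one_mulVec]) fun z _ e => ⟨0, ?_⟩⟩
    rintro _ rfl
    simpa using e
  · obtain ⟨a, b⟩ := m2 _ (by rw [← hr.rb_mul, P004S.conj_sq hk, rb_one]) h
    rw [← Nat.card_eq_fintype_card] at a
    refine ⟨1, (Nat.mul_le_mul a a :), Ix.triv fun z hz => (b (z k) ?_).imp fun v e _ m => m ▸ e⟩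
    rw [← hz.2, P004S.conj_sq hk, hz.one]

/-! ### the global count -/

/-- cocycles unramified outside `T` -/
def Zt (r : Rp) (T : Finset ℕ) : AddSubgroup (GQ → W) where
  carrier := {z | Zb r z ∧ Un (· ∉ T) z}
  add_mem' {z y} a b := ⟨⟨a.1.1.add b.1.1, fun g h => by
      simp only [Pi.add_apply, a.1.2 g h, b.1.2 g h, mulVec_add]; abel⟩,
    fun l P o m g i => by rw [Pi.add_apply, a.2 l P o m g i, b.2 l P o m g i, add_zero]⟩
  zero_mem' := ⟨⟨IsLocallyConstant.const 0, fun _ _ => by simp⟩, fun _ _ _ _ _ _ => rfl⟩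
  neg_mem' {z} a := by
    rwa [show -z = z from funext fun g => funext fun i => ZMod.neg_eq_self_mod_two _]

open G2 in
theorem glob (hr : Rep r S) (i : IrB r) (pl : Pl) {k : GQ} (hk : IsConj k) {T₀ : Finset ℕ}
    (pr : ∀ l ∈ T₀, l.Prime) : ∃ T : Finset ℕ, T₀ ⊆ T ∧ (∀ l ∈ T, l.Prime) ∧ Finite (Zt r T) ∧
      4 * hz r k * ∏ l ∈ T, h0 r (dec (pl.P l)) ≤ Nat.card (Zt r T) := by
  obtain ⟨φ, hφ⟩ := hk
  have nz : Nz ⊤ (hr.Kn 1) := fun g _ u m => hr.tr_conj m g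
  obtain ⟨T, tt, -, L, B⟩ := lg 2 ⊤ _ _ T₀ le_top (le_gz_two _) nz (hr.Kn_open 1) (hr.Kn_open 1)
    fun l hl => .inr (pr l hl)
  have pT : ∀ l ∈ T.erase 0, l.Prime := fun l m =>
    (B.2 l (Finset.mem_of_mem_erase m)).resolve_left (Finset.ne_of_mem_erase m)
  let x : Option (T.erase 0) → Plc := fun j => j.elim (ip (.mk φ)) fun l => fp (pl.P l)
  have xa : ∀ l : T.erase 0, fp (pl.P l) ∈ Ab {l.1} := fun l =>
    mem_ab_fp.2 ⟨l, rfl, pl.ov l (pT l l.2)⟩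
  have hx : Reps ⊤ (Ab T) x := ⟨fun j g _ => Plc.ab_smul (by
      obtain _ | l := j
      exacts [mem_ab_ip.2 L.h0,
        Ab_mono (Set.singleton_subset_iff.2 (Finset.mem_of_mem_erase l.2)) (xa l)]) g,
    fun y hy => by
      obtain ⟨l, hl, m⟩ := Plc.ab_one hy
      by_cases e : l = 0
      · obtain ⟨g, hg⟩ := Plc.ab_trans (mem_ab_ip.2 (Eq.symm e)) m
        exact ⟨none, g, trivial, hg⟩
      · obtain ⟨g, hg⟩ := Plc.ab_trans (xa ⟨l, Finset.mem_erase.2 ⟨e, hl⟩⟩) m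
        exact ⟨some _, g, trivial, hg⟩,
    by
      rintro (_ | a) (_ | b) g - e
      exacts [rfl, absurd e Sum.inl_ne_inr, absurd e Sum.inr_ne_inl, congrArg _ (Subtype.ext
        (GW.Pl.ov_uniq (GW.ov_smul (pl.ov a (pT a a.2)) g)
          ((show pl.P b = g • pl.P a from Sum.inl.inj e) ▸ pl.ov b (pT b b.2))))]⟩
  have d : Pd (In T) ⊤ (hr.Kn 1) (ro r) (om 2 F2) := ⟨inferInstance, rp hr ⊤ L.lv,
    P004F.Pr.prj2 (by simp) (rb_one r) (fun g _ j _ => hr.rb_mul g j) fun g =>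
      hr.tr_one_iff.trans (and_iff_right trivial).symm, nz, L.lv, fun u _ m => by
        rw [ro, hr.tr_one_iff.1 m]; exact mulVecLin_one, mu_om F2 ⊤, fun _ _ _ => om_two _ _⟩
  have g := gpc 2 F2 W ⊤ _ T _ x (ro r) le_top L.uz L.bg L.h0 L.hp L.lv hx d
  have u : ∀ A : Subgroup GQ, rk (Hm A (ro r) (om 2 F2)) =
      Module.finrank F2 (H0 A (ro r) fun _ => 1) := fun A => by
    have := Cx.pd_res d (le_top (a := A))
    rw [Module.finrank_eq_rank, ← om_two']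
    exact (prd GQ F2 W ∅ _ _ _ _ this.fin this.rp this.prj this.nz this.tri this.mu this.om).symm
  have c : ∀ A : Subgroup GQ, 2 ^ Module.finrank F2 (H0 A (ro r) fun _ => 1) = h0 r A := fun A => by
    have := Module.natCard_eq_pow_finrank (K := F2) (V := H0 A (ro r) fun _ => 1)
    rw [Nat.card_zmod] at this
    exact this.symm.trans (Nat.card_congr (Equiv.subtypeEquivRight fun v =>
      forall₂_congr fun g _ => by rw [one_smul]; rfl))
  have t : H0 ⊤ (ro r) (fun _ => 1) = ⊥ := (Submodule.eq_bot_iff _).2 fun v hv => by_contra fun n =>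
    (i v n).elim fun g e => e ((hv g trivial).trans (one_smul _ _))
  simp only [u] at g
  rw [t, finrank_bot, Nat.cast_zero, add_zero, rank_fin_fun, ← Nat.cast_sum, ← Nat.cast_add] at g
  have := Module.finite_of_rank_eq_nat g
  have := Module.finite_of_finite F2 (M := Z1 (In T) ⊤ (ro r))
  let e : Z1 (In T) ⊤ (ro r) ≃ Zt r (T.erase 0) := Equiv.subtypeEquivRight fun z =>
    ⟨fun ⟨a, _, V, hV, b⟩ => ⟨⟨P004S.lc_of_open hV.opn (one_mem _) fun g u m => by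
        rw [a g trivial u trivial, b u trivial m, map_zero, add_zero],
      fun g j => a g trivial j trivial⟩, fun l P o m g j => b g trivial (hV.sub
        ⟨l, fun y => m (Finset.mem_erase.2 ⟨o.1.ne_zero, y⟩), P, o, j⟩)⟩,
    fun ⟨a, b⟩ => ⟨fun g _ j _ => a.2 g j, fun g m => absurd trivial m, _,
      Hb.lv_core (cs_open hr a 0) fun g ⟨l, m, P, o, j⟩ => (cs_zero hr a).2
        (b l P o (fun y => m (Finset.mem_of_mem_erase y)) g j),
      fun w _ m => (cs_zero hr a).1 (Subgroup.normalCore_le _ m)⟩⟩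
  refine ⟨T.erase 0, fun l m => Finset.mem_erase.2 ⟨(pr l m).ne_zero, tt m⟩, pT,
    Finite.of_equiv _ e, le_of_eq ?_⟩
  rw [← Nat.card_congr e, Module.natCard_eq_pow_finrank (K := F2), Nat.card_zmod,
    Module.finrank_eq_of_rank_eq g, pow_add, ← Finset.prod_pow_eq_pow_sum, Fintype.prod_option,
    ← Finset.prod_coe_sort, mul_assoc, mul_comm]
  simp only [c]
  refine congrArg (· * 4) (congrArg₂ _ ?_ (Finset.prod_congr rfl fun l _ => by
    rw [Dv, top_inf_eq, ← st_fp]; rfl))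
  unfold hz h0
  refine Nat.card_congr (Equiv.subtypeEquivRight fun v => ⟨fun h g m => ?_, fun h => h k ?_⟩)
  · rcases (st_conj hφ).le m.2 with rfl | rfl
    exacts [by rw [rb_one, one_mulVec], h]
  · exact ⟨trivial, (st_conj hφ).ge (.inr rfl)⟩

end Vale.Agent.P004C.Mu.Gl
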