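import Vale.Agent.P004C.Mu.St0
import Vale.Agent.P004F.Pr.Cnt

/-!
# P004 C, block MU, row GWL: the indices of the local conditions `Ot` and `Cb` on inertia (helper93)
-/

set_option linter.all false

noncomputable section

namespace Vale.Agent.P004C.Mu.G2l

open NumberField Matrix Module
open Vale.Agent.P022 (Qb GQ)
open Vale.Agent.P022K
open Vale.Agent.P027M.S (Inert)
open Vale.Agent.P022D.W (dec inP_le_dec conj_inP phi_mem dec_gen exists_phi)
open Vale.Agent.P022.H443 (inP)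
open Vale.Agent.P022E.GW (Ov Fb)
open Vale.Agent.P022K.G2 (B2 Z2 Z1 tr)
open Vale.Agent.P004S (Rp Rep W rb wp Zb rb_one wp_add_left wp_add_right wp_sub_left wp_sub_right
  wp_smul_left wp_smul_right)

theorem cnt {A Y K : Type} [AddGroup A] [AddGroup Y] [Finite K] (f : A →+ Y) (Y' : Set Y)
    [Finite Y'] (hf : ∀ a, f a ∈ Y') (g : f.ker → K) (hg : Function.Injective g) :
    Nat.card A ≤ Nat.card Y' * Nat.card K := by
  rw [← AddSubgroup.card_mul_index f.ker, AddSubgroup.index_ker, mul_comm]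
  exact Nat.mul_le_mul (Nat.card_le_card_of_injective
    (fun y : f.range => (⟨y.1, y.2.elim fun a e => e ▸ hf a⟩ : Y'))
    fun _ _ e => Subtype.ext (Subtype.mk.inj e)) (Nat.card_le_card_of_injective g hg)

theorem six : ∀ M N : Matrix (Fin 2) (Fin 2) (ZMod 2), M * N = 1 → M ^ 6 = 1 := by decide +kernel

variable {r : Rp} {S : Finset ℕ} {l : ℕ} {P : Ideal (𝓞 Qb)} {y z : GQ → W} {σ : GQ}

/-- the number of vectors fixed by the decomposition group -/
abbrev h0 (r : Rp) (P : Ideal (𝓞 Qb)) : ℕ := Nat.card {v : W // ∀ g ∈ dec P, rb r g *ᵥ v = v}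

/-- local cocycles -/
structure Lz (r : Rp) (P : Ideal (𝓞 Qb)) (y : GQ → W) : Prop where
  lc : IsLocallyConstant fun g : dec P => y g
  co : ∀ g ∈ dec P, ∀ h ∈ dec P, y (g * h) = y g + rb r g *ᵥ y h

theorem lz_of (h : Zb r z) : Lz r P z :=
  ⟨h.1.comp_continuous continuous_subtype_val, fun g _ j _ => h.2 g j⟩

theorem lz_cob (hr : Rep r S) (m : W) : Lz r P fun g => rb r g *ᵥ m - m :=
  ⟨(hr.rb_lc.comp_continuous continuous_subtype_val).comp fun x => x *ᵥ m - m, fun g _ h _ => by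
    rw [hr.rb_mul, ← mulVec_mulVec, mulVec_sub]; abel⟩

theorem Lz.sub (hy : Lz r P y) (hz : Lz r P z) : Lz r P fun g => y g - z g :=
  ⟨hy.lc.sub hz.lc, fun g hg h hh => by
    rw [hy.co g hg h hh, hz.co g hg h hh, mulVec_sub]; abel⟩

theorem Lz.inv (hy : Lz r P y) (u : ∀ g, Inert P g → y g = 0) {g i : GQ} (hg : g ∈ dec P)
    (hi : Inert P i) : y (g * i) = y g ∧ rb r i *ᵥ y g = y g := by
  have k : ∀ i, Inert P i → y (g * i) = y g := fun i hi => by
    rw [hy.co g hg i (inP_le_dec hi), u i hi, mulVec_zero, add_zero]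
  have := k _ (conj_inP (inv_mem hg) hi)
  rw [show g * (g⁻¹ * i * g⁻¹⁻¹) = i * g by group, hy.co i (inP_le_dec hi) g hg, u i hi,
    zero_add] at this
  exact ⟨k i hi, this⟩

theorem cu_z2 (hr : Rep r S) (hy : Lz r P y) (hz : Lz r P z) :
    (fun g h => wp (y g) (rb r g *ᵥ z h)) ∈ Z2 ∅ (dec P) (tr GQ (ZMod 2)) := by
  refine ⟨fun g hg h hh j hj => ?_, G2.c2_of_lc (G2.dec_closed P) ?_⟩
  · simp only [G2.tr_apply, hy.co g hg h hh, hz.co h hh j hj, mulVec_add, wp_add_left,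
      wp_add_right, hr.rb_mul, ← mulVec_mulVec, hr.wp_rb]
    ring
  · exact (((hy.lc.comp_continuous continuous_fst).prodMk (hr.rb_lc.comp_continuous
      (continuous_subtype_val.comp continuous_fst))).prodMk
      (hz.lc.comp_continuous continuous_snd)).comp fun x => wp x.1.1 (x.1.2 *ᵥ x.2)

theorem cob_l (hr : Rep r S) (hz : Lz r P z) {m : W} (e : ∀ g ∈ dec P, y g = rb r g *ᵥ m - m) :
    (fun g h => wp (y g) (rb r g *ᵥ z h)) ∈ B2 ∅ (dec P) (tr GQ (ZMod 2)) :=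
  ⟨fun g => wp m (z g), G2.c1_of_lc (G2.dec_closed P) (hz.lc.comp (wp m)), fun g hg h hh => by
    simp only [G2.d1_apply, G2.tr_apply, e g hg, hz.co g hg h hh, wp_sub_left, wp_add_right,
      hr.wp_rb]
    ring⟩

theorem cob_r (hr : Rep r S) (hy : Lz r P y) (m : W) :
    (fun g h => wp (y g) (rb r g *ᵥ (rb r h *ᵥ m - m))) ∈ B2 ∅ (dec P) (tr GQ (ZMod 2)) :=
  ⟨fun g => -wp (y g) (rb r g *ᵥ m), G2.c1_of_lc (G2.dec_closed P) ((hy.lc.prodMk
    (hr.rb_lc.comp_continuous continuous_subtype_val)).comp fun x => -wp x.1 (x.2 *ᵥ m)),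
    fun g hg h hh => by
      simp only [G2.d1_apply, G2.tr_apply, hy.co g hg h hh, hr.rb_mul, ← mulVec_mulVec,
        wp_add_left, hr.wp_rb, mulVec_sub, wp_sub_right]
      ring⟩

/-- **unramified classes are orthogonal to unramified classes** -/
theorem ot_of_ur (hr : Rep r S) (o : Ov l P) (hz : Zb r z) (c : Cb r {g | Inert P g} z) :
    Ot r P z := by
  intro y y1 y2 y3
  obtain ⟨m, hm⟩ := c
  have hy : Lz r P y := ⟨y1, y2⟩
  have hz' := (lz_of (P := P) hz).sub (lz_cob hr m)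
  have u : ∀ g, Inert P g → z g - (rb r g *ᵥ m - m) = 0 := fun g hg => sub_eq_zero.2 (hm g hg)
  have k := G2.unr 2 (ZMod 2) ⊤ l P _ isOpen_univ o
    (by rw [top_inf_eq]; exact cu_z2 hr hy hz') fun g hg h hh i _ hi => by
      beta_reduce
      rw [(hy.inv y3 hg.2 hi).1, hr.rb_mul g i, ← mulVec_mulVec, (hz'.inv u hh.2 hi).2,
        (hz'.inv u hh.2 hi).1]
      exact ⟨rfl, rfl⟩
  rw [top_inf_eq] at k
  refine G2.B2.congr (add_mem k (cob_r hr hy m)) (fun g _ h _ => ?_) fun _ _ => rfl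
  simp only [Pi.add_apply]
  rw [← wp_add_right, ← mulVec_add, sub_add_cancel]

/-- the vectors fixed by inertia -/
def WI (r : Rp) (P : Ideal (𝓞 Qb)) : Submodule (ZMod 2) W where
  carrier := {v | ∀ g, Inert P g → rb r g *ᵥ v = v}
  add_mem' a b g m := by rw [mulVec_add, a g m, b g m]
  zero_mem' g _ := mulVec_zero _
  smul_mem' c v a g m := by rw [mulVec_smul, a g m]

theorem wi_stab (hr : Rep r S) {g : GQ} (hg : g ∈ dec P) {v : W} (hv : v ∈ WI r P) :
    rb r g *ᵥ v ∈ WI r P := fun i hi => by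
  rw [mulVec_mulVec, ← hr.rb_mul, show i * g = g * (g⁻¹ * i * g⁻¹⁻¹) by group, hr.rb_mul g,
    ← mulVec_mulVec, hv _ (conj_inP (inv_mem hg) hi)]

theorem uq (o : Ov l P) (hσ : Fb l P σ) (hy : Lz r P y) (u : ∀ g, Inert P g → y g = 0)
    (h0 : y σ = 0) : ∀ g ∈ dec P, y g = 0 := by
  intro g hg
  obtain ⟨V, hV, e⟩ := G2.c1_of_lc (F := ZMod 2) (G2.dec_closed P) hy.lc
  obtain ⟨n, s, v, hs, hv, rfl⟩ := dec_gen o.1 o.2.1 o.2.2 hσ hg V hV.opn
  have m := phi_mem o.1 o.2.1 hσ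
  have mk := (dec P).pow_mem m n
  have mv : v ∈ dec P :=
    ((dec P).mul_mem_cancel_right mk).1 (((dec P).mul_mem_cancel_right (inP_le_dec hs)).1 hg)
  have y1 := u 1 (inP P).one_mem
  have p : ∀ n : ℕ, y (σ ^ n) = 0 := fun n => by
    induction n with
    | zero => rwa [pow_zero]
    | succ n ih => rw [pow_succ, hy.co _ ((dec P).pow_mem m n) _ m, ih, h0, mulVec_zero, add_zero]
  rw [(hy.inv u (mul_mem mv mk) hs).1, hy.co _ mv _ mk, p, mulVec_zero, add_zero, ← one_mul v,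
    e 1 (one_mem _) v mv hv, y1]

/-- the unramified cocycle with a given value on a Frobenius element -/
theorem ex_x (hr : Rep r S) (o : Ov l P) (hσ : Fb l P σ) :
    ∃ x : GQ → Matrix (Fin 2) (Fin 2) (ZMod 2), x σ = 1 ∧ (∀ g, Inert P g → x g = 0) ∧
      ∀ v ∈ WI r P, Lz r P fun g => x g *ᵥ v := by
  obtain ⟨δ, V, hV, h1, h2, h3, h4⟩ :=
    P022E.GW.Unr.deg o.1 o.2.1 o.2.2 hσ (N := 12) (by norm_num)
  have m := phi_mem o.1 o.2.1 hσ
  have pw : ∀ n : ℕ, rb r (σ ^ n) = rb r σ ^ n := fun n => by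
    induction n with
    | zero => rw [pow_zero, pow_zero, rb_one]
    | succ n ih => rw [pow_succ, pow_succ, hr.rb_mul, ih]
  have M6 := six (rb r σ) (rb r σ⁻¹) (by rw [← hr.rb_mul, mul_inv_cancel, rb_one])
  have M12 : rb r σ ^ 12 = 1 := by rw [show 12 = 6 * 2 from rfl, pow_mul, M6, one_pow]
  let s : ℕ → Matrix (Fin 2) (Fin 2) (ZMod 2) := fun n => ∑ i ∈ Finset.range n, rb r σ ^ i
  have sa : ∀ a b, s (a + b) = s a + rb r σ ^ a * s b := fun a b => by
    simp only [s, Finset.sum_range_add, Finset.mul_sum, pow_add]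
  have s12 : s 12 = 0 := by
    rw [show 12 = 6 + 6 from rfl, sa, M6, one_mul]
    exact Matrix.ext fun i j => CharTwo.add_self_eq_zero _
  have sm : ∀ n, s (n % 12) = s n :=
    Function.Periodic.map_mod_nat fun n => by rw [sa, s12, mul_zero, add_zero]
  have act : ∀ g ∈ dec P, ∀ v ∈ WI r P, rb r g *ᵥ v = rb r σ ^ (δ g).val *ᵥ v := by
    intro g hg v hv
    obtain ⟨n, i, u, hi, hu, rfl⟩ :=
      dec_gen o.1 o.2.1 o.2.2 hσ hg (V ⊓ hr.Kn 1) (hV.inter (hr.Kn_open 1))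
    have mk := (dec P).pow_mem m n
    have mu : u ∈ dec P :=
      ((dec P).mul_mem_cancel_right mk).1 (((dec P).mul_mem_cancel_right (inP_le_dec hi)).1 hg)
    rw [h1 _ (mul_mem mu mk) _ (inP_le_dec hi), h1 _ mu _ mk, h3 i hi, h4 u hu.1 mu,
      P022E.GW.Unr.dpow o.1 o.2.1 hσ h1 h2 h3, zero_add, add_zero, ZMod.val_natCast,
      ← pow_eq_pow_mod n M12, hr.rb_mul, hr.rb_mul, hr.tr_one_iff.1 hu.2, one_mul, pw,
      ← mulVec_mulVec, hv i hi]
  obtain ⟨U, hU, le⟩ := G2.ex_lv' hV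
  refine ⟨fun g => s (δ g).val, ?_, fun g hg => ?_, fun v hv => ⟨G2.C1.lc (F := ZMod 2)
    (c := fun g => s (δ g).val *ᵥ v) ⟨U, hU, fun g hg w hw a => ?_⟩, fun g hg h hh => ?_⟩⟩
  · beta_reduce
    rw [h2]
    exact (Finset.sum_range_one _).trans (pow_zero _)
  · beta_reduce
    rw [h3 g hg]
    exact Finset.sum_range_zero _
  · beta_reduce
    rw [h1 g hg w hw, h4 w (le a) hw, add_zero]
  · have sw : ∀ n, s n *ᵥ v ∈ WI r P := fun n => by
      induction n with
      | zero => rw [show s 0 = 0 from Finset.sum_range_zero _, zero_mulVec]; exact zero_mem _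
      | succ n ih =>
        rw [show s (n + 1) = _ from Finset.sum_range_succ _ n, add_mulVec, ← pw]
        exact add_mem ih (wi_stab hr ((dec P).pow_mem m n) hv)
    beta_reduce
    rw [h1 g hg h hh, ZMod.val_add, sm, sa, add_mulVec, act g hg _ (sw _), mulVec_mulVec]

/-- **the index of `Ot`** -/
theorem ot_idx (hr : Rep r S) (o : Ov l P) (A : AddSubgroup (GQ → W)) [Finite A]
    (hA : ∀ z ∈ A, Zb r z) : Nat.card A ≤ h0 r P * Nat.card {z : A // Ot r P z} := by
  obtain ⟨σ, hσ⟩ := exists_phi o.1 o.2.1 o.2.2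
  obtain ⟨x, x1, x2, x3⟩ := ex_x hr o hσ
  have m := phi_mem o.1 o.2.1 hσ
  have d := (G2.dimt2 (ZMod 2) ⊤ l P _ isOpen_univ o (G2.rp_om (p := 2) _ ⊤)).1
  rw [G2.ch_om_two, top_inf_eq] at d
  obtain ⟨f, f1, f2⟩ := P004F.Pr.ex_fun d
  have q : ∀ {y}, Lz r P y → (∀ g, Inert P g → y g = 0) → ∀ g ∈ dec P, y g = x g *ᵥ y σ :=
    fun hy u g hg => sub_eq_zero.1 (uq o hσ (hy.sub (x3 _ fun i hi => (hy.inv u m hi).2))
      (fun i hi => by rw [u i hi, x2 i hi, zero_mulVec, sub_zero])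
      (by rw [x1, one_mulVec, sub_self]) g hg)
  let T : WI r P →ₗ[ZMod 2] WI r P := ((rb r σ).mulVecLin - LinearMap.id).restrict
    fun v hv => sub_mem (wi_stab hr m hv) hv
  let β : (GQ → W) →ₗ[ZMod 2] W →ₗ[ZMod 2] GQ → GQ → ZMod 2 := LinearMap.mk₂ _
    (fun z v g h => wp (x g *ᵥ v) (rb r g *ᵥ z h))
    (fun _ _ _ => funext fun g => funext fun h => by
      simp only [Pi.add_apply, mulVec_add, wp_add_right])
    (fun _ _ _ => funext fun g => funext fun h => by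
      simp only [Pi.smul_apply, mulVec_smul, wp_smul_right, smul_eq_mul])
    (fun _ _ _ => funext fun g => funext fun h => by
      simp only [Pi.add_apply, mulVec_add, wp_add_left])
    fun _ _ _ => funext fun g => funext fun h => by
      simp only [Pi.smul_apply, mulVec_smul, wp_smul_left, smul_eq_mul]
  let L : A →+ Dual (ZMod 2) (WI r P) := AddMonoidHom.mk'
    (fun z => f ∘ₗ β z ∘ₗ (WI r P).subtype) fun a b => LinearMap.ext fun v => by
      simp only [AddSubgroup.coe_add, map_add, LinearMap.comp_apply, LinearMap.add_apply]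
  have : Finite (Dual (ZMod 2) (WI r P)) := Module.finite_of_finite (ZMod 2)
  refine (cnt L (LinearMap.range T).dualAnnihilator (fun z => ?_)
    (fun z => (⟨z.1, fun y y1 y2 y3 => ?_⟩ : {z : A // Ot r P z}))
    fun _ _ e => Subtype.ext (Subtype.mk.inj e)).trans (Nat.mul_le_mul_right _ ?_)
  · refine (Submodule.mem_dualAnnihilator _).2 ?_
    rintro _ ⟨w, rfl⟩
    exact f1 _ (cob_l hr (lz_of (hA _ z.2)) fun g hg => (q (lz_cob hr w.1)
      (fun i hi => sub_eq_zero.2 (w.2 i hi)) g hg).symm)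
  · have hy : Lz r P y := ⟨y1, y2⟩
    have v : y σ ∈ WI r P := fun i hi => (hy.inv y3 m hi).2
    exact G2.B2.congr (f2 _ (cu_z2 hr (x3 _ v) (lz_of (hA _ z.1.2)))
      (LinearMap.congr_fun z.2 ⟨_, v⟩)) (fun g hg h _ => by rw [← q hy y3 g hg]) fun _ _ => rfl
  · have e1 := LinearMap.finrank_range_add_finrank_ker T
    have e2 := Subspace.finrank_add_finrank_dualAnnihilator_eq (LinearMap.range T)
    refine le_of_eq_of_le (b := Nat.card (LinearMap.ker T)) ?_ (Nat.card_le_card_of_injective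
      (fun v => ⟨v.1.1, fun g hg => sub_eq_zero.1 (uq o hσ (lz_cob hr v.1.1)
        (fun i hi => sub_eq_zero.2 (v.1.2 i hi)) (congrArg Subtype.val v.2) g hg)⟩)
      fun _ _ e => Subtype.ext (Subtype.ext (Subtype.mk.inj e)))
    rw [SetLike.coe_sort_coe, Module.natCard_eq_pow_finrank (K := ZMod 2),
      Module.natCard_eq_pow_finrank (K := ZMod 2) (V := LinearMap.ker T)]
    congr 1
    omega

theorem pd (hr : Rep r S) :
    G2.Pd ∅ ⊤ (hr.Kn 1) (fun g => (rb r g).mulVecLin) (G2.om 2 (ZMod 2)) :=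
  have t : ∀ u ∈ (⊤ : Subgroup GQ), u ∈ hr.Kn 1 → (rb r u).mulVecLin = 1 := fun u _ m => by
    rw [hr.tr_one_iff.1 m]; exact mulVecLin_one
  ⟨inferInstance, ⟨t 1 trivial (one_mem _), fun g _ h _ => by
      rw [hr.rb_mul]; exact mulVecLin_mul _ _, _, G2.lv_of (hr.Kn_normal 1) (hr.Kn_open 1), t⟩,
    P004F.Pr.prj2 (by simp) (rb_one r) (fun g _ h _ => hr.rb_mul g h)
      fun g => hr.tr_one_iff.trans (and_iff_right trivial).symm,
    fun g _ u hu => (hr.Kn_normal 1).conj_mem u hu g, G2.le_of_open (hr.Kn_open 1) _, t,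
    G2.mu_om _ _, fun _ _ _ => G2.om_two _ _⟩

/-- **the number of local cocycles** -/
theorem z1_card (hr : Rep r S) (o : Ov l P) :
    Nat.card (Z1 ∅ (dec P) fun g => (rb r g).mulVecLin) =
      4 * ((if l = 2 then 4 else 1) * h0 r P) := by
  have d := G2.Cx.pd_res (pd hr) (le_top : dec P ≤ ⊤)
  have e := G2.lpc 2 (ZMod 2) W ⊤ _ l P _ isOpen_univ (hr.Kn_open 1) (G2.le_gz_two _) o
    (by rwa [top_inf_eq])
  rw [top_inf_eq, ← G2.prd GQ _ W ∅ _ _ _ _ d.fin d.rp d.prj d.nz d.tri d.mu d.om,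
    Subgroup.relIndex_top_left, G2.rk, G2.rk, ← finrank_eq_rank _ (G2.H0 _ _ _), rank_fun',
    Fintype.card_fin, ← Nat.cast_one, ← Nat.cast_add, ← Nat.cast_mul, ← Nat.cast_add] at e
  have := Module.finite_of_rank_eq_nat e
  rw [Module.natCard_eq_pow_finrank (K := ZMod 2), finrank_eq_of_rank_eq e, pow_add,
    ← Module.natCard_eq_pow_finrank, Nat.card_zmod, Nat.card_congr (Equiv.subtypeEquivRight
      (q := fun v => ∀ g ∈ dec P, rb r g *ᵥ v = v) fun v => by
        simp only [G2.H0, G2.om_two, one_smul]; rfl)]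
  by_cases c : l = 2
  · simp only [if_pos c]; ring
  · simp only [if_neg c]; ring

/-- **the index of the unramified condition** -/
theorem ur_idx (hr : Rep r S) (o : Ov l P) (A : AddSubgroup (GQ → W)) [Finite A]
    (hA : ∀ z ∈ A, Zb r z) : Nat.card A ≤
      (if l = 2 then 4 else 1) * h0 r P * Nat.card {z : A // Cb r {g | Inert P g} z} := by
  obtain ⟨σ, hσ⟩ := exists_phi o.1 o.2.1 o.2.2
  obtain ⟨x, x1, x2, x3⟩ := ex_x hr o hσ
  have m := phi_mem o.1 o.2.1 hσ
  have e := z1_card hr o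
  have : Finite (Z1 ∅ (dec P) fun g => (rb r g).mulVecLin : Set (GQ → W)) := by
    have : Nonempty {v : W // ∀ g ∈ dec P, rb r g *ᵥ v = v} := ⟨0, fun _ _ => mulVec_zero _⟩
    refine Nat.finite_of_card_ne_zero (e.trans_ne (mul_ne_zero four_ne_zero
      (mul_ne_zero ?_ Nat.card_pos.ne')))
    split_ifs <;> norm_num
  choose c hc using fun z : {z : A // Cb r {g | Inert P g} z} => z.2
  let F : A × W × WI r P →+ GQ → W := AddMonoidHom.mk' (fun p => (dec P : Set GQ).indicator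
    fun g => p.1.1 g - (rb r g *ᵥ p.2.1 - p.2.1) - x g *ᵥ p.2.2.1) fun a b => by
      rw [← Set.indicator_add']
      refine congrArg _ (funext fun g => ?_)
      simp only [Prod.fst_add, Prod.snd_add, AddSubgroup.coe_add, Submodule.coe_add, Pi.add_apply,
        mulVec_add]
      abel
  have k : ∀ p : F.ker, ∀ g ∈ dec P,
      p.1.1.1 g - (rb r g *ᵥ p.1.2.1 - p.1.2.1) = x g *ᵥ p.1.2.2.1 := fun p g hg =>
    sub_eq_zero.1 ((Set.indicator_of_mem (s := dec P) hg fun g => p.1.1.1 g -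
      (rb r g *ᵥ p.1.2.1 - p.1.2.1) - x g *ᵥ p.1.2.2.1).symm.trans (congrFun p.2 g))
  have k1 : ∀ p : F.ker, ∀ g, Inert P g → p.1.1.1 g = rb r g *ᵥ p.1.2.1 - p.1.2.1 :=
    fun p g hg => sub_eq_zero.1 (by rw [k p g (inP_le_dec hg), x2 g hg, zero_mulVec])
  have key := cnt F (Z1 ∅ (dec P) fun g => (rb r g).mulVecLin) (fun p => by
      have hz := ((lz_of (P := P) (hA _ p.1.2)).sub (lz_cob hr p.2.1)).sub (x3 _ p.2.2.2)
      exact G2.z1_of (pd hr).rp.one (G2.c1_of_lc (G2.dec_closed P) hz.lc) fun g hg j hj => by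
        rw [G2.d1_apply, hz.co g hg j hj, mulVecLin_apply]; abel)
    (K := {z : A // Cb r {g | Inert P g} z} × WI r P)
    (fun p => (⟨p.1.1, _, k1 p⟩, ⟨p.1.2.1 - c ⟨p.1.1, _, k1 p⟩, fun g hg => by
      have := (k1 p g hg).symm.trans (hc ⟨p.1.1, _, k1 p⟩ g hg)
      rw [mulVec_sub]
      linear_combination (norm := abel1) this⟩)) fun p p' h => by
      obtain ⟨h1, h2⟩ := Prod.mk.inj h
      replace h2 := Subtype.mk.inj h2
      rw [h1, sub_left_inj] at h2
      have h3 : p.1.1 = p'.1.1 := Subtype.mk.inj h1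
      have h4 := k p σ m
      rw [h2, h3, k p' σ m, x1, one_mulVec, one_mulVec] at h4
      exact Subtype.ext (Prod.ext h3 (Prod.ext h2 (Subtype.ext h4.symm)))
  rw [SetLike.coe_sort_coe, e, Nat.card_prod, Nat.card_prod, Nat.card_prod,
    show Nat.card W = 4 by simp [Nat.card_fun]] at key
  refine Nat.le_of_mul_le_mul_right (key.trans_eq ?_)
    (Nat.mul_pos four_pos (Nat.card_pos (α := WI r P)))
  ring

/-- **the index of the unramified condition at two** -/
theorem two_idx (hr : Rep r S) (o : Ov 2 P) (A : AddSubgroup (GQ → W)) [Finite A]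
    (hA : ∀ z ∈ A, Zb r z) :
    Nat.card A ≤ 4 * h0 r P * Nat.card {z : A // Cb r {g | Inert P g} z} :=
  ur_idx hr o A hA

/-- **the index of the unramified condition at an odd prime** -/
theorem odd_idx (hr : Rep r S) (o : Ov l P) (h : l ≠ 2) (A : AddSubgroup (GQ → W)) [Finite A]
    (hA : ∀ z ∈ A, Zb r z) :
    Nat.card A ≤ h0 r P * Nat.card {z : A // Cb r {g | Inert P g} z} := by
  simpa only [if_neg h, one_mul] using ur_idx hr o A hA

end Vale.Agent.P004C.Mu.G2l
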