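import Vale.Agent.P004C.Mu.Gw1

/-!
# P004 C, block MU, row GWL: the index of the unramified classes at two
-/

set_option linter.all false

noncomputable section

namespace Vale.Agent.P004C.Mu.Gl

open NumberField Matrix
open Vale.Agent.P022 (Qb GQ)
open Vale.Agent.P022K
open Vale.Agent.P027M.S (Inert)
open Vale.Agent.P022D.W (dec phi_mem inP_le_dec)
open Vale.Agent.P022E.GW (Ov Fb)
open Vale.Agent.P004S (Rp Rep W rb Zb rb_one lt)
open Vale.Agent.P004F.Pr (F2)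

variable {r : Rp} {S : Finset ℕ} {l : ℕ} {P : Ideal (𝓞 Qb)}

theorem Ix.quo {Z C : (GQ → W) → Prop} {n : ℕ} {Y U : AddSubgroup (GQ → W)} [Finite Y] (le : U ≤ Y)
    (f : (GQ → W) →+ GQ → W) (h1 : ∀ z, Z z → f z ∈ Y) (h2 : ∀ z, Z z → f z ∈ U → C z)
    (hn : Nat.card Y ≤ n * Nat.card U) : Ix Z C n := fun A _ hA => by
  have := Finite.of_injective _ (AddSubgroup.inclusion_injective le)
  let B := A ⊓ U.comap f
  have := Finite.of_injective _ (AddSubgroup.inclusion_injective (inf_le_left : B ≤ A))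
  refine ⟨B, inf_le_left, fun z m => h2 z (hA z m.1) m.2,
    Nat.le_of_mul_le_mul_right (c := Nat.card U) ?_ Nat.card_pos⟩
  let g : A × U →+ GQ → W := (f.comp A.subtype).coprod (-U.subtype)
  have e : ∀ x : g.ker, f x.1.1 = x.1.2 := fun x => add_neg_eq_zero.1 x.2
  have a := P004T.Gw.card_le g (Set.toFinite (Y : Set (GQ → W))) fun x =>
    add_mem (h1 _ (hA _ x.1.2)) (neg_mem (le x.2.2))
  have b : Nat.card g.ker ≤ Nat.card B := Nat.card_le_card_of_injective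
    (fun x => ⟨x.1.1, x.1.1.2, show f _ ∈ U from e x ▸ x.1.2.2⟩) fun x y c => by
      have c' : x.1.1 = y.1.1 := Subtype.ext (congrArg (·.1) c)
      exact Subtype.ext (Prod.ext c' (Subtype.ext (by rw [← e, ← e, c'])))
  rw [Nat.card_prod] at a
  exact (a.trans (Nat.mul_le_mul b hn)).trans_eq (by ring)

/-- geometric sums -/
def Sg (A : Matrix (Fin 2) (Fin 2) F2) (n : ℕ) : Matrix (Fin 2) (Fin 2) F2 :=
  ∑ i ∈ Finset.range n, A ^ i

theorem Sg_add (A : Matrix (Fin 2) (Fin 2) F2) (a b : ℕ) :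
    Sg A (a + b) = Sg A a + A ^ a * Sg A b := by
  simp only [Sg, Finset.sum_range_add, pow_add, Finset.mul_sum]

theorem m6 : ∀ A B : Matrix (Fin 2) (Fin 2) F2, A * B = 1 → A ^ 6 = 1 := by decide +kernel

theorem Sg_val {A : Matrix (Fin 2) (Fin 2) F2} (h : A ^ 6 = 1) (n : ℕ) :
    Sg A (n : ZMod 12).val = Sg A n := by
  rw [ZMod.val_natCast]
  conv_rhs => rw [← Nat.div_add_mod n 12]
  induction n / 12 with
  | zero => rw [mul_zero, zero_add]
  | succ k ih =>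
    rw [show 12 * (k + 1) + n % 12 = 6 + (6 + (12 * k + n % 12)) by ring, Sg_add, Sg_add, h,
      one_mul, one_mul, ← add_assoc, CharTwo.add_self_eq_zero, zero_add, ih]

open G2 in
/-- the number of local cocycles -/
theorem card_loc (hr : Rep r S) (o : Ov 2 P) : Finite (Z1 ∅ (dec P) (ro r)) ∧
    Nat.card (Z1 ∅ (dec P) (ro r)) = h0 r (dec P) * 16 := by
  have lv : Le ∅ ⊤ (hr.Kn 1) := le_of_open (hr.Kn_open 1) _
  have d : Pd ∅ (⊤ ⊓ dec P) (hr.Kn 1) (ro r) (om 2 F2) := Cx.pd_res (I := ∅) ⟨inferInstance,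
    rp hr ⊤ lv, P004F.Pr.prj2 (by simp) (rb_one r) (fun g _ j _ => hr.rb_mul g j) fun g =>
      hr.tr_one_iff.trans (and_iff_right trivial).symm, fun g _ u m => hr.tr_conj m g, lv,
    fun u _ m => by rw [ro, hr.tr_one_iff.1 m]; exact mulVecLin_one, mu_om F2 ⊤,
    fun _ _ _ => om_two _ _⟩ le_top
  have g := lpc 2 F2 W ⊤ _ 2 P (ro r) isOpen_univ (hr.Kn_open 1) (le_gz_two _) o d
  rw [← prd GQ F2 W ∅ _ _ _ _ d.fin d.rp d.prj d.nz d.tri d.mu d.om, om_two', top_inf_eq,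
    if_pos rfl, Subgroup.relIndex_top_left, rank_fin_fun, rk, rk,
    ← Module.finrank_eq_rank F2 (H0 _ _ _), ← Nat.cast_one (R := Cardinal), ← Nat.cast_add,
    ← Nat.cast_mul, ← Nat.cast_add] at g
  have := Module.finite_of_rank_eq_nat g
  refine ⟨Module.finite_of_finite F2, ?_⟩
  have c := Module.natCard_eq_pow_finrank (K := F2) (V := H0 (dec P) (ro r) fun _ => 1)
  rw [Module.natCard_eq_pow_finrank (K := F2), Module.finrank_eq_of_rank_eq g, pow_add, ← c,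
    Nat.card_zmod]
  have e : Nat.card (H0 (dec P) (ro r) fun _ => 1) = h0 r (dec P) :=
    Nat.card_congr (Equiv.subtypeEquivRight fun v =>
      forall₂_congr fun g _ => by rw [one_smul]; rfl)
  rw [e]; rfl

theorem ix_two (hr : Rep r S) (o : Ov 2 P) :
    Ix (Zb r) (Cb r {g | Inert P g}) (h0 r (dec P) * 4) := by
  obtain ⟨fin, cd⟩ := card_loc hr o
  obtain ⟨σ, hσ⟩ := P022D.W.exists_phi o.1 o.2.1 o.2.2
  obtain ⟨δ, V, hV, h1, h2, h3, h4⟩ := P022E.GW.Unr.deg o.1 o.2.1 o.2.2 hσ (N := 12) (by simp)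
  have σd := phi_mem o.1 o.2.1 hσ
  have a6 := m6 (rb r σ) _ (by rw [← hr.rb_mul, mul_inv_cancel, rb_one])
  let M : AddSubgroup W :=
    { carrier := {v | ∀ g, Inert P g → rb r g *ᵥ v = v}
      add_mem' := fun a b g m => by rw [mulVec_add, a g m, b g m]
      zero_mem' := fun _ _ => mulVec_zero _
      neg_mem' := fun a g m => by rw [mulVec_neg, a g m] }
  have m1 : ∀ n, ∀ v ∈ M, Sg (rb r σ) n *ᵥ v ∈ M := fun n v m => by
    induction n with
    | zero => simp [Sg]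
    | succ n ih =>
      rw [add_comm, Sg_add, add_mulVec, ← mulVec_mulVec, pow_one]
      refine add_mem (by simpa [Sg] using m) fun g i => ?_
      rw [mulVec_mulVec, ← hr.rb_mul, show g * σ = σ * (σ⁻¹ * g * σ⁻¹⁻¹) by group, hr.rb_mul,
        ← mulVec_mulVec, ih _ (P022D.W.conj_inP (inv_mem σd) i)]
  have oU : IsOpen ((V ⊓ hr.Kn 1 : Subgroup GQ) : Set GQ) := hV.inter (hr.Kn_open 1)
  have nf : ∀ g ∈ dec P, ∃ j : ℕ, δ g = j ∧ ∀ v ∈ M, rb r g *ᵥ v = rb r σ ^ j *ᵥ v := fun g m => by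
    obtain ⟨j, i, hi, u⟩ := (lt 2 P o).2 σ g hσ m _ oU
    have b := mul_mem (pow_mem σd j) (inP_le_dec hi)
    have pw : ∀ j : ℕ, rb r (σ ^ j) = rb r σ ^ j := fun j => by
      induction j with
      | zero => exact rb_one r
      | succ j ih => rw [pow_succ, pow_succ, hr.rb_mul, ih]
    refine ⟨j, ?_, fun v hv => ?_⟩ <;> rw [← mul_inv_cancel_left (σ ^ j * i) g]
    · rw [h1 _ b _ (mul_mem (inv_mem b) m), h4 _ u.1 (mul_mem (inv_mem b) m),
        h1 _ (pow_mem σd j) _ (inP_le_dec hi), h3 _ hi,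
        P022E.GW.Unr.dpow o.1 o.2.1 hσ h1 h2 h3, add_zero, add_zero]
    · rw [hr.rb_mul, hr.tr_one_iff.1 u.2, mul_one, hr.rb_mul, ← mulVec_mulVec, hv i hi, pw]
  let f : (GQ → W) →+ GQ → W := Set.indicatorHom W (dec P : Set GQ)
  have fm : ∀ z, ∀ g ∈ dec P, f z g = z g := fun z g m => Set.indicator_of_mem m z
  have fz : ∀ z : GQ → W, (∀ g ∈ dec P, ∀ j ∈ dec P, z (g * j) = z g + rb r g *ᵥ z j) →
      ∀ U : Subgroup GQ, IsOpen (U : Set GQ) → (∀ g ∈ dec P, g ∈ U → z g = 0) →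
      f z ∈ G2.Z1 ∅ (dec P) (ro r) := fun z a U oU b => ⟨fun g m j m' => by
        rw [fm z g m, fm z j m', fm z _ (mul_mem m m'), a g m j m']; rfl,
      fun g m => Set.indicator_of_notMem m z, (G2.ex_lv' oU).imp fun V hV => ⟨hV.1, fun w m m' =>
        (fm z w m).trans (b w m (hV.2 m'))⟩⟩
  let Ψ : W × M →+ GQ → W := f.comp (.mk' (fun x g => rb r g *ᵥ x.1 - x.1 +
    Sg (rb r σ) (δ g).val *ᵥ x.2.1) fun x y => funext fun g => by
      simp only [Prod.fst_add, Prod.snd_add, AddSubgroup.coe_add, mulVec_add, Pi.add_apply]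
      abel)
  have ψ : ∀ x, ∀ g ∈ dec P, Ψ x g = rb r g *ᵥ x.1 - x.1 + Sg (rb r σ) (δ g).val *ᵥ x.2.1 :=
    fun x g m => fm _ g m
  have ψi : ∀ x g, Inert P g → Ψ x g = rb r g *ᵥ x.1 - x.1 := fun x g m => by
    rw [ψ x g (inP_le_dec m), h3 g m]
    simp [Sg]
  have le : Ψ.range ≤ (G2.Z1 ∅ (dec P) (ro r)).toAddSubgroup := by
    rintro _ ⟨x, rfl⟩
    refine fz _ (fun g m j m' => ?_) _ oU fun g m u => ?_ <;> simp only [AddMonoidHom.mk'_apply]
    · obtain ⟨a, a1, a2⟩ := nf g m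
      obtain ⟨b, b1, -⟩ := nf j m'
      rw [h1 g m j m', a1, b1, ← Nat.cast_add, Sg_val a6, Sg_val a6, Sg_val a6, Sg_add, mulVec_add,
        a2 _ (m1 b _ x.2.2), add_mulVec, hr.rb_mul, mulVec_sub, mulVec_mulVec, mulVec_mulVec]
      abel
    · rw [hr.tr_one_iff.1 u.2, h4 g u.1 m, one_mulVec, sub_self]
      simp [Sg]
  have : Finite (G2.Z1 ∅ (dec P) (ro r)).toAddSubgroup := fin
  refine Ix.quo le f (fun z hz => fz z (fun g _ j _ => hz.2 g j) _ (cs_open hr hz 0) fun g _ m =>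
    (cs_zero hr hz).1 m) (fun z _ ⟨x, e⟩ => ⟨x.1, fun g m => by
      rw [← ψi x g m, e, fm z g (inP_le_dec m)]⟩) (cd.trans_le ?_)
  have := Finite.of_injective _ (AddSubgroup.inclusion_injective le)
  have a := P004T.Gw.card_le Ψ (Set.toFinite (Ψ.range : Set (GQ → W))) fun x => ⟨x, rfl⟩
  have b : Nat.card Ψ.ker ≤ Nat.card M := Nat.card_le_card_of_injective
    (fun x => ⟨x.1.1, fun g m => sub_eq_zero.1 ((ψi _ g m).symm.trans (congrFun x.2 g))⟩)
    fun x y c => by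
      have c' : x.1.1 = y.1.1 := congrArg (·.1) c
      have e := (congrFun x.2 σ).trans (congrFun y.2 σ).symm
      rw [ψ _ σ σd, ψ _ σ σd, c', add_right_inj, h2, ← Nat.cast_one, Sg_val a6] at e
      exact Subtype.ext (Prod.ext c' (Subtype.ext (by simpa [Sg] using e)))
  rw [Nat.card_prod, mul_comm] at a
  have c := Nat.le_of_mul_le_mul_left (a.trans (Nat.mul_le_mul_right _ b)) Nat.card_pos
  rw [show Nat.card W = 4 by simp] at c
  rw [mul_assoc]
  exact Nat.mul_le_mul_left _ (Nat.mul_le_mul_left 4 c)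

end Vale.Agent.P004C.Mu.Gl
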