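import Vale.Agent.P004C.Mu.St0
import Vale.Agent.P004R.Mu0
import Vale.Agent.P004S.Wt
import Vale.Agent.P022K.CH.Tame

/-!
# P004 C, block MU: small tools
-/

set_option linter.all false

noncomputable section

namespace Vale.Agent.P004C.Mu

open NumberField Matrix
open Vale.Agent.P022 (Qb GQ IsConj)
open Vale.Agent.P027M.S (Inert)
open Vale.Agent.P022D.W (dec)
open Vale.Agent.P022.H443 (inP)
open Vale.Agent.P022E.GW (Ov Fb Gn)
open Vale.Agent.P004S Vale.Agent.P004S.Wg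

variable {r : Rp} {S : Finset ℕ} {l : ℕ} {P : Ideal (𝓞 Qb)} {z : GQ → W}

theorem m6 : ∀ A : M2, A.det = 1 → A * A * A * (A * A * A) = 1 := by
  simp only [det_fin_two]
  decide +kernel

theorem m3 : ∀ A ω : M2, A.det = 1 → o3 ω → (A * ω, A * (ω * ω)) = (ω * A, ω * ω * A) ∨
    (A * ω, A * (ω * ω)) = (ω * ω * A, ω * A) := by
  simp only [det_fin_two]
  decide +kernel

theorem m9 : ∀ ω : M2, o3 ω → ω + ω * ω = 1 := by decide +kernel

theorem m2 : ∀ A B : M2, A.det = 1 ∧ B.det = 1 → (o3 A ∨ o3 B ∨ o3 (A * B)) ∨ B = 1 ∨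
    (A = 1 ∨ A = B) ∧ B * B = 1 := by
  simp only [det_fin_two]
  decide +kernel

theorem m1 : ∀ (B : M2) (x : W), B ≠ 1 → B * B = 1 → x + B *ᵥ x = 0 → ∃ v, x = B *ᵥ v - v := by
  decide +kernel

theorem mt1 : ∀ A : M2, A.det = 1 → (A.trace = 1 ↔ o3 A) := by
  simp only [det_fin_two, trace_fin_two]
  decide +kernel

theorem mo : ∀ (A : M2) (x : W), o3 A → A *ᵥ x = x → x = 0 := by decide +kernel

theorem w2 (x : W) : x + x = 0 := funext fun i => CharTwo.add_self_eq_zero _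

theorem wn (x : W) : -x = x := neg_eq_of_add_eq_zero_left (w2 x)

theorem rb_six (h : Rep r S) (g : GQ) : rb r (g ^ 6) = 1 := by
  rw [show g ^ 6 = g * g * g * (g * g * g) by simp only [pow_succ, pow_zero, one_mul, mul_assoc]]
  simp only [h.rb_mul]
  exact m6 _ (det_rb h g)

theorem rb_in (h : Rep r S) (o : Ov l P) (hl : l ∉ S) {g : GQ} (i : Inert P g) : rb r g = 1 :=
  h.tr_one_iff.1 (h.Kn_uns 1 l P o hl g i)

theorem rb_inv (h : Rep r S) (g : GQ) : rb r g * rb r g⁻¹ = 1 := by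
  rw [← h.rb_mul, mul_inv_cancel, rb_one]

/-- the module is projective -/
theorem cob_of (h : Rep r S) {A : Subgroup GQ}
    (c : ∀ g ∈ A, ∀ j ∈ A, z (g * j) = z g + rb r g *ᵥ z j) (k : ∀ g ∈ A, rb r g = 1 → z g = 0) :
    Cb r A z := by
  have e : ∀ x ∈ A, ∀ y ∈ A, rb r x = rb r y → z x = z y := fun x hx y hy a => by
    have m := mul_mem (inv_mem hy) hx
    rw [← mul_inv_cancel_left y x, c y hy _ m, k _ m (by
      rw [h.rb_mul, a, ← h.rb_mul, inv_mul_cancel, rb_one]), mulVec_zero, add_zero]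
  by_cases a : ∃ j ∈ A, o3 (rb r j)
  · obtain ⟨j, m, o⟩ := a
    have mm := mul_mem m m
    refine ⟨z j + z (j * j), fun g hg => ?_⟩
    have a : z (g * j) + z (g * (j * j)) = z (j * g) + z (j * j * g) := by
      rcases m3 _ _ (det_rb h g) o with a | a <;> simp only [← h.rb_mul, Prod.mk.injEq] at a
      · rw [e _ (mul_mem hg m) _ (mul_mem m hg) a.1, e _ (mul_mem hg mm) _ (mul_mem mm hg) a.2]
      · rw [e _ (mul_mem hg m) _ (mul_mem mm hg) a.1, e _ (mul_mem hg mm) _ (mul_mem m hg) a.2,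
          add_comm]
    have b := congrArg (· *ᵥ z g) (m9 _ o)
    simp only [add_mulVec, one_mulVec, ← h.rb_mul] at b
    rw [c g hg j m, c g hg _ mm, c j m g hg, c _ mm g hg, add_add_add_comm, w2, zero_add,
      add_add_add_comm, b] at a
    rw [mulVec_add, a, add_sub_cancel_left]
  push Not at a
  by_cases b : ∃ j ∈ A, rb r j ≠ 1
  · obtain ⟨j, m, n⟩ := b
    have u : ∀ g ∈ A, _ := fun g hg => ((m2 _ _ ⟨det_rb h g, det_rb h j⟩).resolve_left
      (not_or.2 ⟨a g hg, not_or.2 ⟨a j m, h.rb_mul g j ▸ a _ (mul_mem hg m)⟩⟩)).resolve_left n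
    obtain ⟨v, hv⟩ := m1 _ (z j) n (u j m).2 (by
      rw [← c j m j m, k _ (mul_mem m m) ((h.rb_mul j j).trans (u j m).2)])
    refine ⟨v, fun g hg => (u g hg).1.elim (fun q => ?_) fun q => ?_⟩
    · rw [k g hg q, q, one_mulVec, sub_self]
    · rw [e g hg j m q, q, hv]
  · push Not at b
    exact ⟨0, fun g hg => by rw [k g hg (b g hg), mulVec_zero, sub_self]⟩

theorem Cb.conj (h : Rep r S) (c : Zb r z) {A A' : Set GQ} (t : GQ)
    (m : ∀ g ∈ A', t⁻¹ * g * t ∈ A) (k : Cb r A z) : Cb r A' z := by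
  obtain ⟨v, hv⟩ := k
  refine ⟨rb r t *ᵥ v - z t, fun g hg => ?_⟩
  have e := c.2 t (t⁻¹ * g * t)
  rw [show t * (t⁻¹ * g * t) = g * t by group, c.2, hv _ (m g hg), mulVec_sub, mulVec_mulVec,
    ← h.rb_mul, show t * (t⁻¹ * g * t) = g * t by group, h.rb_mul, ← mulVec_mulVec] at e
  rw [mulVec_sub, eq_sub_of_add_eq e]
  abel

theorem Cb.ine (h : Rep r S) (c : Zb r z) (o : Ov l P) {P' : Ideal (𝓞 Qb)} (o' : Ov l P')
    (k : Cb r {g | Inert P g} z) : Cb r {g | Inert P' g} z :=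
  let ⟨t, a, _⟩ := ex_conj o o'
  k.conj h c t fun g m => a g m

theorem Cb.dec (h : Rep r S) (c : Zb r z) (o : Ov l P) {P' : Ideal (𝓞 Qb)} (o' : Ov l P')
    (k : Cb r (dec P) z) : Cb r (dec P') z :=
  let ⟨t, _, a⟩ := ex_conj o o'
  k.conj h c t a

theorem zb_cob (h : Rep r S) (v : W) : Zb r fun g => rb r g *ᵥ v - v :=
  ⟨h.rb_lc.comp fun M => M *ᵥ v - v, fun g j => by
    simp only [h.rb_mul, ← mulVec_mulVec, mulVec_sub]; abel⟩

/-- additive functions on an open part of tame inertia are invariant under Frobenius -/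
theorem fr_inv (o : Ov l P) (h2 : l ≠ 2) {σ : GQ} (hσ : Fb l P σ) {U V : Subgroup GQ} [U.Normal]
    (hV : IsOpen (V : Set GQ)) {M : Type} [AddCommGroup M] (t : ∀ x : M, x + x = 0) {f : GQ → M}
    (ad : ∀ g ∈ U ⊓ inP P, ∀ j ∈ U ⊓ inP P, f (g * j) = f g + f j) (f0 : ∀ u ∈ V, f u = 0)
    {i : GQ} (hi : i ∈ U ⊓ inP P) : σ * i * σ⁻¹ ∈ U ⊓ inP P ∧ f (σ * i * σ⁻¹) = f i := by
  have m : σ * i * σ⁻¹ ∈ U ⊓ inP P := ⟨Subgroup.Normal.conj_mem inferInstance _ hi.1 σ,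
    P022D.W.conj_inP (P022D.W.phi_mem o.1 o.2.1 hσ) hi.2⟩
  have od : ∀ g ∈ U ⊓ inP P, ∀ n, Odd n → f (g ^ n) = f g := by
    rintro g hg _ ⟨a, rfl⟩
    induction a with
    | zero => simp
    | succ a ih =>
      have := pow_mem hg (2 * a + 1)
      rw [show 2 * (a + 1) + 1 = 2 * a + 1 + 1 + 1 by ring, pow_succ, pow_succ,
        ad _ (mul_mem this hg) g hg, ad _ this g hg, ih, add_assoc, t, add_zero]
  have lo := o.1.odd_of_ne_two h2
  obtain ⟨k, _, _, χ, -, -, h1⟩ := P022K.CH.Loc.chi_data V.normalCore (P022K.GW.Pl.core_open hV) o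
  obtain ⟨n, hn⟩ := h1 σ hσ i hi.2
  have m1 := mul_mem m (inv_mem (pow_mem hi l))
  have := ad _ m1 _ (pow_mem hi l)
  rw [inv_mul_cancel_right, ← od _ m1 _ (lo.pow (n := n)), f0 _ (V.normalCore_le hn), zero_add,
    od i hi l lo] at this
  exact ⟨m, this⟩

end Vale.Agent.P004C.Mu
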