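import Vale.Agent.P004C.Mu.Kit
import Vale.Agent.P004R.Mu

/-!
# P004 C, block MU, row LEV: the induced module modulo `T ^ 4`
-/

set_option linter.all false

noncomputable section

namespace Vale.Agent.P004C.Mu.Lv

open NumberField Matrix
open scoped NumberTheorySymbols
open Vale.Agent.P022 (Qb GQ IsConj)
open Vale.Agent.P027M.S (Inert)
open Vale.Agent.P022D.W (dec)
open Vale.Agent.P022E.GW (Ov Fb Gn)
open Vale.Agent.P004S Vale.Agent.P004S.Wg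
open Vale.Agent.P004R.Mu

abbrev I8 : Type := Fin 4 ⊕ Fin 4

abbrev F : Type := ZMod 2

abbrev Nn : Type := Matrix I8 (Fin 2) F

/-- multiplication by `(1 + T) ^ k` -/
def Lm (k : ZMod 4) : Matrix (Fin 4) (Fin 4) F :=
  of fun i j => if j ≤ i then (k.val.choose (i - j) : ℕ) else 0

/-- the action of the dihedral group -/
def Aa (k : ZMod 4) (s : F) : Matrix I8 I8 F :=
  if s = 0 then fromBlocks (Lm k) 0 0 (Lm (-k)) else fromBlocks 0 (Lm k) (Lm (-k)) 0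

/-- multiplication by `T` -/
def Tm : Matrix I8 I8 F := fromBlocks (Lm 1) 0 0 (Lm 1) + 1

def mu0 : I8 → F := Sum.elim ![1, 0, 0, 0] ![1, 0, 0, 0]

def al0 : I8 → F := Sum.elim ![1, 0, 0, 0] 0

def b0 : I8 → F := Sum.elim ![0, 1, 0, 0] ![0, 1, 0, 0]

theorem Lm_add : ∀ a b, Lm (a + b) = Lm a * Lm b := by decide +kernel

theorem Aa_mul : ∀ k s k' s', Aa (k + if s = 0 then k' else -k') (s + s') = Aa k s * Aa k' s' := by
  decide +kernel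

theorem Aa_one : Aa 0 0 = 1 := by decide +kernel

theorem Aa_T : ∀ k s, Tm * Aa k s = Aa k s * Tm := by decide +kernel

theorem mu_A : ∀ k s, mu0 ᵥ* Aa k s = mu0 := by decide +kernel

theorem al_A : ∀ k, al0 ᵥ* Aa k 0 = al0 := by decide +kernel

theorem mu_T : mu0 ᵥ* Tm = 0 ∧ al0 ᵥ* Tm = 0 ∧ b0 ᵥ* Tm = mu0 := by decide +kernel

theorem mu_al : mu0 ⬝ᵥ al0 = 1 ∧ al0 ⬝ᵥ al0 = 1 := by decide +kernel

theorem six : ∀ a : ZMod 4, bn 1 a = 1 → ((6 : ℕ) : ZMod 4) * a = 2 := by decide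

/-- a Heisenberg triple of functionals -/
structure Tp (a : F) (u v w : I8 → F) : Prop where
  e0 : ∀ k s, ∃ c : F, u ᵥ* Aa k s = u + c • mu0
  e1 : ∀ k s, ∃ c : F, v ᵥ* Aa k s = v + (bn 1 k + a * s) • u + c • mu0
  e3 : w ᵥ* Aa 2 0 = w + u

theorem tp2 : Tp 1 b0 (Sum.elim ![0, 0, 1, 0] ![0, 1, 1, 0])
    (Sum.elim ![0, 0, 0, 1] ![0, 0, 0, 1]) := by
  constructor <;> decide +kernel

theorem tp1 : Tp 0 (al0 + b0) (Sum.elim ![0, 0, 1, 0] ![0, 0, 1, 0])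
    (Sum.elim ![0, 0, 1, 1] ![0, 0, 0, 1]) := by
  constructor <;> decide +kernel

/-- the group of the field -/
abbrev Ga (D : Dt) : Subgroup GQ := Gd D.d₁ D.d₂

/-- its character -/
abbrev sg (D : Dt) : GQ → F := nu (-((D.d₁ * D.d₂ : ℕ) : ℤ))

/-- the retraction -/
abbrev pr (D : Dt) : GQ → GQ := pj D.d₁ D.d₂ D.k

/-- the data of the layer, modulo four -/
structure Bs (D : Dt) (Q : Finset ℕ) (ε : ℕ → F) (c : ℕ) (f : GQ → ZMod 4) : Prop where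
  ok : D.Ok
  add : ∀ g ∈ Ga D, ∀ h ∈ Ga D, f (g * h) = f g + f h
  neg : ∀ g ∈ Ga D, f (D.k * g * D.k⁻¹) = -f g
  opn : ∃ U : Subgroup GQ, IsOpen (U : Set GQ) ∧ ∀ u ∈ U, f u = 0
  unr : ∀ l P, Ov l P → ¬ l ∣ c → ∀ g ∈ Ga D, Inert P g → f g = 0
  par : ∀ g ∈ Ga D, bn 1 (f g) = nu (D.d₁ * c : ℕ) g
  spl : ∀ q P, Ov q P → q ∣ c → dec P ≤ Ga D
  sq : Squarefree c
  sub : ∀ q ∈ Q, D.Gt q ∧ q ∣ c ∧ nu (D.d₁ * c : ℕ) (D.pl.σ q) = ε q
  oth : ∀ q : ℕ, q.Prime → q ∣ c → q ∈ Q ∨ (rb D.r (D.pl.σ q)).trace = 1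
  cy : ∀ q : ℕ, q.Prime → q ∣ c → q % 8 = 1 ∧ q ∉ D.S ∧ ¬ q ∣ D.d₁ * D.d₂
  fr : ∀ p ∈ D.S, p ≠ 2 → J(c | p) = 1

/-- the action on the induced module -/
def Am (D : Dt) (f : GQ → ZMod 4) (g : GQ) : Matrix I8 I8 F := Aa (f (pr D g)) (sg D g)

/-- the action on the tensor product -/
def act (D : Dt) (f : GQ → ZMod 4) (g : GQ) (Y : Nn) : Nn := Am D f g * Y * (rb D.r g)ᵀ

/-- the cocycles -/
structure Gx (D : Dt) (c : ℕ) (f : GQ → ZMod 4) (X : GQ → Nn) : Prop where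
  co : ∀ g h, X (g * h) = X g + act D f g (X h)
  opn : ∃ U : Subgroup GQ, IsOpen (U : Set GQ) ∧ ∀ u ∈ U, X u = 0
  unr : ∀ l P, Ov l P → l ∉ D.S → ¬ l ∣ c → ∀ g ∈ Ga D, Inert P g → X g = 0

variable {D : Dt} {Q : Finset ℕ} {ε : ℕ → F} {c l : ℕ} {f : GQ → ZMod 4} {g h : GQ}
  {P : Ideal (𝓞 Qb)} {X : GQ → Nn} {Y : Nn} {a : F} {u v w : I8 → F}

theorem Bs.rep (b : Bs D Q ε c f) : Rep D.r D.S := b.ok.rep

theorem Bs.nk (b : Bs D Q ε c f) : sg D D.k = 1 :=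
  nu_neg_conj (neg_neg_of_pos (Int.natCast_pos.2 (Nat.pos_of_ne_zero b.ok.cg.sq.ne_zero))) b.ok.cj

theorem Bs.pj_mem (b : Bs D Q ε c f) (g : GQ) : pr D g ∈ Ga D := by
  unfold pr pj
  split_ifs with a
  · exact a
  · rw [mem_kn, nu_mul, nG a]; exact (congrArg _ b.nk).trans rfl

theorem Bs.pj_nu (b : Bs D Q ε c f) (g : GQ) : bn 1 (f (pr D g)) = nu (D.d₁ * c : ℕ) g := by
  rw [b.par _ (b.pj_mem g), pr, pj]
  split_ifs
  · rfl
  · rw [nu_mul, nu_nat_conj _ b.ok.cj, add_zero]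

theorem pj_in (hg : g ∈ Ga D) (h : GQ) : pr D (g * h) = pr D g * pr D h := by
  rw [pr, pj_of hg, pj, pj]
  by_cases a : h ∈ Ga D
  · rw [if_pos a, if_pos (mul_mem hg a)]
  · rw [if_neg a, if_neg (mt (mul_mem_cancel_left hg).1 a), mul_assoc]

theorem Bs.pj_out (b : Bs D Q ε c f) (hg : g ∉ Ga D) (h : GQ) :
    pr D (g * h) = pr D g * (D.k * pr D h * D.k⁻¹) ∧ pr D g = g * D.k := by
  have e : ∀ u, g * D.k * (D.k * u * D.k⁻¹) = g * u * D.k⁻¹ := fun u => by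
    rw [show g * D.k * (D.k * u * D.k⁻¹) = g * (D.k * D.k) * u * D.k⁻¹ by group, kk b.ok.cj,
      mul_one]
  refine ⟨?_, if_neg hg⟩
  rw [pr, pj, pj, pj, if_neg hg, e]
  by_cases a : h ∈ Ga D
  · rw [if_pos a, if_neg (mt (mul_mem_cancel_right a).1 hg),
      inv_eq_of_mul_eq_one_right (kk b.ok.cj)]
  · rw [if_neg a, if_pos (by rw [mem_kn, nu_mul, nG hg, nG a]; rfl)]; group

theorem Bs.Am_mul (b : Bs D Q ε c f) (g h : GQ) : Am D f (g * h) = Am D f g * Am D f h := by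
  rw [Am, Am, Am, ← Aa_mul, sg, nu_mul]
  by_cases m : g ∈ Ga D
  · rw [if_pos (mem_kn.1 m), pj_in m, b.add _ (b.pj_mem _) _ (b.pj_mem _)]
  · rw [if_neg (show ¬ nu _ g = 0 from m), (b.pj_out m h).1,
      b.add _ (b.pj_mem _) _ (cjG (b.pj_mem _)), b.neg _ (b.pj_mem _)]

theorem Am_of (hg : g ∈ Ga D) : Am D f g = Aa (f g) 0 := by
  rw [Am, pr, pj_of hg, sg, mem_kn.1 hg]

theorem Bs.act_mul (b : Bs D Q ε c f) (g h : GQ) (Y : Nn) :
    act D f (g * h) Y = act D f g (act D f h Y) := by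
  simp only [act, b.Am_mul, b.rep.rb_mul, transpose_mul, Matrix.mul_assoc]

theorem act_triv (hg : g ∈ Ga D) (h0 : f g = 0) (h1 : rb D.r g = 1) (Y : Nn) :
    act D f g Y = Y := by
  rw [act, Am_of hg, h0, h1, Aa_one, transpose_one, Matrix.one_mul, Matrix.mul_one]

theorem fn_act (u : I8 → F) (g : GQ) (Y : Nn) :
    u ᵥ* act D f g Y = rb D.r g *ᵥ (u ᵥ* Am D f g ᵥ* Y) := by
  rw [act, ← vecMul_vecMul, ← vecMul_vecMul, vecMul_transpose]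

theorem mu_act (g : GQ) (Y : Nn) : mu0 ᵥ* act D f g Y = rb D.r g *ᵥ (mu0 ᵥ* Y) := by
  rw [fn_act, Am, mu_A]

theorem al_act (hg : g ∈ Ga D) (Y : Nn) : al0 ᵥ* act D f g Y = rb D.r g *ᵥ (al0 ᵥ* Y) := by
  rw [fn_act, Am_of hg, al_A]

theorem Tp.act0 (t : Tp a u v w) (hY : mu0 ᵥ* Y = 0) (g : GQ) :
    u ᵥ* act D f g Y = rb D.r g *ᵥ (u ᵥ* Y) := by
  obtain ⟨c, e⟩ := t.e0 (f (pr D g)) (sg D g)
  rw [fn_act, Am, e, add_vecMul, smul_vecMul, hY, smul_zero, add_zero]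

/-- the character of the triple -/
def th (D : Dt) (c : ℕ) (a : F) (g : GQ) : F := nu (D.d₁ * c : ℕ) g + a * sg D g

theorem Tp.act1 (t : Tp a u v w) (b : Bs D Q ε c f) (hY : mu0 ᵥ* Y = 0) (g : GQ) :
    v ᵥ* act D f g Y = rb D.r g *ᵥ (v ᵥ* Y + th D c a g • u ᵥ* Y) := by
  obtain ⟨c, e⟩ := t.e1 (f (pr D g)) (sg D g)
  rw [fn_act, Am, e, add_vecMul, add_vecMul, smul_vecMul, smul_vecMul, hY, smul_zero, add_zero,
    b.pj_nu, th]

theorem Gx.T (x : Gx D c f X) : Gx D c f fun g => Tm * X g :=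
  ⟨fun g h => by
    rw [x.co, Matrix.mul_add, act, act, Am, ← Matrix.mul_assoc, ← Matrix.mul_assoc, Aa_T,
      Matrix.mul_assoc _ Tm],
    x.opn.imp fun U e => ⟨e.1, fun u m => by rw [e.2 u m, Matrix.mul_zero]⟩,
    fun l P o n d g m i => by rw [x.unr l P o n d g m i, Matrix.mul_zero]⟩

theorem Bs.trv (b : Bs D Q ε c f) : ∃ U : Subgroup GQ, IsOpen (U : Set GQ) ∧ U.Normal ∧
    ∀ u ∈ U, u ∈ Ga D ∧ f u = 0 ∧ rb D.r u = 1 := by
  obtain ⟨U, o, e⟩ := b.opn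
  refine ⟨(Ga D ⊓ U ⊓ b.rep.Kn 1).normalCore, P022K.GW.Pl.core_open
    (((kn_open _).inter o).inter (b.rep.Kn_open 1)), inferInstance, fun u m => ?_⟩
  have := Subgroup.normalCore_le _ m
  exact ⟨this.1.1, e u this.1.2, b.rep.tr_one_iff.1 this.2⟩

theorem Gx.cob (x : Gx D c f X) (b : Bs D Q ε c f) (Y : Nn) :
    Gx D c f fun g => X g - (act D f g Y - Y) := by
  obtain ⟨U, o, e⟩ := x.opn
  obtain ⟨V, o', -, e'⟩ := b.trv
  refine ⟨fun g h => ?_, ⟨U ⊓ V, o.inter o', fun u m => ?_⟩, fun l P o n d g m i => ?_⟩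
  · rw [x.co, b.act_mul]
    simp only [act, Matrix.mul_sub, Matrix.sub_mul]
    abel
  · obtain ⟨p, q, s⟩ := e' u m.2
    rw [e u m.1, act_triv p q s, sub_self, sub_self]
  · rw [x.unr l P o n d g m i, act_triv m (b.unr l P o d g m i) (rb_in b.rep o n i), sub_self,
      sub_self]

theorem Bs.f_pow (b : Bs D Q ε c f) (hg : g ∈ Ga D) (n : ℕ) : f (g ^ n) = n * f g := by
  induction n with
  | zero => simpa using b.add 1 (one_mem _) 1 (one_mem _)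
  | succ n ih => rw [pow_succ, b.add _ (pow_mem hg n) g hg, ih]; push_cast; ring

theorem Bs.c8 (b : Bs D Q ε c f) : c % 8 = 1 := by
  have : ∀ c : ℕ, c ≠ 0 → (∀ q : ℕ, q.Prime → q ∣ c → q % 8 = 1) → c % 8 = 1 := fun c => by
    induction c using induction_on_primes with
    | zero => exact fun a => absurd rfl a
    | one => exact fun _ _ => rfl
    | prime_mul p a hp ih =>
      intro a0 h
      rw [Nat.mul_mod, h p hp (dvd_mul_right _ _), ih (right_ne_zero_of_mul a0)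
        fun q hq d => h q hq (d.mul_left _)]
  exact this c b.sq.ne_zero fun q hq d => (b.cy q hq d).1

/-- the places over `S` split in the field and are inert in the tower -/
theorem Bs.frob (b : Bs D Q ε c f) (o : Ov l P) (hl : l ∈ D.S) {φ : GQ} (hφ : Fb l P φ) :
    dec P ≤ Ga D ∧ f (φ ^ 6) = 2 ∧ ¬ l ∣ c ∧ ¬ l ∣ D.d₁ * D.d₂ := by
  have m1 := b.ok.cg.m1
  have m2 := b.ok.cg.m2
  have m3 : D.d₁ * D.d₂ % 8 = 7 := by rw [Nat.mul_mod, m1, m2]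
  have m5 : D.d₁ * c % 8 = 5 := by rw [Nat.mul_mod, m1, b.c8]
  suffices dec P ≤ Ga D ∧ nu (D.d₁ * c : ℕ) φ ≠ 0 ∧ ¬ l ∣ D.d₁ * D.d₂ by
    have m := this.1 (P022D.W.phi_mem o.1 o.2.1 hφ)
    exact ⟨this.1, by rw [b.f_pow m, six _ ((b.par φ m).trans ((z2 _).resolve_left this.2.1))],
      fun d => (b.cy l o.1 d).2.1 hl, this.2.2⟩
  by_cases l2 : l = 2
  · subst l2
    exact ⟨dec_two o (by omega), fun e => by
      have := (fb_two o (by omega) hφ).1 e; omega, by omega⟩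
  obtain ⟨j1, j2⟩ := b.ok.cg.jc l hl l2
  have j3 : J((D.d₁ * c : ℕ) | l) = -1 := by
    rw [Nat.cast_mul, jacobiSym.mul_left, j1, b.fr l hl l2, mul_one]
  rw [← Nat.cast_mul] at j2
  have n2 := nd_of o.1 (.inr j2)
  rw [nu_fb o l2 hφ n2] at j2
  rw [nu_fb o l2 hφ (nd_of o.1 (.inl j3))] at j3
  refine ⟨lt.dec_le o hφ (kn_open _) ?_ fun i hi => nu_inert o l2 n2 hi, fun e => ?_,
    fun d => n2 (dvd_neg.2 (Int.natCast_dvd_natCast.2 d))⟩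
  · by_contra e
    rw [if_neg (show ¬ nu _ φ = 0 from e)] at j2
    omega
  · rw [if_pos e] at j3
    omega

end Vale.Agent.P004C.Mu.Lv
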