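import Vale.Agent.P004C.Mu.Lv0

/-!
# P004 C, block MU, row LEV: the residual classes of a cocycle modulo `T ^ 4`
-/

set_option linter.all false

noncomputable section

namespace Vale.Agent.P004C.Mu.Lv

open NumberField Matrix
open scoped NumberTheorySymbols
open Vale.Agent.P022 (Qb GQ IsConj)
open Vale.Agent.P027M.S (Inert)
open Vale.Agent.P022D.W (dec conj_inP phi_mem)
open Vale.Agent.P022.H443 (inP)
open Vale.Agent.P022E.GW (Ov Fb Gn)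
open Vale.Agent.P004S Vale.Agent.P004S.Wg
open Vale.Agent.P004R.Mu

/-- a cocycle with values in the lattice, and a triple -/
structure Cx (D : Dt) (Q : Finset ℕ) (ε : ℕ → F) (c : ℕ) (f : GQ → ZMod 4) (X : GQ → Nn) (a : F)
    (u v w : I8 → F) : Prop where
  b : Bs D Q ε c f
  x : Gx D c f X
  t : Tp a u v w
  m : ∀ g, mu0 ᵥ* X g = 0

variable {D : Dt} {Q : Finset ℕ} {ε : ℕ → F} {c l : ℕ} {f : GQ → ZMod 4} {g h σ : GQ}
  {P : Ideal (𝓞 Qb)} {X : GQ → Nn} {Y : Nn} {a : F} {u v w : I8 → F}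

theorem act_zero : act D f g 0 = 0 := by rw [act, Matrix.mul_zero, Matrix.zero_mul]

theorem act_add (Y Z : Nn) : act D f g (Y + Z) = act D f g Y + act D f g Z := by
  rw [act, Matrix.mul_add, Matrix.add_mul]; rfl

theorem th_of (b : Bs D Q ε c f) (hg : g ∈ Ga D) : th D c a g = bn 1 (f g) := by
  rw [th, b.par g hg, sg, mem_kn.1 hg, mul_zero, add_zero]

theorem Cx.six (k : Cx D Q ε c f X a u v w) (o : Ov l P) (hl : l ∈ D.S) (hσ : Fb l P σ) (Y : Nn) :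
    w ᵥ* act D f (σ ^ 6) Y = w ᵥ* Y + u ᵥ* Y := by
  obtain ⟨p, q, -⟩ := k.b.frob o hl hσ
  rw [fn_act, Am_of (p (pow_mem (phi_mem o.1 o.2.1 hσ) 6)), q, k.t.e3, rb_six k.b.rep, one_mulVec,
    add_vecMul]

theorem Cx.xm (k : Cx D Q ε c f X a u v w) (g h : GQ) :
    u ᵥ* X (g * h) = u ᵥ* X g + rb D.r g *ᵥ (u ᵥ* X h) := by
  rw [k.x.co, vecMul_add, k.t.act0 (k.m h)]

theorem Cx.ym (k : Cx D Q ε c f X a u v w) (g h : GQ) :
    v ᵥ* X (g * h) = v ᵥ* X g + rb D.r g *ᵥ (v ᵥ* X h + th D c a g • u ᵥ* X h) := by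
  rw [k.x.co, vecMul_add, k.t.act1 k.b (k.m h)]

theorem Cx.zb (k : Cx D Q ε c f X a u v w) : Zb D.r fun g => u ᵥ* X g :=
  let ⟨U, o, e⟩ := k.x.opn
  ⟨lc_of_open o (one_mem U) fun g j m => by rw [k.x.co, e j m, act_zero, add_zero], k.xm⟩

theorem Cx.un (k : Cx D Q ε c f X a u v w) :
    Un (fun l => l ∉ D.S ∧ ¬ l ∣ D.d₁ * D.d₂ ∧ l ∉ (∅ : Finset ℕ) ∧ l ∉ Q) fun g => u ᵥ* X g := by
  rintro l P o ⟨n1, n2, -, n3⟩ g i
  have r := k.b.rep
  have l2 := r.ne_two n1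
  by_cases d : l ∣ c
  · obtain ⟨U, hU, e⟩ := k.x.opn
    have o' := D.pl.ov l o.1
    have t := D.pl.τ_inert o.1 l2
    have := (fr_inv o' l2 (D.pl.fb l o.1) (U := ⊤) hU w2 (f := fun g => u ᵥ* X g)
      (fun g m j _ => by rw [k.xm, rb_in r o' n1 m.2, one_mulVec])
      (fun j m => by rw [e j m, vecMul_zero]) ⟨trivial, t⟩).2
    rw [k.zb.conj r _ (rb_in r o' n1 t)] at this
    exact lt.un_tau r D.pl o.1 n1 k.zb (mo _ _ ((mt1 _ (det_rb r _)).1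
      ((k.b.oth l o.1 d).resolve_left n3)) this) o i
  · show u ᵥ* X g = 0
    rw [k.x.unr l P o n1 d g (nu_inert o l2 (fun e => n2 (Int.natCast_dvd_natCast.1
      (dvd_neg.1 e))) i) i, vecMul_zero]

theorem Cx.ur (k : Cx D Q ε c f X a u v w) (o : Ov l P) (hl : l ∈ D.S) (l2 : l ≠ 2)
    (hσ : Fb l P σ) : Cb D.r {g | Inert P g} fun g => u ᵥ* X g := by
  have r := k.b.rep
  obtain ⟨p, -, d, -⟩ := k.b.frob o hl hσ
  obtain ⟨U, hU, e⟩ := k.x.opn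
  refine cob_of r (A := inP P) (fun g _ j _ => k.xm g j) fun i hi h1 => ?_
  have tv : ∀ g ∈ r.Kn 1 ⊓ inP P, ∀ Y, act D f g Y = Y := fun g m =>
    have s := p (inert_dec m.2)
    act_triv s (k.b.unr l P o d g s m.2) (r.tr_one_iff.1 m.1)
  haveI := r.Kn_normal 1
  obtain ⟨m, e1⟩ := fr_inv o l2 hσ (U := r.Kn 1) hU (f := X)
    (fun Y => Matrix.ext fun _ _ => CharTwo.add_self_eq_zero _)
    (fun g m j _ => by rw [k.x.co, tv g m]) e ⟨r.tr_one_iff.2 h1, hi⟩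
  have e2 := k.x.co (σ * i * σ⁻¹) σ
  rw [inv_mul_cancel_right, k.x.co, tv _ m, e1, add_comm, add_left_inj] at e2
  have e3 : ∀ n, act D f (σ ^ (n + 1)) (X i) = X i := fun n => by
    induction n with
    | zero => rw [zero_add, pow_one, e2]
    | succ n ih => rw [pow_succ, k.b.act_mul, e2, ih]
  have := k.six o hl hσ (X i)
  rw [e3 5] at this
  exact left_eq_add.1 this

theorem Cx.ot (k : Cx D Q ε c f X a u v w) (o : Ov 2 P) (hσ : Fb 2 P σ) :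
    Ot D.r P fun g => u ᵥ* X g := by
  intro y y1 y2 y3
  have r := k.b.rep
  obtain ⟨p, -, d, -⟩ := k.b.frob o r.two hσ
  have s := phi_mem o.1 o.2.1 hσ
  have y0 := y3 1 (inert_one P)
  obtain ⟨t, t1, t2⟩ := isOpen_induced_iff.1 (y1.isOpen_fiber 0)
  obtain ⟨U, hU, e⟩ := ex_open (t1.mem_nhds (Set.ext_iff.1 t2 1 |>.2 y0))
  obtain ⟨V, hV, nV, e'⟩ := k.b.trv
  let φ : Nn → F := fun Y => wp (y σ⁻¹) (w ᵥ* Y)
  let Φ : Nn → F := fun Y => ∑ n ∈ Finset.range 6, φ (act D f (σ ^ n) Y)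
  let H : GQ → Prop := fun g => g ∈ dec P ∧ ∀ Y, mu0 ᵥ* Y = 0 →
    Φ Y + Φ (act D f g Y) = wp (y g) (u ᵥ* act D f g Y)
  have t2' := CharTwo.two_eq_zero (R := F)
  have h1 : ∀ g h, H g → H h → H (g * h) := fun g h a b => ⟨mul_mem a.1 b.1, fun Y m => by
    have n : mu0 ᵥ* act D f h Y = 0 := by rw [mu_act, m, mulVec_zero]
    have a2 := a.2 _ n
    have b2 := b.2 Y m
    rw [k.b.act_mul, y2 g a.1 h b.1, wp_add_left, ← a2, k.t.act0 n, r.wp_rb, ← b2]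
    linear_combination -Φ (act D f h Y) * t2'⟩
  have h2 : H σ := ⟨s, fun Y m => by
    have a1 : Φ (act D f σ Y) + φ (act D f (σ ^ 0) Y) = Φ Y + φ (act D f (σ ^ 6) Y) := by
      simp only [Φ, ← k.b.act_mul, ← pow_succ]
      exact (Finset.sum_range_succ' (fun n => φ (act D f (σ ^ n) Y)) 6).symm.trans
        (Finset.sum_range_succ _ 6)
    have a2 := y2 σ s _ (inv_mem s)
    rw [mul_inv_cancel, y0, eq_comm, add_eq_zero_iff_eq_neg, wn] at a2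
    have a3 : φ (act D f (σ ^ 6) Y) = φ Y + wp (y σ⁻¹) (u ᵥ* Y) := by
      simp only [φ, k.six o r.two hσ, wp_add_right]
    have a4 : act D f (σ ^ 0) Y = Y := by
      obtain ⟨a, b, c⟩ := e' 1 (one_mem V)
      rw [pow_zero, act_triv a b c]
    rw [a3, a4] at a1
    rw [a2, k.t.act0 m, r.wp_rb]
    linear_combination a1 + Φ Y * t2'⟩
  let J : GQ → Prop := fun j => j ∈ dec P ∧ (Inert P j ∨ j ∈ U.normalCore ⊓ V)
  have j1 : ∀ j, J j → ∀ t ∈ dec P, J (t * j * t⁻¹) := fun j a t b =>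
    ⟨mul_mem (mul_mem b a.1) (inv_mem b), a.2.imp (conj_inP b) fun m =>
      ⟨U.normalCore_normal.conj_mem j m.1 t, nV.conj_mem j m.2 t⟩⟩
  have j2 : ∀ j, J j → y j = 0 := fun j a => a.2.elim (y3 j) fun m =>
    (Set.ext_iff.1 t2 ⟨j, a.1⟩).1 (e (U.normalCore_le m.1))
  have j3 : ∀ j, J j → ∀ Y, φ (act D f j Y) = φ Y := fun j a Y => by
    have a1 := y2 j a.1 _ (inv_mem s)
    rw [show j * σ⁻¹ = σ⁻¹ * (σ * j * σ⁻¹) by group, y2 _ (inv_mem s) _ (j1 j a σ s).1,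
      j2 _ (j1 j a σ s), j2 j a, mulVec_zero, add_zero, zero_add] at a1
    simp only [φ]
    rw [fn_act, Am_of (p a.1), a.2.elim (k.b.unr 2 P o d j (p a.1)) fun m => (e' j m.2).2.1, Aa_one,
      vecMul_one, ← r.wp_rb j (y σ⁻¹) (w ᵥ* Y), ← a1]
  have h3 : ∀ j, J j → H j := fun j a => ⟨a.1, fun Y _ => by
    rw [j2 j a, wp_zero_left, CharTwo.add_eq_zero]
    refine Finset.sum_congr rfl fun n _ => ?_
    rw [← k.b.act_mul, ← j3 _ (j1 j a _ (pow_mem s n)), ← k.b.act_mul, inv_mul_cancel_right]⟩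
  have h4 : ∀ g ∈ dec P, H g := fun g hg => by
    obtain ⟨n, i, hi, m⟩ := (lt 2 P o).2 σ g hσ hg (U.normalCore ⊓ V)
      ((P022K.GW.Pl.core_open hU).inter hV)
    have a : H (σ ^ n) := by
      clear m
      induction n with
      | zero => exact h3 _ ⟨pow_mem s 0, .inl (pow_zero σ ▸ inert_one P)⟩
      | succ n ih => exact pow_succ σ n ▸ h1 _ _ ih h2
    rw [← mul_inv_cancel_left (σ ^ n * i) g]
    exact h1 _ _ (h1 _ _ a (h3 i ⟨inert_dec hi, .inl hi⟩)) (h3 _ ⟨mul_mem (inv_mem (mul_mem a.1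
      (inert_dec hi))) hg, .inr m⟩)
  obtain ⟨U', hU', e2⟩ := k.x.opn
  have oc := P022K.GW.Pl.core_open hU'
  refine ⟨fun h => Φ (X h), ⟨U'.normalCore, ⟨inferInstance, oc, ⟨idx_ne oc⟩, Set.empty_subset _⟩,
    fun g _ j _ m => by
      simp only [k.x.co, e2 j (U'.normalCore_le m), act_zero, add_zero]⟩, fun g hg h _ => ?_⟩
  have := (h4 g hg).2 _ (k.m h)
  rw [k.t.act0 (k.m h)] at this
  show wp _ _ = Φ (X h) - Φ (X (g * h)) + Φ (X g)
  have ad : ∀ Y Z, Φ (Y + Z) = Φ Y + Φ Z := fun Y Z => by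
    simp only [Φ, φ, act_add, vecMul_add, wp_add_right, Finset.sum_add_distrib]
  rw [← this, k.x.co, ad]
  linear_combination Φ (act D f g (X h)) * t2'

theorem Bs.ne (b : Bs D Q ε c f) : (D.d₁ : ℤ) ≠ 0 ∧ (c : ℤ) ≠ 0 :=
  ⟨Int.natCast_ne_zero.2 (left_ne_zero_of_mul b.ok.cg.sq.ne_zero),
    Int.natCast_ne_zero.2 b.sq.ne_zero⟩

theorem Cx.tw (k : Cx D Q ε c f X a u v w) {q : ℕ} (hq : q ∈ Q) :
    u ᵥ* X (D.pl.σ q) = ε q • u ᵥ* X (D.pl.τ q) := by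
  have r := k.b.rep
  obtain ⟨G, d, e⟩ := k.b.sub q hq
  have o := D.pl.ov q G.pr
  have q2 := r.ne_two G.nS
  have t := D.pl.gn q G.pr q2
  have s := D.pl.σ_dec G.pr
  have p := k.b.spl q _ o d
  have r1 : ∀ g ∈ dec (D.pl.P q), rb D.r g = 1 := fun g m => r.tr_one_iff.1
    (lt.dec_le o (D.pl.fb q G.pr) (r.Kn_open 1) (r.tr_one_iff.2 G.one) (r.Kn_uns 1 q _ o G.nS) m)
  have t1 : bn 1 (f (D.pl.τ q)) = 1 := by
    rw [k.b.par _ (p (inert_dec t.1)), Nat.cast_mul, nu_mul_left k.b.ne.1 k.b.ne.2,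
      nu_inert o q2 (fun e => G.nd ((Int.natCast_dvd_natCast.1 e).mul_right _)) t.1,
      nu_tau o q2 (Int.squarefree_natCast.2 k.b.sq) (Int.natCast_dvd_natCast.2 d) t, zero_add]
  obtain ⟨U, hU, e1⟩ := k.x.opn
  obtain ⟨V, hV, e2⟩ := k.b.opn
  funext i
  have := Hs.lem (θ := fun g => bn 1 (f g))
    (x := fun g => (u ᵥ* X g) i + (u ᵥ* X (D.pl.τ q)) i * bn 1 (f g))
    (y := fun g => (v ᵥ* X g) i + (u ᵥ* X (D.pl.τ q)) i * bn 2 (f g))
    ⟨⟨U ⊓ V, hU.inter hV, fun j m => by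
      rw [e1 j m.1, e2 j m.2, show bn 1 0 = 0 by decide, show bn 2 0 = 0 by decide]; simp⟩,
    fun g m h n => by rw [k.b.add g (p m) h (p n), bn1], fun g m h n => by
      rw [k.xm, r1 g m, one_mulVec, k.b.add g (p m) h (p n), bn1, Pi.add_apply]; ring,
    fun g m h n => by
      rw [k.ym, r1 g m, one_mulVec, k.b.add g (p m) h (p n), bn2, th_of k.b (p m)]
      simp only [Pi.add_apply, Pi.smul_apply, smul_eq_mul]
      ring⟩ o q2 t s (by rw [t1, mul_one, CharTwo.add_self_eq_zero, mul_zero])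
  rw [t1, mul_one, CharTwo.add_self_eq_zero, mul_zero, one_mul, k.b.par _ (p s), e, eq_comm,
    CharTwo.add_eq_zero] at this
  rw [this, Pi.smul_apply, smul_eq_mul, mul_comm]

theorem Bs.out (b : Bs D Q ε c f) (hl : l.Prime) (d : l ∣ D.d₁ * D.d₂) : l ∉ D.S ∧ ¬ l ∣ c :=
  ⟨fun m => (b.frob (D.pl.ov l hl) m (D.pl.fb l hl)).2.2.2 d, fun m => (b.cy l hl m).2.2 d⟩

theorem Cx.str (k : Cx D Q ε c f X a u v w) (hl : l.Prime) (d : l ∣ D.d₁ * D.d₂)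
    (ht : th D c a (D.pl.τ l) = 1) : Cb D.r (dec (D.pl.P l)) fun g => u ᵥ* X g := by
  have r := k.b.rep
  obtain ⟨n1, n2⟩ := k.b.out hl d
  have o := D.pl.ov l hl
  have t := D.pl.τ_inert hl (r.ne_two n1)
  set τ := D.pl.τ l
  have e1 := k.ym τ τ
  rw [k.x.unr l _ o n1 n2 _ (sqG τ) (inert_mul t t), vecMul_zero, rb_in r o n1 t, one_mulVec, ht,
    one_smul, ← add_assoc, w2, zero_add] at e1
  refine ⟨v ᵥ* X τ, fun g m => ?_⟩
  have i := conj_inP m t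
  have j := mul_mem i (inv_mem (show τ ∈ inP _ from t))
  have e2 := k.ym (g * τ * g⁻¹ * τ⁻¹) τ
  rw [inv_mul_cancel_right, k.x.unr l _ o n1 n2 _ (by
    rw [mem_kn, nu_mul, nu_conj, nu_inv, CharTwo.add_self_eq_zero]) j, rb_in r o n1 j, ← e1,
    vecMul_zero, smul_zero, add_zero, zero_add, one_mulVec] at e2
  have e3 := k.ym (g * τ * g⁻¹) g
  rw [inv_mul_cancel_right, k.ym, ← e1, e2, rb_in r o n1 i, show th D c a (g * τ * g⁻¹) = 1 by
    rw [← ht, th, th, sg, nu_conj, nu_conj], smul_zero, add_zero, one_mulVec, one_smul] at e3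
  linear_combination -e3

theorem Cx.inf (k : Cx D Q ε c f X a u v w) (ht : th D c a D.k = 1) :
    Cb D.r {D.k} fun g => u ᵥ* X g := by
  obtain ⟨U, -, e⟩ := k.x.opn
  have e1 := congrArg (rb D.r D.k *ᵥ ·) (k.ym D.k D.k)
  simp only [kk k.b.ok.cj, e 1 (one_mem U), vecMul_zero, mulVec_zero, ht, one_smul, mulVec_add,
    mulVec_mulVec, ← k.b.rep.rb_mul, rb_one, one_mulVec] at e1
  refine ⟨v ᵥ* X D.k, fun g m => ?_⟩
  rw [Set.mem_singleton_iff.1 m]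
  linear_combination -e1 - w2 (rb D.r D.k *ᵥ v ᵥ* X D.k)

theorem Cx.sc (k : Cx D Q ε c f X a u v w) {p s : Prop} {d : ℕ} (hd : d ∣ D.d₁ * D.d₂)
    (h2 : p → Cb D.r {g | Inert (D.pl.P 2) g} fun g => u ᵥ* X g) (hs : s → th D c a D.k = 1)
    (ht : ∀ l : ℕ, l.Prime → l ∣ d → th D c a (D.pl.τ l) = 1) :
    (fun g => u ᵥ* X g) ∈ D.Sl p s d ∅ Q ε :=
  ⟨k.zb, k.un, fun p m n => have h := k.b.ok.pr p m; k.ur (D.pl.ov p h) m n (D.pl.fb p h),
    k.ot (D.pl.ov 2 Nat.prime_two) (D.pl.fb 2 Nat.prime_two), h2, fun m => k.inf (hs m),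
    fun l h m => k.str h (m.trans hd) (ht l h m), fun q m => k.tw m⟩

theorem Bs.tau (b : Bs D Q ε c f) (hl : l.Prime) (d : l ∣ D.d₁ * D.d₂) :
    sg D (D.pl.τ l) = 1 ∧ (l ∣ D.d₁ → nu (D.d₁ * c : ℕ) (D.pl.τ l) = 1) ∧
      (l ∣ D.d₂ → nu (D.d₁ * c : ℕ) (D.pl.τ l) = 0) := by
  obtain ⟨n1, n2⟩ := b.out hl d
  have o := D.pl.ov l hl
  have l2 := b.rep.ne_two n1
  have t := D.pl.gn l hl l2
  refine ⟨nu_tau o l2 (by
    rw [← Int.squarefree_natAbs, Int.natAbs_neg, Int.natAbs_natCast]; exact b.ok.cg.sq)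
    (dvd_neg.2 (Int.natCast_dvd_natCast.2 d)) t, fun m => ?_, fun m => nu_inert o l2 (fun e => ?_) t.1⟩
  · rw [Nat.cast_mul, nu_mul_left b.ne.1 b.ne.2,
      nu_inert o l2 (mt Int.natCast_dvd_natCast.1 n2) t.1, nu_tau o l2 (Int.squarefree_natCast.2
        b.ok.cg.sq.of_mul_left) (Int.natCast_dvd_natCast.2 m) t, add_zero]
  · exact (hl.dvd_mul.1 (Int.natCast_dvd_natCast.1 e)).elim
      (fun e => hl.prime.not_unit (b.ok.cg.sq l (mul_dvd_mul e m))) n2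

theorem Bs.res (b : Bs D Q ε c f) (K : D.Kl Q ε) (x : Gx D c f X) (m : ∀ g, mu0 ᵥ* X g = 0)
    (o : Ov 2 P) (h : Cb D.r {g | Inert P g} fun g => al0 ᵥ* X g) :
    (Cb D.r Set.univ fun g => b0 ᵥ* X g) ∧ Cb D.r Set.univ fun g => al0 ᵥ* X g := by
  have k2 : Cx D Q ε c f X _ _ _ _ := ⟨b, x, tp2, m⟩
  have k1 : Cx D Q ε c f X _ _ _ _ := ⟨b, x, tp1, m⟩
  have e : (fun g => (al0 + b0) ᵥ* X g) = (fun g => al0 ᵥ* X g) + fun g => b0 ᵥ* X g :=
    funext fun g => add_vecMul _ _ _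
  have h2 := K.1 _ (k2.sc (dvd_mul_left _ _) False.elim (fun _ => by
    rw [th, nu_nat_conj _ b.ok.cj, b.nk]; rfl) fun l h d => by
      obtain ⟨p, -, q⟩ := b.tau h (d.mul_left _)
      rw [th, p, q d]; rfl)
  have h1 := K.2 _ (k1.sc (dvd_mul_right _ _) (fun _ => Cb.ine b.rep k1.zb o
    (D.pl.ov 2 Nat.prime_two) (e ▸ h.add (h2.mono (Set.subset_univ _)))) False.elim fun l h d => by
      rw [th, (b.tau h (d.mul_right _)).2.1 d, zero_mul, add_zero])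
  have := h1.add h2
  rw [e, add_assoc, show ((fun g => b0 ᵥ* X g) + fun g => b0 ᵥ* X g) = 0 from funext fun g => w2 _,
    add_zero] at this
  exact ⟨h2, this⟩

theorem Bs.core (b : Bs D Q ε c f) (K : D.Kl Q ε) (x : Gx D c f X) (o : Ov 2 P)
    (h : Cb D.r {g | Inert P g} fun g => al0 ᵥ* X g) : Cb D.r (Ga D) fun g => al0 ᵥ* X g := by
  obtain ⟨v, hv⟩ := (b.res K x.T (fun g => by rw [← vecMul_vecMul, mu_T.1, zero_vecMul]) o
    ⟨0, fun g _ => by simp only [← vecMul_vecMul, mu_T.2.1, zero_vecMul, mulVec_zero, sub_self]⟩).1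
  simp only [← vecMul_vecMul, mu_T.2.2] at hv
  have e : ∀ g ∈ Ga D, al0 ᵥ* (X g - (act D f g (vecMulVec al0 v) - vecMulVec al0 v)) =
      al0 ᵥ* X g - (rb D.r g *ᵥ v - v) := fun g m => by
    rw [vecMul_sub, vecMul_sub, al_act m, vecMul_vecMulVec, mu_al.2, one_smul]
  obtain ⟨w, hw⟩ := h
  obtain ⟨τ, σ, -, s, -⟩ := ex_st o
  obtain ⟨y, hy⟩ := (b.res K (x.cob b (vecMulVec al0 v)) (fun g => by
    rw [vecMul_sub, vecMul_sub, mu_act, vecMul_vecMulVec, mu_al.1, one_smul, hv g trivial,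
      sub_self]) o ⟨w - v, fun g m => by
    simp only [e g ((b.frob o b.rep.two s).1 (inert_dec m)), hw g m, mulVec_sub]; abel⟩).2
  refine ⟨y + v, fun g m => ?_⟩
  have := hy g trivial
  simp only [e g m] at this
  rw [mulVec_add]
  linear_combination this

end Vale.Agent.P004C.Mu.Lv
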