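import Vale.Agent.P004C.Mu.St0
import Vale.Agent.P004R.Part
import Vale.Agent.P004R.Twr0
import Vale.Agent.P004R.Mu0

/-!
# P004 C, block MU, row PW: partitions with weights
-/

set_option linter.all false

noncomputable section

namespace Vale.Agent.P004C.Mu

open Finset
open scoped NumberTheorySymbols
open Vale.Agent.P004T

namespace Pv

variable {w : ℕ → ℕ} {S : Finset ℕ}

/-- the weight -/
def wt (w : ℕ → ℕ) (n : ℕ) : ℕ := ∑ l ∈ n.primeFactors, w l

theorem wt_mul {n p : ℕ} (hp : p.Prime) (e : ¬ p ∣ n) : wt w (n * p) = wt w n + w p := by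
  have c := ((Nat.Prime.coprime_iff_not_dvd hp).2 e).symm
  rw [wt, c.primeFactors_mul, sum_union c.disjoint_primeFactors, hp.primeFactors, sum_singleton, wt]

theorem sq_mul {n p : ℕ} (h : Squarefree n) (hp : p.Prime) (e : ¬ p ∣ n) : Squarefree (n * p) :=
  (P004R.Pt.step h hp e).1

theorem ind {P : ℕ → Prop} (h1 : P 1) (hm : ∀ n p, p.Prime → ¬ p ∣ n → P n → P (n * p)) {n : ℕ}
    (h : Squarefree n) : P n := by
  induction n using induction_on_primes with
  | zero => exact absurd h not_squarefree_zero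
  | one => exact h1
  | prime_mul p a hp ih =>
    rw [mul_comm]
    exact hm a p hp (fun e => hp.prime.not_unit (h p (mul_dvd_mul_left p e))) (ih h.of_mul_right)

theorem split (hw : ∀ l, w l ≤ 2) {n : ℕ} (h : Squarefree n) :
    ∃ a b, n = a * b ∧ wt w b ≤ wt w a ∧ wt w a ≤ wt w b + 2 := by
  refine ind (P := fun n => ∃ a b, n = a * b ∧ wt w b ≤ wt w a ∧ wt w a ≤ wt w b + 2)
    ⟨1, 1, rfl, le_rfl, by omega⟩ ?_ h
  rintro _ p hp e ⟨a, b, rfl, h1, h2⟩
  have := wt_mul (w := w) hp fun c : p ∣ b => e (c.mul_left a)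
  have := hw p
  by_cases c : wt w (b * p) ≤ wt w a
  · exact ⟨a, b * p, mul_assoc _ _ _, c, by omega⟩
  · exact ⟨b * p, a, by ring, by omega, by omega⟩

theorem par {Δ : ℤ} (h1 : ∀ l : ℕ, l.Prime → (l : ℤ) ∣ Δ → l ∈ S)
    (h2 : ∀ l : ℕ, l.Prime → l ∉ S → (Odd (w l) ↔ J(Δ | l) = -1)) {n : ℕ} (h : Squarefree n) :
    (∀ p ∈ S, ¬ p ∣ n) → J(Δ | n) = (-1) ^ wt w n := by
  refine ind (P := fun n => (∀ p ∈ S, ¬ p ∣ n) → J(Δ | n) = (-1) ^ wt w n) (by simp [wt]) ?_ h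
  intro n p hp e ih hS
  have pS : p ∉ S := fun c => hS p c (dvd_mul_left _ _)
  rw [jacobiSym.mul_right' _ (fun c => e (by simp [c])) hp.ne_zero, wt_mul hp e, pow_add,
    ih fun q a c => hS q a (c.mul_right _)]
  congr 1
  rcases Nat.even_or_odd' (w p) with ⟨k, c | c⟩
  · rw [c, pow_mul, neg_one_sq, one_pow]
    refine (jacobiSym.eq_one_or_neg_one ?_).resolve_right fun a => ?_
    · exact Int.isCoprime_iff_gcd_eq_one.1 (((Nat.prime_iff_prime_int.1 hp).irreducible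
        |>.coprime_iff_not_dvd).2 fun a => pS (h1 p hp a)).symm
    · have := Nat.odd_iff.1 ((h2 p hp pS).2 a)
      omega
  · rw [(h2 p hp pS).1 ⟨k, c⟩, Odd.neg_one_pow ⟨k, c⟩]

theorem sign {Δ : ℤ} (h0 : Δ ≠ 0) (h1 : ∀ l : ℕ, l.Prime → (l : ℤ) ∣ Δ → l ∈ S) {δ : ℕ}
    (h8 : δ % 8 = 7) (hj : ∀ p ∈ S, p ≠ 2 → J(-δ | p) = 1) :
    J(Δ | δ) = if Δ < 0 then -1 else 1 := by
  have o : Odd δ := Nat.odd_iff.2 (by omega)
  have e : J(Δ.natAbs | δ) = 1 := P004R.Wr.jac_nat δ _ (Int.natAbs_ne_zero.2 h0) fun x hx d => by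
    by_cases c : x = 2
    · rw [c, Nat.cast_two, jacobiSym.at_two o, ZMod.χ₈_nat_eq_if_mod_eight, if_neg (by omega),
        if_pos (by omega)]
    have ox := hx.odd_of_ne_two c
    have := hj x (h1 x hx (Int.natCast_dvd.2 d)) c
    rw [jacobiSym.neg _ ox] at this
    rcases Nat.odd_mod_four_iff.1 (Nat.odd_iff.1 ox) with a | a
    · rwa [ZMod.χ₄_nat_one_mod_four a, one_mul,
        ← jacobiSym.quadratic_reciprocity_one_mod_four a o] at this
    · rwa [ZMod.χ₄_nat_three_mod_four a, neg_one_mul,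
        ← jacobiSym.quadratic_reciprocity_three_mod_four a (by omega)] at this
  split_ifs with c
  · rw [show Δ = -Δ.natAbs by omega, jacobiSym.neg _ o, e,
      ZMod.χ₄_nat_three_mod_four (by omega), mul_one]
  · rwa [show Δ = Δ.natAbs by omega]

theorem ex_t (hS : ∀ p ∈ S, p.Prime) : ∃ t : ℕ, t % 8 = 5 ∧ ∀ p ∈ S, p ≠ 2 → J(t | p) = -1 := by
  induction S using Finset.induction_on with
  | empty => exact ⟨5, rfl, by simp⟩
  | insert p S h ih =>
    obtain ⟨t, t1, t2⟩ := ih fun q a => hS q (mem_insert_of_mem a)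
    have hp := hS p (mem_insert_self _ _)
    by_cases c : p = 2
    · exact ⟨t, t1, fun q a n => t2 q ((mem_insert.1 a).resolve_left (c ▸ n)) n⟩
    have := Fact.mk hp
    obtain ⟨a, ha⟩ := FiniteField.exists_nonsquare (F := ZMod p) (by rwa [ZMod.ringChar_zmod_n])
    obtain ⟨s, s1, s2⟩ := Nat.chineseRemainder (n := p) (m := 8 * ∏ q ∈ S, q) (Nat.Coprime.mul_right
      ((Nat.coprime_two_right.2 (hp.odd_of_ne_two c)).pow_right 3) (Nat.Coprime.prod_right
        fun q m => (Nat.coprime_primes hp (hS q (mem_insert_of_mem m))).2 fun e => h (e ▸ m)))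
      a.val t
    refine ⟨s, Eq.trans (s2.of_mul_right _) t1, fun q m n => ?_⟩
    rcases mem_insert.1 m with rfl | m
    · rw [ZMod.nonsquare_iff_jacobiSym_eq_neg_one, Int.cast_natCast,
        (ZMod.natCast_eq_natCast_iff _ _ _).2 s1, ZMod.natCast_zmod_val]
      exact ha
    · rw [← t2 q m n]
      exact jacobiSym.mod_left' (by
        exact_mod_cast (s2.of_mul_left _).of_dvd (dvd_prod_of_mem (fun q => q) m))

theorem ar {a b x y c : ℕ} (h1 : b ≤ a) (h2 : a ≤ b + 2) (h3 : x ≤ 1) (h4 : y ≤ 1) (h5 : c ≤ 1)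
    (h : (a + b + x + y) % 2 = c) :
    b + y = a + x + c ∨ b + y + 2 = a + x + c ∨ b + y + 4 = a + x + c := by omega

end Pv

open Pv in
/-- **row PW** -/
theorem pw : PW := fun S B w Δ hS h2 hw sΔ hΔ od s1 s2 => by
  obtain ⟨t, t8, tj⟩ := ex_t hS
  have M0 : 0 < 8 * ∏ p ∈ S, p := mul_pos (by norm_num) (prod_pos fun p a => (hS p a).pos)
  have Md : ∀ p ∈ S, p ∣ 8 * ∏ p ∈ S, p := fun p a => (dvd_prod_of_mem (fun q => q) a).mul_left _
  have M8 : 8 ∣ 8 * ∏ p ∈ S, p := dvd_mul_right _ _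
  generalize 8 * ∏ p ∈ S, p = M at M0 Md M8
  have a1 : ∀ N x : ℕ, ∃ l, N < l ∧ l.Prime ∧ w l ≤ 1 ∧ ((∀ p ∈ S, ¬ p ∣ x) → l % 8 = x % 8 ∧
      ∀ p ∈ S, p ≠ 2 → J(l | p) = J(x | p)) := fun N x => by
    by_cases c : ∀ p ∈ S, ¬ p ∣ x
    · obtain ⟨l, a, b, d, e, f⟩ := s1 x c (range (N + 1))
      exact ⟨l, by simpa using a, b, f, fun _ => ⟨d, e⟩⟩
    · obtain ⟨l, a, b, -, -, f⟩ := s1 1 (fun p a e => (hS p a).ne_one (Nat.dvd_one.1 e))
        (range (N + 1))
      exact ⟨l, by simpa using a, b, f, fun e => absurd e c⟩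
  choose f f1 f2 f3 f4 using a1
  have bd : ∀ N, ∃ N', ∀ x, f N (x % M) ≤ N' := fun N => ⟨∑ r ∈ range M, f N r, fun x =>
    single_le_sum (f := f N) (fun _ _ => zero_le) (mem_range.2 (Nat.mod_lt _ M0))⟩
  obtain ⟨N₁, h1⟩ := bd M
  obtain ⟨N₂, h2'⟩ := bd N₁
  obtain ⟨u, u1, up, u8, uj, uw⟩ := s2 (range (N₂ + 1))
  obtain ⟨v, v1, vp, v8, vj, vw⟩ := s2 (range (u + 1))
  simp only [mem_range, not_lt] at u1 v1
  refine P004R.Pt.posd_mul (posd_sqf (a := 1) v.factorial_pos (by simp) B)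
    (K := v * v * (v * v)) (by have := vp.pos; positivity) fun n ⟨n1, n2, n3⟩ => ?_
  have nd {p : ℕ} (hp : p.Prime) (h : p ≤ v) : ¬ p ∣ n := fun e => hp.ne_one (Nat.dvd_one.1
    (((n2.of_dvd (Nat.dvd_factorial hp.pos h)).dvd_iff dvd_rfl).1 e))
  obtain ⟨a, b, rfl, w1, w2⟩ := split hw n1
  have Mv : M ≤ v := by
    have := f1 M (0 % M); have := h1 0; have := f1 N₁ (0 % M); have := h2' 0; omega
  have pM : ∀ p ∈ S, p ≤ M := fun p m => Nat.le_of_dvd M0 (Md p m)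
  have nS : ∀ p ∈ S, ¬ p ∣ a * b := fun p m => nd (hS p m) ((pM p m).trans Mv)
  have tS : ∀ p ∈ S, ¬ p ∣ t := fun p m c => by
    by_cases e : p = 2
    · subst e; omega
    · exact P004R.Mu.nd_of (hS p m) (.inl (tj p m e)) (Int.natCast_dvd_natCast.2 c)
  have key : ∀ (N c s : ℕ), (∀ p ∈ S, ¬ p ∣ c) → (∀ p ∈ S, ¬ p ∣ s) →
      c * f N (c * s % M) % 8 = s % 8 ∧
        ∀ p ∈ S, p ≠ 2 → J((c * f N (c * s % M) : ℕ) | p) = J(s | p) := fun N c s hc hs => by
    obtain ⟨k1, k2⟩ := f4 N (c * s % M) fun p m e =>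
      ((hS p m).dvd_mul.1 ((Nat.dvd_mod_iff (Md p m)).1 e)).elim (hc p m) (hs p m)
    refine ⟨?_, fun p m n => ?_⟩
    · have := hc 2 h2
      rw [Nat.mul_mod, k1, Nat.mod_mod_of_dvd _ M8, ← Nat.mul_mod, ← mul_assoc, Nat.mul_mod,
        Nat.mul_mod c]
      rcases (by omega : c % 8 = 1 ∨ c % 8 = 3 ∨ c % 8 = 5 ∨ c % 8 = 7) with e | e | e | e <;>
        simp [e]
    · rw [Nat.cast_mul, jacobiSym.mul_left, k2 p m n, jacobiSym.mod_left' (a₁ := (c * s % M : ℕ))
        (a₂ := (c * s : ℕ)) (by exact_mod_cast Nat.mod_mod_of_dvd _ (Md p m)), Nat.cast_mul,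
        jacobiSym.mul_left,
        ← mul_assoc, P004R.Wr.jac_sq (hS p m) (hc p m), one_mul]
  obtain ⟨m, rfl⟩ := Nat.exists_eq_succ_of_ne_zero M0.ne'
  have mS : ∀ p ∈ S, ¬ p ∣ m * t := fun p h e => ((hS p h).dvd_mul.1 e).elim
    (fun c => (hS p h).ne_one (Nat.dvd_one.1 ((Nat.dvd_add_right c).1 (Md p h)))) (tS p h)
  obtain ⟨x8, xj⟩ := key m.succ a t (fun p h e => nS p h (e.mul_right _)) tS
  obtain ⟨y8, yj⟩ := key N₁ b (m * t) (fun p h e => nS p h (e.mul_left _)) mS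
  have x1 := h1 (a * t)
  have x2 := f1 m.succ (a * t % m.succ)
  have xp := f2 m.succ (a * t % m.succ)
  have xw := f3 m.succ (a * t % m.succ)
  have y1 := h2' (b * (m * t))
  have y2 := f1 N₁ (b * (m * t) % m.succ)
  have yp := f2 N₁ (b * (m * t) % m.succ)
  have yw := f3 N₁ (b * (m * t) % m.succ)
  generalize f m.succ (a * t % m.succ) = x, f N₁ (b * (m * t) % m.succ) = y at *
  have nm {p q k : ℕ} (hp : p.Prime) (hq : q.Prime) (l : q < p) (h : ¬ p ∣ k) : ¬ p ∣ k * q :=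
    fun e => (hp.dvd_mul.1 e).elim h fun e => absurd (Nat.le_of_dvd hq.pos e) (by omega)
  have nx := nd xp (by omega)
  have ny := nm yp xp (by omega) (nd yp (by omega))
  have nu := nm up yp (by omega) (nm up xp (by omega) (nd up (by omega)))
  have nv := nm vp up (by omega) (nm vp yp (by omega) (nm vp xp (by omega) (nd vp le_rfl)))
  have sy := sq_mul (sq_mul n1 xp nx) yp ny
  have su := sq_mul sy up nu
  have sv := sq_mul su vp nv
  have y3 : b * y % 8 = 3 := by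
    rw [y8, Nat.mul_mod, t8, show m % 8 = 7 by omega]
  have j1 : ∀ p ∈ S, p ≠ 2 → J(-((a * x : ℕ) * (b * y : ℕ)) | p) = 1 := fun p h n => by
    rw [neg_eq_neg_one_mul, jacobiSym.mul_left, jacobiSym.mul_left, xj p h n, yj p h n,
      Nat.cast_mul, jacobiSym.mul_left, tj p h n, jacobiSym.mod_left' (a₁ := m) (a₂ := -1)
        (Int.modEq_iff_dvd.2 (by
          have := Int.natCast_dvd_natCast.2 (Md p h)
          rw [← dvd_neg, show -(-1 - m : ℤ) = (m + 1 : ℕ) by push_cast; ring]; exact this))]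
    have := jacobiSym.mul_left (-1) (-1) p
    rw [neg_one_mul, neg_neg, jacobiSym.one_left] at this
    linear_combination -this
  have wx := wt_mul (w := w) xp fun e : x ∣ a => nx (e.mul_right _)
  have wy := wt_mul (w := w) yp fun e : y ∣ b => ny ((e.mul_left _).mul_right _)
  have wu := wt_mul (w := w) up fun e : u ∣ b * y => nu (e.trans ⟨a * x, by ring⟩)
  have wv := wt_mul (w := w) vp fun e : v ∣ b * y * u => nv (e.trans ⟨a * x, by ring⟩)
  have pr := par hΔ od sy fun p h e => ((hS p h).dvd_mul.1 e).elim (fun e =>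
    ((hS p h).dvd_mul.1 e).elim (nS p h) fun e => by
      have := (Nat.prime_dvd_prime_iff_eq (hS p h) xp).1 e
      have := pM p h
      omega) fun e => by
    have := (Nat.prime_dvd_prime_iff_eq (hS p h) yp).1 e
    have := pM p h
    omega
  have wab : wt w (a * b) = wt w a + wt w b := by
    have c := Nat.coprime_of_squarefree_mul n1
    rw [wt, c.primeFactors_mul, sum_union c.disjoint_primeFactors, wt, wt]
  rw [sign sΔ.ne_zero hΔ (by
    rw [show a * b * x * y = a * x * (b * y) by ring, Nat.mul_mod, x8, y3, t8]) fun p h n => by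
      rw [← j1 p h n]; congr 1; push_cast; ring, wt_mul yp ny, wt_mul xp nx, wab] at pr
  have pr' : (wt w a + wt w b + w x + w y) % 2 = if Δ < 0 then 1 else 0 := by
    rcases Nat.even_or_odd (wt w a + wt w b + w x + w y) with e | e
    · rw [e.neg_one_pow] at pr
      rw [Nat.even_iff.1 e]
      split_ifs at pr ⊢ <;> omega
    · rw [e.neg_one_pow] at pr
      rw [Nat.odd_iff.1 e]
      split_ifs at pr ⊢ <;> omega
  have fin : ∀ k : ℕ, 0 < k → k ≤ v * v → Squarefree (a * b * x * y * k) → k % 8 = 1 →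
      (∀ p ∈ S, p ≠ 2 → J(k | p) = 1) →
      (wt w (b * y * k) = wt w (a * x) + if Δ < 0 then 1 else 0) → ∃ k, 0 < k ∧ k ≤ v * v * (v * v) ∧
      a * b * k ∈ {δ | B < δ ∧ ∃ d₁ d₂ : ℕ, δ = d₁ * d₂ ∧ Cg S d₁ d₂ ∧
        ∑ l ∈ d₂.primeFactors, w l = ∑ l ∈ d₁.primeFactors, w l + if Δ < 0 then 1 else 0} :=
    fun k k0 k1 k2 k3 k4 k5 => by
    have p0 := mul_pos (mul_pos xp.pos yp.pos) k0
    refine ⟨x * y * k, p0, Nat.mul_le_mul (Nat.mul_le_mul (by omega) (by omega)) k1,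
      n3.trans_le (Nat.le_mul_of_pos_right _ p0), a * x, b * y * k, by ring,
      ⟨by convert k2 using 1; ring, x8.trans t8, by rw [Nat.mul_mod, y3, k3],
        fun p h n => ⟨(xj p h n).trans (tj p h n), ?_⟩⟩, k5⟩
    rw [Nat.cast_mul (b * y), ← mul_assoc, ← neg_mul, jacobiSym.mul_left, j1 p h n, k4 p h n,
      mul_one]
  have v0 := vp.pos
  have vv : v ≤ v * v := Nat.le_mul_self v
  rcases ar w1 w2 xw yw (by split_ifs <;> omega) pr' with e | e | e
  · exact fin 1 one_pos (by omega) (by rwa [mul_one]) rfl (by simp) (by rw [mul_one]; omega)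
  · exact fin u up.pos (by omega) su u8 uj (by omega)
  · exact fin (u * v) (mul_pos up.pos v0) (Nat.mul_le_mul_right _ (by omega))
      (by simpa [mul_assoc] using sv) (by rw [Nat.mul_mod, u8, v8]) (fun p h n => by
        rw [Nat.cast_mul, jacobiSym.mul_left, uj p h n, vj p h n, mul_one])
      (by rw [← mul_assoc]; omega)

end Vale.Agent.P004C.Mu
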